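import Vale.Agent.Lib.P042.Weyl

/-! # P042 TASK A: arcs (Lemma W2), blueprint Section 2 with the Bezout simplification -/

namespace Vale.Agent.Lib.P042

open Finset

/-- The real polynomial `α f`. -/
private noncomputable def rp (α : ℝ) (f : Polynomial ℤ) : Polynomial ℝ :=
  Polynomial.C α * f.map (Int.castRingHom ℝ)

private lemma rp_eval (α : ℝ) (f : Polynomial ℤ) (y : ℕ) :
    (rp α f).eval (y : ℝ) = α * ((f.eval (y : ℤ) : ℤ) : ℝ) := by
  have h := Polynomial.eval_intCast_map (Int.castRingHom ℝ) f (y : ℤ)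
  simp only [Int.cast_natCast, eq_intCast] at h
  simp [rp, h]

private lemma rp_coeff (α : ℝ) (f : Polynomial ℤ) (i : ℕ) :
    (rp α f).coeff i = α * (f.coeff i : ℝ) := by
  simp [rp]

private lemma rp_natDegree (α : ℝ) (f : Polynomial ℤ) : (rp α f).natDegree ≤ f.natDegree := by
  unfold rp
  refine (Polynomial.natDegree_C_mul_le _ _).trans ?_
  exact Polynomial.natDegree_map_le

private lemma norm_e (t : ℝ) : ‖e t‖ = 1 := by
  unfold e
  have : (2 * (Real.pi : ℂ) * Complex.I * (t : ℂ)) = ((2 * Real.pi * t : ℝ) : ℂ) * Complex.I := by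
    push_cast; ring
  rw [this, Complex.norm_exp_ofReal_mul_I]

/-- The sum over `(M/2, M]` as a difference of two initial sums. -/
private lemma Sexp_eq (f : Polynomial ℤ) (M : ℕ) (α : ℝ) :
    Sexp f M α = ∑ y ∈ range (M + 1), e ((rp α f).eval (y : ℝ))
      - ∑ y ∈ range (M / 2 + 1), e ((rp α f).eval (y : ℝ)) := by
  have h : Ioc (M / 2) M = Ico (M / 2 + 1) (M + 1) := by
    ext y; simp only [mem_Ioc, mem_Ico]; omega
  have hle : M / 2 + 1 ≤ M + 1 := by omega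
  unfold Sexp
  rw [h, ← Finset.sum_Ico_eq_sub _ hle]
  refine Finset.sum_congr rfl fun y _ => ?_
  rw [rp_eval]

private lemma Sexp_norm_le (f : Polynomial ℤ) (M : ℕ) (α : ℝ) :
    ‖Sexp f M α‖ ≤ ((M - M / 2 : ℕ) : ℝ) := by
  unfold Sexp
  refine (norm_sum_le _ _).trans ?_
  simp only [norm_e, sum_const, Nat.card_Ioc, nsmul_eq_mul, mul_one, le_refl]

/-- Integer with absolute value `< 1` vanishes (real form). -/
private lemma int_eq_zero_of_abs_lt {z : ℤ} (h : |(z : ℝ)| < 1) : z = 0 := by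
  have : |z| < 1 := by exact_mod_cast h
  exact Int.abs_lt_one_iff.mp this

theorem exists_arcs (k : ℕ) (hk : 2 ≤ k) : ∃ C3 : ℕ, 1 ≤ C3 ∧ ArcsProp k C3 := by
  obtain ⟨C, hC1, hW⟩ := weyl k
  refine ⟨6 * C + 3 * k + 4, by omega, ?_⟩
  set C3 := 6 * C + 3 * k + 4 with hC3
  intro f hf H hH M η α hη0 hη1 hMlarge hS
  -- basic facts on `a`
  have hdeg : f.natDegree = k := hf.deg
  have ha_pos : 0 < f.leadingCoeff := hf.lc
  have ha1 : (1 : ℝ) ≤ (f.leadingCoeff : ℝ) := by exact_mod_cast ha_pos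
  have haeq : f.leadingCoeff = f.coeff k := by
    rw [Polynomial.leadingCoeff, hdeg]
  have haH : (f.leadingCoeff : ℝ) ≤ H := by
    have := hH k
    rw [← haeq] at this
    exact (le_abs_self _).trans this
  have hH1 : (1 : ℝ) ≤ H := ha1.trans haH
  have hH0 : 0 < H := by linarith
  set x : ℝ := η⁻¹ with hx
  have hx1 : 1 ≤ x := by
    rw [hx]; exact (one_le_inv₀ hη0).mpr hη1
  have hx0 : 0 < x := by linarith
  have hHη : H / η = H * x := by rw [hx, div_eq_mul_inv]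
  have hHx1 : 1 ≤ H * x := by nlinarith
  -- M ≥ 1
  have hMpow : (H * x) ^ C3 ≤ (M : ℝ) := by rw [← hHη]; exact hMlarge
  have hM1 : 1 ≤ M := by
    have : (1 : ℝ) ≤ (M : ℝ) := (one_le_pow₀ hHx1).trans hMpow
    exact_mod_cast this
  by_cases hM2 : M = 1
  · -- degenerate case
    subst hM2
    have hle : (H * x) ^ C3 ≤ 1 := by simpa using hMpow
    have hHx : H * x ≤ 1 := by
      by_contra hcon
      push Not at hcon
      have := one_lt_pow₀ hcon (n := C3) (by omega)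
      linarith
    have hH' : H = 1 := by nlinarith
    have hx' : x = 1 := by nlinarith
    have ha' : (f.leadingCoeff : ℝ) = 1 := by linarith
    refine ⟨1, round α, le_refl _, ?_, ?_⟩
    · simp [hx', one_pow]
    · simp only [Nat.cast_one, div_one, one_pow, mul_one, hx', ha']
      have := abs_sub_round α
      linarith
  -- main case
  have hM2' : 2 ≤ M := by omega
  have hMR : (2 : ℝ) ≤ (M : ℝ) := by exact_mod_cast hM2'
  have hM0 : (0 : ℝ) < (M : ℝ) := by linarith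
  -- η ≤ 3/4
  have hη34 : η ≤ 3 / 4 := by
    have h1 := hS.trans (Sexp_norm_le f M α)
    have h2 : ((M - M / 2 : ℕ) : ℝ) ≤ 3 / 4 * (M : ℝ) := by
      have h3 : 4 * (M - M / 2) ≤ 3 * M := by omega
      have h4 : ((4 * (M - M / 2) : ℕ) : ℝ) ≤ ((3 * M : ℕ) : ℝ) := by exact_mod_cast h3
      push_cast at h4
      linarith
    have h5 : η * M ≤ 3 / 4 * M := h1.trans h2
    exact le_of_mul_le_mul_right h5 hM0
  have hx43 : (4 / 3 : ℝ) ≤ x := by
    rw [hx]
    have : (3 / 4 : ℝ)⁻¹ ≤ η⁻¹ := inv_anti₀ hη0 hη34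
    calc (4 / 3 : ℝ) = (3 / 4 : ℝ)⁻¹ := by norm_num
      _ ≤ η⁻¹ := this
  have hx3 : (2 : ℝ) ≤ x ^ 3 := by
    calc (2 : ℝ) ≤ (4 / 3 : ℝ) ^ 3 := by norm_num
      _ ≤ x ^ 3 := by gcongr
  have hx6 : 4 * x ≤ x ^ 6 := by
    have h5 : (4 : ℝ) ≤ x ^ 5 := by
      calc (4 : ℝ) ≤ (4 / 3 : ℝ) ^ 5 := by norm_num
        _ ≤ x ^ 5 := by gcongr
    calc 4 * x ≤ x ^ 5 * x := by gcongr
      _ = x ^ 6 := by ring
  -- the Weyl application on one of the two initial segments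
  set η' : ℝ := η / 4 with hη'
  have hη'0 : 0 < η' := by positivity
  have hη'1 : η' ≤ 1 / 2 := by rw [hη']; linarith
  have hη'inv : η'⁻¹ = 4 * x := by
    rw [hη', hx]; field_simp
  obtain ⟨M', hM'1, hM'2, hM'3⟩ : ∃ M' : ℕ, 1 ≤ M' ∧ M ≤ 2 * M' ∧
      η' * M' ≤ ‖∑ y ∈ range M', e ((rp α f).eval (y : ℝ))‖ := by
    by_cases hcase : η * M / 2 ≤ ‖∑ y ∈ range (M + 1), e ((rp α f).eval (y : ℝ))‖
    · refine ⟨M + 1, by omega, by omega, le_trans ?_ hcase⟩
      push_cast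
      rw [hη']
      nlinarith
    · push Not at hcase
      refine ⟨M / 2 + 1, by omega, by omega, ?_⟩
      have hsub : η * M ≤ ‖∑ y ∈ range (M + 1), e ((rp α f).eval (y : ℝ))‖
          + ‖∑ y ∈ range (M / 2 + 1), e ((rp α f).eval (y : ℝ))‖ := by
        refine hS.trans ?_
        rw [Sexp_eq]
        exact norm_sub_le _ _
      have hle : ((M / 2 + 1 : ℕ) : ℝ) ≤ 2 * (M : ℝ) := by
        have : M / 2 + 1 ≤ 2 * M := by omega
        exact_mod_cast this
      have h6 : η' * ((M / 2 + 1 : ℕ) : ℝ) ≤ η' * (2 * (M : ℝ)) := by gcongr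
      have h7 : η' * (2 * (M : ℝ)) = η * M / 2 := by rw [hη']; ring
      linarith
  obtain ⟨q, hq1, hq2, hq3⟩ := hW M' η' (rp α f) hM'1 hη'0 hη'1
    ((rp_natDegree α f).trans hdeg.le) hM'3
  -- the size parameter
  set E : ℝ := (4 * x) ^ C * 2 ^ k with hE
  have hE0 : 0 < E := by positivity
  have hq3' : ∀ i ∈ Icc 1 k, |(q : ℝ) * α * (f.coeff i : ℝ) - (round ((q : ℝ) * α * (f.coeff i : ℝ)) : ℝ)|
      ≤ E / (M : ℝ) ^ i := by
    intro i hi
    have h := hq3 i hi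
    rw [rp_coeff, hη'inv] at h
    unfold nint at h
    rw [← mul_assoc] at h
    refine h.trans ?_
    have hi' := (mem_Icc.mp hi)
    have hM'R : (M : ℝ) ≤ 2 * (M' : ℝ) := by exact_mod_cast hM'2
    have hM'0 : (0 : ℝ) < (M' : ℝ) := by
      have : 0 < M' := by omega
      exact_mod_cast this
    rw [hE, div_le_div_iff₀ (by positivity) (by positivity)]
    have h8 : (M : ℝ) ^ i ≤ (2 : ℝ) ^ k * (M' : ℝ) ^ i := by
      calc (M : ℝ) ^ i ≤ (2 * (M' : ℝ)) ^ i := by gcongr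
        _ = (2 : ℝ) ^ i * (M' : ℝ) ^ i := by ring
        _ ≤ (2 : ℝ) ^ k * (M' : ℝ) ^ i := by
          gcongr
          · norm_num
          · exact hi'.2
    have h9 : (0 : ℝ) ≤ (4 * x) ^ C := by positivity
    calc (4 * x) ^ C * (M : ℝ) ^ i ≤ (4 * x) ^ C * ((2 : ℝ) ^ k * (M' : ℝ) ^ i) := by gcongr
      _ = (4 * x) ^ C * 2 ^ k * (M' : ℝ) ^ i := by ring
  have hEle : E ≤ x ^ (6 * C + 3 * k) := by
    rw [hE, pow_add, pow_mul x 3 k, pow_mul x 6 C]
    refine mul_le_mul ?_ ?_ (by positivity) (by positivity)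
    · gcongr
    · gcongr
  -- `2 H E < M`
  have h2HE : 2 * H * E < (M : ℝ) := by
    have hxpow : x ^ (6 * C + 3 * k + 3) < x ^ C3 := by
      refine pow_lt_pow_right₀ (by linarith) (by omega)
    have hHpow : H ≤ H ^ C3 := le_self_pow₀ hH1 (by omega)
    calc 2 * H * E ≤ x ^ 3 * H * x ^ (6 * C + 3 * k) := by
          gcongr
      _ = H * x ^ (6 * C + 3 * k + 3) := by ring
      _ < H * x ^ C3 := by
          exact mul_lt_mul_of_pos_left hxpow hH0
      _ ≤ H ^ C3 * x ^ C3 := by gcongr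
      _ = (H * x) ^ C3 := by rw [mul_pow]
      _ ≤ M := hMpow
  -- integer structure
  set θ : ℝ := (q : ℝ) * α with hθ
  set a : ℤ := f.leadingCoeff with ha
  set m : ℤ := round (θ * (a : ℝ)) with hm
  have hk1 : k ∈ Icc 1 k := mem_Icc.mpr ⟨by omega, le_refl _⟩
  have hmb : |θ * (a : ℝ) - (m : ℝ)| ≤ E / (M : ℝ) ^ k := by
    have := hq3' k hk1
    rw [← haeq] at this
    exact this
  have hMk : (M : ℝ) ≤ (M : ℝ) ^ k := le_self_pow₀ (by linarith) (by omega)
  have hEM : E / (M : ℝ) ^ k ≤ E / M := by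
    gcongr
  -- `a n_i = c_i m`
  have hdiv : ∀ i ∈ Icc 1 k, a * round (θ * (f.coeff i : ℝ)) = f.coeff i * m := by
    intro i hi
    set n : ℤ := round (θ * (f.coeff i : ℝ)) with hn
    have hib := (mem_Icc.mp hi)
    have h1 : |θ * (f.coeff i : ℝ) - (n : ℝ)| ≤ E / M := by
      refine (hq3' i hi).trans ?_
      have : (M : ℝ) ≤ (M : ℝ) ^ i := le_self_pow₀ (by linarith) (by omega)
      gcongr
    have hzero : a * n - f.coeff i * m = 0 := by
      apply int_eq_zero_of_abs_lt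
      push_cast
      have hid : ((a : ℝ) * (n : ℝ) - (f.coeff i : ℝ) * (m : ℝ))
          = (f.coeff i : ℝ) * (θ * (a : ℝ) - (m : ℝ)) - (a : ℝ) * (θ * (f.coeff i : ℝ) - (n : ℝ)) := by
        ring
      rw [hid]
      have ha0 : (0 : ℝ) ≤ (a : ℝ) := by rw [ha]; linarith
      have habs_a : |(a : ℝ)| ≤ H := by rw [abs_of_nonneg ha0]; exact haH
      have habs_c : |(f.coeff i : ℝ)| ≤ H := hH i
      have hE' : 0 ≤ E / (M : ℝ) := by positivity
      calc |(f.coeff i : ℝ) * (θ * (a : ℝ) - (m : ℝ)) - (a : ℝ) * (θ * (f.coeff i : ℝ) - (n : ℝ))|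
          ≤ |(f.coeff i : ℝ) * (θ * (a : ℝ) - (m : ℝ))| + |(a : ℝ) * (θ * (f.coeff i : ℝ) - (n : ℝ))| :=
            abs_sub _ _
        _ = |(f.coeff i : ℝ)| * |θ * (a : ℝ) - (m : ℝ)| + |(a : ℝ)| * |θ * (f.coeff i : ℝ) - (n : ℝ)| := by
            rw [abs_mul, abs_mul]
        _ ≤ H * (E / M) + H * (E / M) := by
            have h2 := hmb.trans hEM
            gcongr
        _ = 2 * H * E / M := by ring
        _ < 1 := by
            rw [div_lt_one hM0]
            exact h2HE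
    linarith
  -- Bezout
  obtain ⟨v, hv⟩ := hf.bez
  set bb : ℤ := ∑ i ∈ Icc 1 k, v i * round (θ * (f.coeff i : ℝ)) with hbb
  have hm_eq : m = a * bb := by
    calc m = (∑ i ∈ Icc 1 k, v i * f.coeff i) * m := by rw [hv, one_mul]
      _ = ∑ i ∈ Icc 1 k, v i * (f.coeff i * m) := by
          rw [Finset.sum_mul]
          refine Finset.sum_congr rfl fun i _ => by ring
      _ = ∑ i ∈ Icc 1 k, v i * (a * round (θ * (f.coeff i : ℝ))) := by
          refine Finset.sum_congr rfl fun i hi => by rw [hdiv i hi]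
      _ = a * bb := by
          rw [hbb, Finset.mul_sum]
          refine Finset.sum_congr rfl fun i _ => by ring
  have ha0 : (0 : ℝ) < (a : ℝ) := by rw [ha]; linarith
  have hq0 : (0 : ℝ) < (q : ℝ) := by
    have : 0 < q := by omega
    exact_mod_cast this
  have hq1R : (1 : ℝ) ≤ (q : ℝ) := by exact_mod_cast hq1
  have hθb : |θ - (bb : ℝ)| ≤ E / ((a : ℝ) * (M : ℝ) ^ k) := by
    have h1 : θ * (a : ℝ) - (m : ℝ) = (a : ℝ) * (θ - (bb : ℝ)) := by
      rw [hm_eq]; push_cast; ring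
    rw [h1, abs_mul, abs_of_pos ha0] at hmb
    rw [le_div_iff₀ (by positivity)]
    have : |θ - (bb : ℝ)| * ((a : ℝ) * (M : ℝ) ^ k) = ((a : ℝ) * |θ - (bb : ℝ)|) * (M : ℝ) ^ k := by ring
    rw [this]
    rwa [le_div_iff₀ (by positivity)] at hmb
  have hE_C3 : E ≤ x ^ C3 := by
    refine hEle.trans ?_
    exact pow_le_pow_right₀ hx1 (by omega)
  refine ⟨q, bb, hq1, ?_, ?_⟩
  · -- size of q
    calc (q : ℝ) ≤ η'⁻¹ ^ C := hq2
      _ = (4 * x) ^ C := by rw [hη'inv]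
      _ ≤ (x ^ 6) ^ C := by gcongr
      _ = x ^ (6 * C) := by rw [pow_mul]
      _ ≤ x ^ C3 := pow_le_pow_right₀ hx1 (by omega)
  · have hid : α - (bb : ℝ) / q = (θ - (bb : ℝ)) / q := by
      rw [hθ]; field_simp
    rw [hid, abs_div, abs_of_pos hq0]
    have hpos : 0 < (a : ℝ) * (M : ℝ) ^ k := by positivity
    calc |θ - (bb : ℝ)| / q ≤ |θ - (bb : ℝ)| := div_le_self (abs_nonneg _) hq1R
      _ ≤ E / ((a : ℝ) * (M : ℝ) ^ k) := hθb
      _ ≤ x ^ C3 / ((a : ℝ) * (M : ℝ) ^ k) := by gcongr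

end Vale.Agent.Lib.P042
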