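import Vale.Agent.Lib.P042.Defs

/-! # P042 TASK R: arithmetic of progressions and fractions, blueprint Section 7 -/

namespace Vale.Agent.Lib.P042

open Finset

/-- A progression of step `K` coprime to the `m_i`, cut by residue conditions, is a progression of step `K ∏ m_i`. -/
theorem class_ap {n : ℕ} (m : Fin n → ℕ) [∀ i, NeZero (m i)] (hcop : Pairwise (Function.onFun Nat.Coprime m))
    (K : ℕ) (hK : ∀ i, Nat.Coprime K (m i)) (hK1 : 1 ≤ K) (x0 : ℤ) (nP : ℕ) (U : Finset (Fin n))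
    (w : ∀ i, ZMod (m i)) :
    ∃ (x1 : ℤ) (c : ℕ),
      ((range nP).image (fun z : ℕ => x0 + (K : ℤ) * z)).filter (fun u => ∀ i ∈ U, ((u : ℤ) : ZMod (m i)) = w i)
        = (range c).image (fun z : ℕ => x1 + ((K * ∏ i ∈ U, m i : ℕ) : ℤ) * z) ∧
      |(c : ℝ) - (nP : ℝ) / ((∏ i ∈ U, m i : ℕ) : ℝ)| ≤ 1 := by
  classical
  have hunit : ∀ i, IsUnit ((K : ℕ) : ZMod (m i)) :=
    fun i => (ZMod.isUnit_iff_coprime K (m i)).2 (hK i)
  let a : Fin n → ℕ := fun i => (((hunit i).unit⁻¹ : (ZMod (m i))ˣ) * (w i - ((x0 : ℤ) : ZMod (m i)))).val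
  have hs : ∀ i ∈ U, m i ≠ 0 := fun i _ => NeZero.ne _
  have pp : Set.Pairwise (U : Set (Fin n)) (Function.onFun Nat.Coprime m) :=
    fun i _ j _ hij => hcop hij
  let z0sub := Nat.chineseRemainderOfFinset a m U hs pp
  have hz0 : ∀ i ∈ U, z0sub.1 ≡ a i [MOD m i] := z0sub.2
  have hz0lt : z0sub.1 < ∏ i ∈ U, m i := Nat.chineseRemainderOfFinset_lt_prod a m hs pp
  set z0 : ℕ := z0sub.1 with hz0def
  set Mm : ℕ := ∏ i ∈ U, m i with hMm
  have Mpos : 0 < Mm := lt_of_le_of_lt (Nat.zero_le _) hz0lt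
  -- the key equivalence
  have hres : ∀ (z : ℕ) (i : Fin n), i ∈ U →
      ((((x0 + (K : ℤ) * z : ℤ)) : ZMod (m i)) = w i ↔ ((z : ZMod (m i)) = (z0 : ZMod (m i)))) := by
    intro z i hi
    have h1 : ((z0 : ℕ) : ZMod (m i)) = ((a i : ℕ) : ZMod (m i)) :=
      (ZMod.natCast_eq_natCast_iff _ _ _).2 (hz0 i hi)
    have h2 : ((a i : ℕ) : ZMod (m i)) = ((hunit i).unit⁻¹ : (ZMod (m i))ˣ) * (w i - ((x0 : ℤ) : ZMod (m i))) := by
      simp [a]
    rw [h1, h2]
    push_cast
    constructor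
    · intro h
      rw [← h]
      have hu : (((hunit i).unit⁻¹ : (ZMod (m i))ˣ) : ZMod (m i)) * ((K : ℕ) : ZMod (m i)) = 1 := by
        have := (hunit i).unit.inv_mul
        simpa using this
      calc (z : ZMod (m i)) = (((hunit i).unit⁻¹ : (ZMod (m i))ˣ) * ((K : ℕ) : ZMod (m i))) * z := by rw [hu, one_mul]
        _ = _ := by ring
    · intro h
      rw [h]
      have hu : ((K : ℕ) : ZMod (m i)) * (((hunit i).unit⁻¹ : (ZMod (m i))ˣ) : ZMod (m i)) = 1 := by
        have := (hunit i).unit.mul_inv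
        simpa using this
      calc (x0 : ZMod (m i)) + (K : ZMod (m i)) * (((hunit i).unit⁻¹ : (ZMod (m i))ˣ) * (w i - (x0 : ZMod (m i))))
          = (x0 : ZMod (m i)) + ((K : ZMod (m i)) * (((hunit i).unit⁻¹ : (ZMod (m i))ˣ) : ZMod (m i))) * (w i - (x0 : ZMod (m i))) := by ring
        _ = w i := by rw [hu]; ring
  have key : ∀ z : ℕ, (∀ i ∈ U, (((x0 + (K : ℤ) * z : ℤ)) : ZMod (m i)) = w i) ↔
      (Mm : ℤ) ∣ (z : ℤ) - z0 := by
    intro z
    constructor
    · intro h
      have hd : ∀ i ∈ U, ((m i : ℕ) : ℤ) ∣ (z : ℤ) - z0 := by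
        intro i hi
        have := (hres z i hi).1 (h i hi)
        have h3 : (((z : ℤ) - (z0 : ℤ) : ℤ) : ZMod (m i)) = 0 := by
          push_cast; rw [this]; ring
        exact (ZMod.intCast_zmod_eq_zero_iff_dvd _ _).1 h3
      rw [hMm]
      push_cast
      apply Finset.prod_dvd_of_coprime _ hd
      intro i hi j hj hij
      exact Nat.isCoprime_iff_coprime.2 (hcop hij)
    · intro h i hi
      rw [hres z i hi]
      have hdvd : ((m i : ℕ) : ℤ) ∣ (z : ℤ) - z0 := by
        refine dvd_trans ?_ h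
        rw [hMm]
        exact_mod_cast Finset.dvd_prod_of_mem m hi
      have h3 : (((z : ℤ) - (z0 : ℤ) : ℤ) : ZMod (m i)) = 0 :=
        (ZMod.intCast_zmod_eq_zero_iff_dvd _ _).2 hdvd
      have h4 : ((z : ℤ) : ZMod (m i)) - ((z0 : ℤ) : ZMod (m i)) = 0 := by
        simpa using h3
      have := sub_eq_zero.1 h4
      simpa using this
  -- the number of terms
  let c : ℕ := if z0 < nP then (nP - z0 + Mm - 1) / Mm else 0
  have hc1 : ∀ t : ℕ, z0 + Mm * t < nP ↔ t < c := by
    intro t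
    by_cases hz : z0 < nP
    · simp only [c, if_pos hz]
      have h0 : t < (nP - z0 + Mm - 1) / Mm ↔ (t + 1) * Mm ≤ nP - z0 + Mm - 1 := by
        rw [← Nat.le_div_iff_mul_le Mpos]
        exact Nat.lt_iff_add_one_le
      rw [h0, Nat.add_mul, Nat.one_mul]
      have : t * Mm = Mm * t := Nat.mul_comm _ _
      omega
    · simp only [c, if_neg hz]
      have : 0 ≤ Mm * t := Nat.zero_le _
      omega
  refine ⟨x0 + (K : ℤ) * z0, c, ?_, ?_⟩
  · ext u
    simp only [mem_filter, mem_image, mem_range]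
    constructor
    · rintro ⟨⟨z, hz, rfl⟩, h2⟩
      have hd := (key z).1 h2
      obtain ⟨t, ht⟩ := hd
      -- z ≥ z0 or not
      have hz0le : z0 ≤ z := by
        by_contra hlt
        push Not at hlt
        have h5 : (z : ℤ) - z0 < 0 := by omega
        have h6 : -(Mm : ℤ) < (z : ℤ) - z0 := by
          have : (z0 : ℤ) < Mm := by exact_mod_cast hz0lt
          have : (0 : ℤ) ≤ z := by positivity
          omega
        have hMz : (0 : ℤ) < Mm := by exact_mod_cast Mpos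
        rw [ht] at h5 h6
        have h7 : t < 0 := by
          by_contra h8
          push Not at h8
          have : 0 ≤ (Mm : ℤ) * t := by positivity
          omega
        have h8 : -1 < t := by
          by_contra h9
          push Not at h9
          have : (Mm : ℤ) * t ≤ (Mm : ℤ) * (-1) := by
            exact mul_le_mul_of_nonneg_left h9 hMz.le
          omega
        omega
      have htn : 0 ≤ t := by
        have hMz : (0 : ℤ) < Mm := by exact_mod_cast Mpos
        by_contra h9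
        push Not at h9
        have : (Mm : ℤ) * t < 0 := mul_neg_of_pos_of_neg hMz h9
        omega
      obtain ⟨t', rfl⟩ := Int.eq_ofNat_of_zero_le htn
      refine ⟨t', ?_, ?_⟩
      · rw [← hc1]
        have : (z : ℤ) = z0 + Mm * t' := by linarith
        have h10 : z = z0 + Mm * t' := by exact_mod_cast this
        omega
      · have h10 : (z : ℤ) = z0 + Mm * t' := by linarith
        rw [h10]
        push_cast
        ring
    · rintro ⟨t, ht, rfl⟩
      have hz := (hc1 t).2 ht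
      refine ⟨⟨z0 + Mm * t, hz, ?_⟩, ?_⟩
      · push_cast; ring
      · have h11 : x0 + (K : ℤ) * z0 + ((K * Mm : ℕ) : ℤ) * t
            = x0 + (K : ℤ) * ((z0 + Mm * t : ℕ) : ℤ) := by
          push_cast; ring
        rw [h11]
        apply (key _).2
        exact ⟨t, by push_cast; ring⟩
  · have hMr : (0 : ℝ) < (Mm : ℝ) := by exact_mod_cast Mpos
    have hz0r : (z0 : ℝ) < Mm := by exact_mod_cast hz0lt
    rw [abs_le]
    by_cases hz : z0 < nP
    · have hcdef : c = (nP - z0 + Mm - 1) / Mm := by simp only [c, if_pos hz]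
      -- bounds on c
      have h1 : nP ≤ z0 + Mm * c := by
        by_contra hlt
        push Not at hlt
        exact absurd ((hc1 c).1 hlt) (lt_irrefl _)
      have h2 : c = 0 ∨ z0 + Mm * (c - 1) < nP := by
        rcases Nat.eq_zero_or_pos c with h | h
        · exact Or.inl h
        · right
          exact (hc1 (c - 1)).2 (by omega)
      have h1r : (nP : ℝ) ≤ z0 + Mm * c := by exact_mod_cast h1
      have hdiv : (nP : ℝ) / Mm ≤ c + 1 := by
        rw [div_le_iff₀ hMr]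
        nlinarith
      have hdiv2 : (c : ℝ) ≤ (nP : ℝ) / Mm + 1 := by
        rw [← sub_le_iff_le_add, le_div_iff₀ hMr]
        rcases h2 with h | h
        · rw [h]
          have : (0 : ℝ) ≤ nP := by positivity
          push_cast
          nlinarith
        · have hcpos : 1 ≤ c := by
            by_contra hc0
            have hc00 : c = 0 := by omega
            have := hc1 0
            simp [hc00] at this
            omega
          have hr : ((z0 + Mm * (c - 1) : ℕ) : ℝ) < nP := by exact_mod_cast h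
          push_cast [Nat.cast_sub hcpos] at hr
          have : (0 : ℝ) ≤ z0 := by positivity
          nlinarith
      push_cast
      constructor <;> linarith
    · have hcdef : c = 0 := by simp only [c, if_neg hz]
      rw [hcdef]
      have h1 : (nP : ℝ) / Mm ≤ 1 := by
        rw [div_le_one hMr]
        have : nP ≤ z0 := by omega
        have : (nP : ℝ) ≤ z0 := by exact_mod_cast this
        linarith
      have h2 : (0 : ℝ) ≤ (nP : ℝ) / Mm := by positivity
      push_cast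
      constructor <;> linarith

/-- The primes in `(y, Qs]`. -/
def primesIn (y Qs : ℕ) : Finset ℕ := (Ioc y Qs).filter Nat.Prime

/-- Enumeration of the primes in `(y, Qs]`. -/
noncomputable def pr (y Qs : ℕ) (i : Fin (primesIn y Qs).card) : ℕ :=
  (primesIn y Qs).orderEmbOfFin rfl i

/-- The coordinate moduli: `m_p = p^{e_p}`, `p^{e_p} ≤ Qs < p^{e_p+1}`. -/
noncomputable def mc (y Qs : ℕ) (i : Fin (primesIn y Qs).card) : ℕ :=
  pr y Qs i ^ Nat.log (pr y Qs i) Qs

theorem pr_mem (y Qs : ℕ) (i : Fin (primesIn y Qs).card) : pr y Qs i ∈ primesIn y Qs :=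
  Finset.orderEmbOfFin_mem _ rfl i

theorem pr_prime (y Qs : ℕ) (i : Fin (primesIn y Qs).card) : (pr y Qs i).Prime :=
  (Finset.mem_filter.1 (pr_mem y Qs i)).2

theorem pr_gt (y Qs : ℕ) (i : Fin (primesIn y Qs).card) : y < pr y Qs i :=
  (Finset.mem_Ioc.1 (Finset.mem_filter.1 (pr_mem y Qs i)).1).1

theorem pr_le (y Qs : ℕ) (i : Fin (primesIn y Qs).card) : pr y Qs i ≤ Qs :=
  (Finset.mem_Ioc.1 (Finset.mem_filter.1 (pr_mem y Qs i)).1).2

theorem pr_injective (y Qs : ℕ) : Function.Injective (pr y Qs) :=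
  ((primesIn y Qs).orderEmbOfFin rfl).injective

theorem exists_pr {y Qs p : ℕ} (hp : p ∈ primesIn y Qs) : ∃ i, pr y Qs i = p := by
  have h : p ∈ Set.range (pr y Qs) := by
    unfold pr
    rw [Finset.range_orderEmbOfFin]
    exact hp
  exact h

instance mc_neZero (y Qs : ℕ) (i : Fin (primesIn y Qs).card) : NeZero (mc y Qs i) :=
  ⟨pow_ne_zero _ (pr_prime y Qs i).ne_zero⟩

theorem mc_le (y Qs : ℕ) (i : Fin (primesIn y Qs).card) : mc y Qs i ≤ Qs := by
  have h0 : Qs ≠ 0 := by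
    have h1 := pr_le y Qs i
    have h2 := (pr_prime y Qs i).pos
    omega
  exact Nat.pow_log_le_self _ h0

theorem mc_coprime (y Qs : ℕ) : Pairwise (Function.onFun Nat.Coprime (mc y Qs)) := by
  intro i j hij
  have hne : pr y Qs i ≠ pr y Qs j := fun h => hij (pr_injective y Qs h)
  have hc : Nat.Coprime (pr y Qs i) (pr y Qs j) :=
    (Nat.coprime_primes (pr_prime y Qs i) (pr_prime y Qs j)).2 hne
  exact Nat.Coprime.pow _ _ hc

theorem mc_coprime_K (y Qs v : ℕ) (i : Fin (primesIn y Qs).card) :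
    Nat.Coprime (Nat.factorial y ^ v) (mc y Qs i) := by
  have hp := pr_prime y Qs i
  have hnd : ¬ pr y Qs i ∣ Nat.factorial y := by
    rw [hp.dvd_factorial]
    have := pr_gt y Qs i
    omega
  have hc : Nat.Coprime (pr y Qs i) (Nat.factorial y) := (Nat.Prime.coprime_iff_not_dvd hp).2 hnd
  exact Nat.Coprime.pow _ _ hc.symm

theorem card_primesIn_le (y Qs : ℕ) : (primesIn y Qs).card ≤ Qs := by
  calc (primesIn y Qs).card ≤ (Ioc y Qs).card := Finset.card_filter_le _ _
    _ = Qs - y := Nat.card_Ioc _ _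
    _ ≤ Qs := Nat.sub_le _ _

/-- Partial fractions over coprime moduli. -/
theorem partial_fractions {n : ℕ} (m : Fin n → ℕ) (hm0 : ∀ i, m i ≠ 0)
    (hcop : Pairwise (Function.onFun Nat.Coprime m))
    (K : ℕ) (hK0 : K ≠ 0) (hK : ∀ i, Nat.Coprime K (m i)) (T : Finset (Fin n)) (c : ℤ) :
    ∃ (κ : ℤ) (a : Fin n → ℤ), (∀ i, i ∉ T → a i = 0) ∧
      (c : ℝ) / ((K : ℝ) * ∏ i ∈ T, (m i : ℝ)) = (κ : ℝ) / K + ∑ i ∈ T, (a i : ℝ) / (m i : ℝ) := by
  induction T using Finset.induction_on generalizing c with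
  | empty =>
    refine ⟨c, fun _ => 0, fun _ _ => rfl, ?_⟩
    simp
  | insert t T ht ih =>
    -- Bezout between `A = K * prod_T m` and `B = m t`
    have hcopN : Nat.Coprime (K * ∏ i ∈ T, m i) (m t) := by
      apply Nat.Coprime.mul_left (hK t)
      apply Nat.Coprime.prod_left
      intro i hi
      have hne : i ≠ t := fun h => ht (h ▸ hi)
      exact hcop hne
    have hint : IsCoprime ((K * ∏ i ∈ T, m i : ℕ) : ℤ) ((m t : ℕ) : ℤ) :=
      Nat.isCoprime_iff_coprime.2 hcopN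
    obtain ⟨u, v, huv⟩ := hint
    obtain ⟨κ, a, ha0, ha⟩ := ih (c * v)
    refine ⟨κ, Function.update a t (c * u), ?_, ?_⟩
    · intro i hi
      have hit : i ≠ t := fun h => hi (h ▸ Finset.mem_insert_self t T)
      rw [Function.update_of_ne hit]
      exact ha0 i (fun h => hi (Finset.mem_insert_of_mem h))
    · have hA : ((K : ℝ) * ∏ i ∈ T, (m i : ℝ)) ≠ 0 := by
        apply mul_ne_zero (Nat.cast_ne_zero.2 hK0)
        exact Finset.prod_ne_zero_iff.2 fun i _ => Nat.cast_ne_zero.2 (hm0 i)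
      have hB : (m t : ℝ) ≠ 0 := Nat.cast_ne_zero.2 (hm0 t)
      have huvR : (u : ℝ) * ((K : ℝ) * ∏ i ∈ T, (m i : ℝ)) + (v : ℝ) * (m t : ℝ) = 1 := by
        have h := congrArg (fun z : ℤ => (z : ℝ)) huv
        push_cast at h
        exact h
      rw [Finset.prod_insert ht, Finset.sum_insert ht]
      have hsum : ∑ i ∈ T, ((Function.update a t (c * u) i : ℤ) : ℝ) / (m i : ℝ) =
          ∑ i ∈ T, (a i : ℝ) / (m i : ℝ) := by
        refine Finset.sum_congr rfl fun i hi => ?_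
        have hit : i ≠ t := fun h => ht (h ▸ hi)
        rw [Function.update_of_ne hit]
      rw [hsum, Function.update_self]
      have e1 : (c : ℝ) / ((K : ℝ) * ((m t : ℝ) * ∏ i ∈ T, (m i : ℝ))) =
          ((c * v : ℤ) : ℝ) / ((K : ℝ) * ∏ i ∈ T, (m i : ℝ)) + ((c * u : ℤ) : ℝ) / (m t : ℝ) := by
        push_cast
        set A : ℝ := (K : ℝ) * ∏ i ∈ T, (m i : ℝ) with hAdef
        have e2 : (K : ℝ) * ((m t : ℝ) * ∏ i ∈ T, (m i : ℝ)) = (m t : ℝ) * A := by
          rw [hAdef]; ring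
        rw [e2]
        field_simp
        calc (c : ℝ) = c * ((u : ℝ) * A + (v : ℝ) * (m t : ℝ)) := by rw [huvR, mul_one]
          _ = _ := by ring
      rw [e1, ha]
      ring

/-- A denominator bounded by `Qs` divides the product of `K` and the moduli of its large primes. -/
theorem dvd_K_prod {y Qs v q : ℕ} (hv : Qs < 2 ^ v) (hq1 : 1 ≤ q) (hq2 : q ≤ Qs) :
    q ∣ Nat.factorial y ^ v *
      ∏ i ∈ (univ.filter fun i : Fin (primesIn y Qs).card => pr y Qs i ∣ q), mc y Qs i := by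
  rw [Nat.dvd_iff_prime_pow_dvd_dvd]
  intro p k hp hk
  rcases Nat.eq_zero_or_pos k with rfl | hkpos
  · simp
  have hle : p ^ k ≤ q := Nat.le_of_dvd hq1 hk
  have hpq : p ∣ q := (dvd_pow_self p hkpos.ne').trans hk
  by_cases hpy : p ≤ y
  · apply Dvd.dvd.mul_right
    have hpf : p ∣ Nat.factorial y := hp.dvd_factorial.2 hpy
    have hkv : k ≤ v := by
      have h2 : 2 ^ k ≤ p ^ k := Nat.pow_le_pow_left hp.two_le k
      have h3 : 2 ^ k < 2 ^ v := by omega
      exact ((Nat.pow_lt_pow_iff_right (by norm_num)).1 h3).le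
    calc p ^ k ∣ Nat.factorial y ^ k := pow_dvd_pow_of_dvd hpf k
      _ ∣ Nat.factorial y ^ v := pow_dvd_pow _ hkv
  · apply Dvd.dvd.mul_left
    have hpmem : p ∈ primesIn y Qs := by
      refine Finset.mem_filter.2 ⟨Finset.mem_Ioc.2 ⟨by omega, ?_⟩, hp⟩
      exact (Nat.le_of_dvd hq1 hpq).trans hq2
    obtain ⟨i, rfl⟩ := exists_pr hpmem
    have hi : i ∈ (univ.filter fun i : Fin (primesIn y Qs).card => pr y Qs i ∣ q) :=
      Finset.mem_filter.2 ⟨Finset.mem_univ _, hpq⟩
    refine dvd_trans ?_ (Finset.dvd_prod_of_mem _ hi)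
    unfold mc
    apply pow_dvd_pow
    exact Nat.le_log_of_pow_le hp.one_lt (hle.trans hq2)

/-- COVER: every fraction of denominator `q ≤ Q` is `λ(κ,b)` mod 1 with `|supp b| ≤ l`, when `Q < y^{l+1}`. -/
theorem cover {y Qs v Q l : ℕ} (hy : 2 ≤ y) (hv : Qs < 2 ^ v) (hQ : Q ≤ Qs) (hl : Q < y ^ (l + 1))
    (q : ℕ) (b : ℤ) (hq1 : 1 ≤ q) (hq2 : q ≤ Q) :
    ∃ κ < Nat.factorial y ^ v, ∃ bb : ∀ i, ZMod (mc y Qs i), suppSize bb ≤ l ∧
      ∃ z : ℤ, (b : ℝ) / q = lam (mc y Qs) (Nat.factorial y ^ v) κ bb + z := by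
  set K : ℕ := Nat.factorial y ^ v with hKdef
  have hK0 : K ≠ 0 := pow_ne_zero _ (Nat.factorial_ne_zero y)
  set T : Finset (Fin (primesIn y Qs).card) :=
    univ.filter fun i : Fin (primesIn y Qs).card => pr y Qs i ∣ q with hT
  -- the support is small
  have hTcard : T.card ≤ l := by
    have hd : ∏ i ∈ T, pr y Qs i ∣ q := by
      have := Finset.prod_primes_dvd (s := T.image (pr y Qs)) q
        (fun p hp => by
          obtain ⟨i, _, rfl⟩ := Finset.mem_image.1 hp
          exact (pr_prime y Qs i).prime)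
        (fun p hp => by
          obtain ⟨i, hi, rfl⟩ := Finset.mem_image.1 hp
          exact (Finset.mem_filter.1 hi).2)
      rwa [Finset.prod_image (fun i _ j _ h => pr_injective y Qs h), Finset.prod_congr rfl
        (fun i _ => rfl)] at this
    have hle : y ^ T.card ≤ ∏ i ∈ T, pr y Qs i := by
      calc y ^ T.card = ∏ _i ∈ T, y := by simp
        _ ≤ ∏ i ∈ T, pr y Qs i := Finset.prod_le_prod' fun i _ => (pr_gt y Qs i).le
    have hle2 : ∏ i ∈ T, pr y Qs i ≤ q := Nat.le_of_dvd hq1 hd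
    have hlt : y ^ T.card < y ^ (l + 1) := by omega
    have := (Nat.pow_lt_pow_iff_right (by omega : 1 < y)).1 hlt
    omega
  -- the denominator divides
  have hdvd : q ∣ K * ∏ i ∈ T, mc y Qs i := dvd_K_prod hv hq1 (hq2.trans hQ)
  obtain ⟨t, ht⟩ := hdvd
  have hm0 : ∀ i, mc y Qs i ≠ 0 := fun i => NeZero.ne _
  obtain ⟨κ0, a, ha0, ha⟩ := partial_fractions (mc y Qs) hm0 (mc_coprime y Qs) K hK0
    (fun i => mc_coprime_K y Qs v i) T (b * t)
  have hq0 : (q : ℝ) ≠ 0 := by
    have : 0 < q := hq1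
    positivity
  have ht0 : (t : ℝ) ≠ 0 := by
    intro h
    have ht0' : t = 0 := by exact_mod_cast h
    rw [ht0', mul_zero] at ht
    have h1 : K * ∏ i ∈ T, mc y Qs i ≠ 0 :=
      mul_ne_zero hK0 (Finset.prod_ne_zero_iff.2 fun i _ => hm0 i)
    exact h1 ht
  have hbq : (b : ℝ) / q = ((b * t : ℤ) : ℝ) / ((K : ℝ) * ∏ i ∈ T, (mc y Qs i : ℝ)) := by
    have e1 : (K : ℝ) * ∏ i ∈ T, (mc y Qs i : ℝ) = (q : ℝ) * t := by
      have := congrArg (fun z : ℕ => (z : ℝ)) ht
      push_cast at this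
      exact this
    rw [e1]
    push_cast
    field_simp
  -- reduce `κ0` and the `a i`
  have hKpos : (0 : ℤ) < K := by
    have : 0 < K := Nat.pos_of_ne_zero hK0
    exact_mod_cast this
  set κ : ℕ := (κ0 % (K : ℤ)).toNat with hκ
  have hκ_eq : ((κ : ℕ) : ℤ) = κ0 % (K : ℤ) := Int.toNat_of_nonneg (Int.emod_nonneg _ hKpos.ne')
  have hκlt : κ < K := by
    have := Int.emod_lt_of_pos κ0 hKpos
    omega
  refine ⟨κ, hκlt, fun i => ((a i : ℤ) : ZMod (mc y Qs i)), ?_, ?_⟩
  · refine le_trans (Finset.card_le_card ?_) hTcard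
    intro i hi
    have hne : ((a i : ℤ) : ZMod (mc y Qs i)) ≠ 0 := (Finset.mem_filter.1 hi).2
    by_contra hiT
    apply hne
    rw [ha0 i hiT]
    simp
  · -- integer differences
    have hval : ∀ i, ∃ z : ℤ, (a i : ℝ) / (mc y Qs i : ℝ) =
        ((((a i : ℤ) : ZMod (mc y Qs i)).val : ℕ) : ℝ) / (mc y Qs i : ℝ) + z := by
      intro i
      have hpos : (mc y Qs i : ℝ) ≠ 0 := Nat.cast_ne_zero.2 (hm0 i)
      have hv : (((((a i : ℤ) : ZMod (mc y Qs i)).val : ℕ) : ℤ)) = a i % (mc y Qs i : ℤ) := by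
        rw [ZMod.val_intCast]
      refine ⟨a i / (mc y Qs i : ℤ), ?_⟩
      have hdiv : a i = (((((a i : ℤ) : ZMod (mc y Qs i)).val : ℕ) : ℤ)) +
          (mc y Qs i : ℤ) * (a i / (mc y Qs i : ℤ)) := by
        rw [hv]
        exact (Int.emod_add_mul_ediv _ _).symm
      have hdivR : (a i : ℝ) = ((((a i : ℤ) : ZMod (mc y Qs i)).val : ℕ) : ℝ) +
          (mc y Qs i : ℝ) * ((a i / (mc y Qs i : ℤ) : ℤ) : ℝ) := by
        have := congrArg (fun z : ℤ => (z : ℝ)) hdiv
        push_cast at this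
        exact_mod_cast this
      field_simp
      linarith
    choose zi hzi using hval
    have hκ0 : (κ0 : ℝ) / K = (κ : ℝ) / K + ((κ0 / (K : ℤ) : ℤ) : ℝ) := by
      have hKR : (K : ℝ) ≠ 0 := Nat.cast_ne_zero.2 hK0
      have hdiv : κ0 = ((κ : ℕ) : ℤ) + (K : ℤ) * (κ0 / (K : ℤ)) := by
        rw [hκ_eq]
        exact (Int.emod_add_mul_ediv _ _).symm
      have hdivR : (κ0 : ℝ) = (κ : ℝ) + (K : ℝ) * ((κ0 / (K : ℤ) : ℤ) : ℝ) := by
        have := congrArg (fun z : ℤ => (z : ℝ)) hdiv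
        push_cast at this
        exact_mod_cast this
      field_simp
      linarith
    refine ⟨κ0 / (K : ℤ) + ∑ i ∈ T, zi i, ?_⟩
    rw [hbq, ha, hκ0]
    unfold lam mu
    have hsplit : ∑ i, (((((a i : ℤ) : ZMod (mc y Qs i)).val : ℕ) : ℝ)) / (mc y Qs i : ℝ) =
        ∑ i ∈ T, (((((a i : ℤ) : ZMod (mc y Qs i)).val : ℕ) : ℝ)) / (mc y Qs i : ℝ) := by
      symm
      apply Finset.sum_subset (Finset.subset_univ _)
      intro i _ hi
      rw [ha0 i hi]
      simp
    rw [hsplit]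
    have hsumT : ∑ i ∈ T, (a i : ℝ) / (mc y Qs i : ℝ) =
        ∑ i ∈ T, (((((a i : ℤ) : ZMod (mc y Qs i)).val : ℕ) : ℝ)) / (mc y Qs i : ℝ) +
          ∑ i ∈ T, (zi i : ℝ) := by
      rw [← Finset.sum_add_distrib]
      exact Finset.sum_congr rfl fun i _ => hzi i
    rw [hsumT]
    push_cast
    ring

end Vale.Agent.Lib.P042
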