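import Vale.Agent.Lib.P042.Defs

namespace Vale.Agent.Lib.P042

open Finset ComplexConjugate

/-- abstract Bessel -/
theorem bessel_abs {Ω ι : Type*} [Fintype Ω] [DecidableEq ι] (ψ : ι → Ω → ℂ) (N : ℝ) (hN : 0 < N)
    (horth : ∀ b b', ∑ w, conj (ψ b w) * ψ b' w = if b = b' then (N : ℂ) else 0)
    (B : Finset ι) (h : Ω → ℝ) :
    ∑ b ∈ B, ‖(N : ℂ)⁻¹ * ∑ w, (h w : ℂ) * conj (ψ b w)‖ ^ 2 ≤ N⁻¹ * ∑ w, h w ^ 2 := by
  classical
  set s : ℝ := Real.sqrt N with hs
  have hs0 : 0 < s := Real.sqrt_pos.2 hN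
  have hss : s * s = N := Real.mul_self_sqrt hN.le
  have hssC : (s : ℂ) * s = N := by exact_mod_cast hss
  have hsne : (s : ℂ) ≠ 0 := by exact_mod_cast hs0.ne'
  have hNne : (N : ℂ) ≠ 0 := by exact_mod_cast hN.ne'
  let v : ι → EuclideanSpace ℂ Ω := fun b => WithLp.toLp 2 (fun w => ((s : ℂ)⁻¹) * ψ b w)
  let x : EuclideanSpace ℂ Ω := WithLp.toLp 2 (fun w => ((s : ℂ)⁻¹) * (h w : ℂ))
  have hv : Orthonormal ℂ v := by
    rw [orthonormal_iff_ite]
    intro i j
    simp only [v, PiLp.inner_apply, RCLike.inner_apply]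
    have : ∀ w, (((s : ℂ)⁻¹) * ψ j w) * conj (((s : ℂ)⁻¹) * ψ i w) = (N : ℂ)⁻¹ * (conj (ψ i w) * ψ j w) := by
      intro w
      rw [map_mul, map_inv₀, Complex.conj_ofReal, ← hssC]
      field_simp
    simp_rw [this]
    rw [← mul_sum, horth]
    split_ifs with hij
    · field_simp
    · simp
  have key := hv.sum_inner_products_le (𝕜 := ℂ) (x := x) (s := B)
  have h1 : ∀ b, ‖inner ℂ (v b) x‖ ^ 2 = ‖(N : ℂ)⁻¹ * ∑ w, (h w : ℂ) * conj (ψ b w)‖ ^ 2 := by
    intro b
    congr 2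
    simp only [v, x, PiLp.inner_apply, RCLike.inner_apply]
    rw [mul_sum]
    refine sum_congr rfl fun w _ => ?_
    rw [map_mul, map_inv₀, Complex.conj_ofReal, ← hssC]
    field_simp
  have h2 : ‖x‖ ^ 2 = N⁻¹ * ∑ w, h w ^ 2 := by
    rw [EuclideanSpace.norm_sq_eq, mul_sum]
    refine sum_congr rfl fun w _ => ?_
    simp only [x]
    rw [norm_mul, mul_pow, norm_inv, Complex.norm_real, Complex.norm_real, Real.norm_eq_abs, Real.norm_eq_abs,
      sq_abs, inv_pow, sq_abs, sq, hss]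
  simp_rw [h1] at key
  rwa [h2] at key

variable {n : ℕ} {m : Fin n → ℕ} [∀ i, NeZero (m i)]

theorem e_val_mul (M : ℕ) [NeZero M] (b a : ZMod M) :
    e (((b.val : ℝ) * (a.val : ℝ)) / (M : ℝ)) = ZMod.stdAddChar (b * a) := by
  have : (b * a) = (((b.val * a.val : ℕ) : ℤ) : ZMod M) := by simp
  rw [this, ZMod.stdAddChar_coe]
  unfold e
  congr 1
  push_cast
  ring

theorem psi_eq_prod (b w : ∀ i, ZMod (m i)) : psi m b w = ∏ i, ZMod.stdAddChar (b i * w i) := by
  unfold psi e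
  rw [Complex.ofReal_sum, mul_sum, Complex.exp_sum]
  refine prod_congr rfl fun i _ => ?_
  rw [← e_val_mul]
  unfold e
  rfl

theorem conj_psi_eq_prod (b w : ∀ i, ZMod (m i)) :
    conj (psi m b w) = ∏ i, ZMod.stdAddChar (-(b i * w i)) := by
  rw [psi_eq_prod, map_prod]
  refine prod_congr rfl fun i _ => ?_
  rw [AddChar.map_neg_eq_conj]

theorem sum_char_neg (M : ℕ) [NeZero M] (c : ZMod M) :
    ∑ a : ZMod M, ZMod.stdAddChar (-(c * a)) = if c = 0 then (M : ℂ) else 0 := by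
  have := AddChar.sum_mulShift (R := ZMod M) (R' := ℂ) (ψ := ZMod.stdAddChar) (-c) (ZMod.isPrimitive_stdAddChar M)
  simp only [neg_eq_zero, ZMod.card] at this
  rw [show (if c = 0 then (M : ℂ) else 0) = ((if c = 0 then M else 0 : ℕ) : ℂ) by split_ifs <;> simp, ← this]
  refine sum_congr rfl fun a _ => ?_
  congr 1
  ring

theorem psi_orth (b b' : ∀ i, ZMod (m i)) :
    ∑ w, conj (psi m b w) * psi m b' w = if b = b' then ((∏ i, (m i : ℝ) : ℝ) : ℂ) else 0 := by
  have : ∀ w : ∀ i, ZMod (m i), conj (psi m b w) * psi m b' w = ∏ i, ZMod.stdAddChar (-((b i - b' i) * w i)) := by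
    intro w
    rw [conj_psi_eq_prod, psi_eq_prod, ← prod_mul_distrib]
    refine prod_congr rfl fun i _ => ?_
    rw [← AddChar.map_add_eq_mul]
    congr 1
    ring
  simp_rw [this]
  have h2 := (Fintype.prod_sum (fun (i : Fin n) (a : ZMod (m i)) => (ZMod.stdAddChar (-((b i - b' i) * a)) : ℂ))).symm
  rw [h2]
  simp_rw [sum_char_neg]
  split_ifs with hb
  · subst hb
    simp
  · obtain ⟨i, hi⟩ : ∃ i, b i ≠ b' i := by
      by_contra hcon
      push Not at hcon
      exact hb (funext hcon)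
    apply prod_eq_zero (mem_univ i)
    rw [if_neg (sub_ne_zero.2 hi)]

/-- The sum of the conjugate character against the indicator of the cylinder through `y` on `R`. -/
theorem cyl_sum (R : Finset (Fin n)) (b y : ∀ i, ZMod (m i)) :
    ∑ w : ∀ i, ZMod (m i), (if ∀ i ∈ R, y i = w i then (1 : ℂ) else 0) * conj (psi m b w) =
      ∏ i, (if i ∈ R then ZMod.stdAddChar (-(b i * y i)) else if b i = 0 then (m i : ℂ) else 0) := by
  have h1 : ∀ w : ∀ i, ZMod (m i), (if ∀ i ∈ R, y i = w i then (1 : ℂ) else 0) * conj (psi m b w) =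
      ∏ i, ((if i ∈ R then (if y i = w i then (1 : ℂ) else 0) else 1) * ZMod.stdAddChar (-(b i * w i))) := by
    intro w
    rw [conj_psi_eq_prod, prod_mul_distrib]
    congr 1
    by_cases hw : ∀ i ∈ R, y i = w i
    · rw [if_pos hw]
      symm
      apply prod_eq_one
      intro i _
      by_cases hi : i ∈ R
      · rw [if_pos hi, if_pos (hw i hi)]
      · rw [if_neg hi]
    · rw [if_neg hw]
      push Not at hw
      obtain ⟨i, hi, hne⟩ := hw
      symm
      apply prod_eq_zero (mem_univ i)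
      rw [if_pos hi, if_neg hne]
  simp_rw [h1]
  rw [(Fintype.prod_sum (fun (i : Fin n) (a : ZMod (m i)) =>
    ((if i ∈ R then (if y i = a then (1 : ℂ) else 0) else 1) * ZMod.stdAddChar (-(b i * a))))).symm]
  refine prod_congr rfl fun i _ => ?_
  by_cases hi : i ∈ R
  · simp only [if_pos hi]
    simp
  · simp only [if_neg hi, one_mul]
    rw [sum_char_neg]

theorem card_Om : (Fintype.card (∀ i, ZMod (m i)) : ℝ) = ∏ i, (m i : ℝ) := by
  rw [Fintype.card_pi]
  push_cast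
  refine prod_congr rfl fun i _ => ?_
  rw [ZMod.card]

variable {α : Type}

/-- The coefficient of `r_R` against the conjugate character. -/
theorem coef_rr (π : α → ∀ i, ZMod (m i)) (X : Finset α) (ν : ℝ) (R : Finset (Fin n)) (b : ∀ i, ZMod (m i)) :
    ∑ w : ∀ i, ZMod (m i), ((rr (G := fun i => ZMod (m i)) π X ν R w : ℝ) : ℂ) * conj (psi m b w) =
      ((cardU (fun i => ZMod (m i)) R : ℝ) : ℂ) * (ν : ℂ)⁻¹ * ∑ x ∈ X,
        ∏ i, (if i ∈ R then ZMod.stdAddChar (-(b i * π x i)) else if b i = 0 then (m i : ℂ) else 0) := by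
  simp_rw [← cyl_sum]
  have h1 : ∀ w : ∀ i, ZMod (m i), ((rr (G := fun i => ZMod (m i)) π X ν R w : ℝ) : ℂ) =
      ((cardU (fun i => ZMod (m i)) R : ℝ) : ℂ) * (ν : ℂ)⁻¹ * ∑ x ∈ X, (if ∀ i ∈ R, π x i = w i then (1 : ℂ) else 0) := by
    intro w
    have h0 : ((cnt (G := fun i => ZMod (m i)) π X R w : ℝ) : ℂ) = ∑ x ∈ X, if ∀ i ∈ R, π x i = w i then (1 : ℂ) else 0 := by
      unfold cnt
      rw [card_filter]
      push_cast
      refine sum_congr rfl fun x _ => ?_
      split_ifs <;> simp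
    unfold rr
    push_cast
    rw [h0]
    ring
  simp_rw [h1, mul_sum, sum_mul]
  rw [sum_comm]
  refine sum_congr rfl fun x _ => ?_
  refine sum_congr rfl fun w _ => ?_
  ring

/-- The coefficient of `h_S` at a character of exact support `S`. -/
theorem coef_hoef (π : α → ∀ i, ZMod (m i)) (X : Finset α) (ν : ℝ) (S : Finset (Fin n)) (b : ∀ i, ZMod (m i))
    (hb : univ.filter (fun i => b i ≠ 0) = S) :
    ∑ w : ∀ i, ZMod (m i), ((hoef (G := fun i => ZMod (m i)) π X ν S w : ℝ) : ℂ) * conj (psi m b w) =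
      ((∏ i, (m i : ℝ) : ℝ) : ℂ) * ((ν : ℂ)⁻¹ * ∑ x ∈ X, conj (psi m b (π x))) := by
  have hsupp : ∀ i, b i ≠ 0 ↔ i ∈ S := by
    intro i
    rw [← hb]
    simp
  have h1 : ∀ w : ∀ i, ZMod (m i), ((hoef (G := fun i => ZMod (m i)) π X ν S w : ℝ) : ℂ) * conj (psi m b w) =
      ∑ R ∈ S.powerset, ((-1 : ℂ) ^ (S.card - R.card)) *
        (((rr (G := fun i => ZMod (m i)) π X ν R w : ℝ) : ℂ) * conj (psi m b w)) := by
    intro w
    unfold hoef
    push_cast
    rw [sum_mul]
    refine sum_congr rfl fun R _ => ?_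
    ring
  simp_rw [h1]
  rw [sum_comm]
  simp_rw [← mul_sum, coef_rr]
  rw [sum_eq_single S]
  · simp only [Nat.sub_self, pow_zero, one_mul]
    have h2 : ∀ x ∈ X, ∏ i, (if i ∈ S then ZMod.stdAddChar (-(b i * π x i)) else if b i = 0 then (m i : ℂ) else 0)
        = (∏ i ∈ Sᶜ, (m i : ℂ)) * conj (psi m b (π x)) := by
      intro x _
      rw [conj_psi_eq_prod, ← prod_compl_mul_prod S, ← prod_compl_mul_prod S (fun i => (ZMod.stdAddChar (-(b i * π x i)) : ℂ))]
      have h3 : ∀ i ∈ Sᶜ, (if i ∈ S then ZMod.stdAddChar (-(b i * π x i)) else if b i = 0 then (m i : ℂ) else 0) = (m i : ℂ) := by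
        intro i hi
        have hiS : i ∉ S := by simpa using hi
        have hb0 : b i = 0 := by
          by_contra hne
          exact hiS ((hsupp i).1 hne)
        rw [if_neg hiS, if_pos hb0]
      have h4 : ∀ i ∈ Sᶜ, (ZMod.stdAddChar (-(b i * π x i)) : ℂ) = 1 := by
        intro i hi
        have hiS : i ∉ S := by simpa using hi
        have hb0 : b i = 0 := by
          by_contra hne
          exact hiS ((hsupp i).1 hne)
        simp [hb0]
      have h5 : ∀ i ∈ S, (if i ∈ S then ZMod.stdAddChar (-(b i * π x i)) else if b i = 0 then (m i : ℂ) else 0) =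
          ZMod.stdAddChar (-(b i * π x i)) := fun i hi => if_pos hi
      rw [prod_congr rfl h3, prod_congr rfl h4, prod_congr rfl h5]
      simp
    rw [sum_congr rfl h2, ← mul_sum]
    have h6 : ((∏ i, (m i : ℝ) : ℝ) : ℂ) = ((cardU (fun i => ZMod (m i)) S : ℝ) : ℂ) * ∏ i ∈ Sᶜ, (m i : ℂ) := by
      unfold cardU
      push_cast
      rw [← prod_compl_mul_prod S, mul_comm]
      congr 1
      refine prod_congr rfl fun i _ => ?_
      rw [ZMod.card]
    rw [h6]
    ring
  · intro R hR hRS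
    have hRsub : R ⊆ S := mem_powerset.1 hR
    obtain ⟨i, hiS, hiR⟩ : ∃ i ∈ S, i ∉ R := by
      by_contra hcon
      push Not at hcon
      exact hRS (Subset.antisymm hRsub hcon)
    have : ∀ x ∈ X, ∏ i, (if i ∈ R then ZMod.stdAddChar (-(b i * π x i)) else if b i = 0 then (m i : ℂ) else 0) = 0 := by
      intro x _
      apply prod_eq_zero (mem_univ i)
      rw [if_neg hiR, if_neg ((hsupp i).2 hiS)]
    rw [sum_eq_zero this]
    simp
  · intro hS
    exact absurd (mem_powerset.2 (Subset.refl S)) hS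

/-- BESSEL. -/
theorem bessel_level' (π : α → ∀ i, ZMod (m i)) (X : Finset α)
    (ν : ℝ) (S : Finset (Fin n)) :
    ∑ b ∈ (univ : Finset (∀ i, ZMod (m i))).filter (fun b => univ.filter (fun i => b i ≠ 0) = S),
        ‖(ν⁻¹ : ℂ) * ∑ x ∈ X, psi m b (π x)‖ ^ 2 ≤
      Ex (G := fun i => ZMod (m i)) (fun w => hoef (G := fun i => ZMod (m i)) π X ν S w ^ 2) := by
  have hNpos : 0 < ∏ i, (m i : ℝ) := prod_pos fun i _ => by
    have := NeZero.ne (m i)
    positivity
  have hNne : ((∏ i, (m i : ℝ) : ℝ) : ℂ) ≠ 0 := by exact_mod_cast hNpos.ne'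
  have key := bessel_abs (fun b w => psi m b w) (∏ i, (m i : ℝ)) hNpos psi_orth
    ((univ : Finset (∀ i, ZMod (m i))).filter (fun b => univ.filter (fun i => b i ≠ 0) = S))
    (fun w => hoef (G := fun i => ZMod (m i)) π X ν S w)
  unfold Ex
  rw [card_Om, div_eq_inv_mul]
  refine le_trans (le_of_eq ?_) key
  refine sum_congr rfl fun b hb => ?_
  rw [coef_hoef π X ν S b (mem_filter.1 hb).2, ← mul_assoc, inv_mul_cancel₀ hNne, one_mul]
  congr 1
  rw [← Complex.norm_conj, map_mul, map_sum, map_inv₀, Complex.conj_ofReal]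

end Vale.Agent.Lib.P042
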