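import Vale.Agent.Lib.P042.Defs

/-! # P042 TASK C: the chaos moment lemma, blueprint Section 5 -/

namespace Vale.Agent.Lib.P042

open Finset

/-! ## Scalar inequalities -/

lemma tangent_pow (w : ℕ) {t X : ℝ} (ht : 0 ≤ t) (hX : 0 ≤ X) :
    X ^ w + w * X ^ (w - 1) * (t - X) ≤ t ^ w := by
  induction w with
  | zero => simp
  | succ w ih =>
    cases w with
    | zero => simp
    | succ w =>
      simp only [Nat.add_sub_cancel] at ih ⊢
      have h1 := mul_le_mul_of_nonneg_left ih ht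
      have h2 : 0 ≤ ((w : ℝ) + 1) * X ^ w * (t - X) ^ 2 := by positivity
      push_cast at h1 ⊢
      have e1 : X ^ (w + 1 + 1) = X ^ w * X * X := by ring
      have e2 : X ^ (w + 1) = X ^ w * X := by ring
      have e3 : t ^ (w + 1 + 1) = t * t ^ (w + 1) := by ring
      rw [e1, e2, e3]
      rw [e2] at h1
      nlinarith [h1, h2]

lemma one_add_pow_two_mul_le (u : ℕ) {z : ℝ} (hz : 0 ≤ 1 + z) (h : |2 * (u : ℝ) * z| ≤ 1) :
    (1 + z) ^ (2 * u) ≤ 1 + 2 * u * z + (2 * u * z) ^ 2 := by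
  have h1 : 1 + z ≤ Real.exp z := by linarith [Real.add_one_le_exp z]
  have h2 : (1 + z) ^ (2 * u) ≤ Real.exp z ^ (2 * u) := pow_le_pow_left₀ hz h1 _
  have h3 : Real.exp z ^ (2 * u) = Real.exp (2 * u * z) := by
    rw [← Real.exp_nat_mul]; push_cast; ring_nf
  have h4 := Real.abs_exp_sub_one_sub_id_le h
  have h5 := (abs_le.mp h4).2
  rw [h3] at h2
  linarith

lemma scalar_pow (u : ℕ) (hu : 1 ≤ u) {s τ : ℝ} (hτ0 : 0 ≤ τ) (hs : |s| ≤ τ)
    (hτ : 2 * (u : ℝ) * τ ≤ 1) :
    (1 + 2 * s + τ ^ 2) ^ u ≤ 1 + 2 * u * s + 4 * u ^ 2 * τ ^ 2 := by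
  have hu' : (1 : ℝ) ≤ u := by exact_mod_cast hu
  rcases hτ0.eq_or_lt with h0 | hpos
  · have : s = 0 := by
      have := abs_nonneg s
      rw [← h0] at hs
      exact abs_eq_zero.mp (le_antisymm hs this)
    subst this
    rw [← h0]
    simp
  · have hs' := abs_le.mp hs
    set α := (τ + s) / (2 * τ) with hα
    set β := (τ - s) / (2 * τ) with hβ
    have hα0 : 0 ≤ α := by rw [hα]; apply div_nonneg <;> linarith
    have hβ0 : 0 ≤ β := by rw [hβ]; apply div_nonneg <;> linarith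
    have hαβ : α + β = 1 := by rw [hα, hβ]; field_simp; ring
    have hαβ' : α - β = s / τ := by rw [hα, hβ]; field_simp; ring
    have hτ1 : τ ≤ 1 := by
      have : (1 : ℝ) * τ ≤ 2 * u * τ := by
        apply mul_le_mul_of_nonneg_right _ hτ0; linarith
      linarith
    have hconv := (convexOn_pow u).2 (x := (1 + τ) ^ 2) (y := (1 - τ) ^ 2)
      (Set.mem_Ici.mpr (by positivity)) (Set.mem_Ici.mpr (by positivity)) hα0 hβ0 hαβ
    simp only [smul_eq_mul] at hconv
    have hcomb : α * (1 + τ) ^ 2 + β * (1 - τ) ^ 2 = 1 + 2 * s + τ ^ 2 := by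
      have hexp : α * (1 + τ) ^ 2 + β * (1 - τ) ^ 2
          = (α + β) * (1 + τ ^ 2) + (α - β) * (2 * τ) := by ring
      rw [hexp, hαβ, hαβ']
      field_simp
      ring
    rw [hcomb] at hconv
    have hv : |2 * (u : ℝ) * τ| ≤ 1 := by
      rw [abs_of_nonneg (by positivity)]; exact hτ
    have hv' : |2 * (u : ℝ) * (-τ)| ≤ 1 := by
      rw [mul_neg, abs_neg]; exact hv
    have b1 := one_add_pow_two_mul_le u (z := τ) (by linarith) hv
    have b2 := one_add_pow_two_mul_le u (z := -τ) (by linarith) hv'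
    have p1 : ((1 + τ) ^ 2) ^ u = (1 + τ) ^ (2 * u) := by rw [pow_mul]
    have p2 : ((1 - τ) ^ 2) ^ u = (1 + -τ) ^ (2 * u) := by rw [pow_mul]; ring_nf
    rw [p1, p2] at hconv
    have b3 := mul_le_mul_of_nonneg_left b1 hα0
    have b4 := mul_le_mul_of_nonneg_left b2 hβ0
    have hfin : α * (1 + 2 * u * τ + (2 * u * τ) ^ 2) + β * (1 + 2 * u * (-τ) + (2 * u * (-τ)) ^ 2)
        = 1 + 2 * u * s + 4 * u ^ 2 * τ ^ 2 := by
      have : α * (1 + 2 * u * τ + (2 * u * τ) ^ 2) + β * (1 + 2 * u * (-τ) + (2 * u * (-τ)) ^ 2)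
        = (α + β) * (1 + 4 * u ^ 2 * τ ^ 2) + (α - β) * τ * (2 * u) := by ring
      rw [this, hαβ, hαβ']
      field_simp
      ring
    linarith

/-- The key pointwise inequality in scalar form. -/
lemma ptwise_scalar (u : ℕ) (hu : 1 ≤ u) {X Y c : ℝ} (hX : 0 ≤ X) (hY : 0 ≤ Y)
    (hc : c ^ 2 ≤ X * Y) :
    (X + 2 * c + Y) ^ u ≤ X ^ u + 2 * u * X ^ (u - 1) * c + 5 * u ^ 2 * X ^ (u - 1) * Y
      + (2 * u + 1) ^ (2 * u) * Y ^ u := by
  obtain ⟨w, rfl⟩ : ∃ w, u = w + 1 := ⟨u - 1, by omega⟩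
  simp only [Nat.add_sub_cancel]
  set U : ℝ := ((w + 1 : ℕ) : ℝ) with hU
  have hU1 : (1 : ℝ) ≤ U := by rw [hU]; push_cast; linarith [(Nat.cast_nonneg w : (0 : ℝ) ≤ w)]
  have hnn : 0 ≤ X + 2 * c + Y := by
    have : c ^ 2 ≤ ((X + Y) / 2) ^ 2 := by nlinarith [sq_nonneg (X - Y)]
    have := abs_le_of_sq_le_sq' this (by positivity)
    linarith [this.1]
  by_cases hcase : 4 * U ^ 2 * Y < X
  · -- small increment
    have hXpos : 0 < X := by
      have : 0 ≤ 4 * U ^ 2 * Y := by positivity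
      linarith
    set τ := Real.sqrt (Y / X) with hτ
    set s := c / X with hs
    have hτ2 : τ ^ 2 = Y / X := Real.sq_sqrt (by positivity)
    have hτ0 : 0 ≤ τ := Real.sqrt_nonneg _
    have hs2 : s ^ 2 ≤ τ ^ 2 := by
      rw [hτ2, hs, div_pow, div_le_div_iff₀ (by positivity) hXpos]
      nlinarith
    have hsτ : |s| ≤ τ := abs_le_of_sq_le_sq hs2 hτ0
    have h2uτ : 2 * U * τ ≤ 1 := by
      have : (2 * U * τ) ^ 2 ≤ 1 ^ 2 := by
        rw [mul_pow, hτ2, one_pow]
        rw [show (2 * U) ^ 2 * (Y / X) = (4 * U ^ 2 * Y) / X by ring, div_le_one hXpos]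
        exact hcase.le
      exact (abs_le_of_sq_le_sq' this (by norm_num)).2
    have hmain := scalar_pow (w + 1) (by omega) hτ0 hsτ h2uτ
    have e1 : 1 + 2 * s + τ ^ 2 = (X + 2 * c + Y) / X := by
      rw [hτ2, hs]; field_simp
    rw [e1, div_pow, div_le_iff₀ (by positivity)] at hmain
    have e2 : (1 + 2 * U * s + 4 * U ^ 2 * τ ^ 2) * X ^ (w + 1)
        = X ^ (w + 1) + 2 * U * X ^ w * c + 4 * U ^ 2 * X ^ w * Y := by
      rw [hτ2, hs, pow_succ]; field_simp; ring
    rw [← hU] at hmain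
    have t1 : 0 ≤ X ^ w * Y := by positivity
    have t2 : 0 ≤ (2 * U + 1) ^ (2 * (w + 1)) * Y ^ (w + 1) := by positivity
    rw [e2] at hmain
    nlinarith [mul_nonneg (sq_nonneg U) t1]
  · -- large increment
    push_neg at hcase
    have hc2 : c ^ 2 ≤ (2 * U * Y) ^ 2 := by
      have : X * Y ≤ 4 * U ^ 2 * Y * Y := mul_le_mul_of_nonneg_right hcase hY
      nlinarith
    have hc3 := abs_le_of_sq_le_sq' hc2 (by positivity)
    have hle : X + 2 * c + Y ≤ (2 * U + 1) ^ 2 * Y := by nlinarith [hc3.2]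
    have h1 : (X + 2 * c + Y) ^ (w + 1) ≤ (2 * U + 1) ^ (2 * (w + 1)) * Y ^ (w + 1) := by
      calc (X + 2 * c + Y) ^ (w + 1) ≤ ((2 * U + 1) ^ 2 * Y) ^ (w + 1) :=
            pow_le_pow_left₀ hnn hle _
        _ = (2 * U + 1) ^ (2 * (w + 1)) * Y ^ (w + 1) := by rw [mul_pow, pow_mul]
    have h2 : 0 ≤ X + 2 * U * c + 5 * U ^ 2 * Y := by
      have h3 : (2 * U * c) ^ 2 ≤ (X + U ^ 2 * Y) ^ 2 := by
        have : (2 * U * c) ^ 2 = 4 * U ^ 2 * c ^ 2 := by ring
        rw [this]
        have h4 : 4 * U ^ 2 * c ^ 2 ≤ 4 * U ^ 2 * (X * Y) :=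
          mul_le_mul_of_nonneg_left hc (by positivity)
        nlinarith [sq_nonneg (X - U ^ 2 * Y)]
      have h5 := abs_le_of_sq_le_sq' h3 (by positivity)
      have h6 : 0 ≤ U ^ 2 * Y := by positivity
      linarith [h5.1]
    have h7 : 0 ≤ X ^ w * (X + 2 * U * c + 5 * U ^ 2 * Y) := by positivity
    have h8 : X ^ w * (X + 2 * U * c + 5 * U ^ 2 * Y)
        = X ^ (w + 1) + 2 * U * X ^ w * c + 5 * U ^ 2 * X ^ w * Y := by ring
    rw [← hU] at *
    linarith

/-- Young type inequality. -/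
lemma young_pt (u : ℕ) (hu : 1 ≤ u) {X Y : ℝ} (hX : 0 ≤ X) (hY : 0 ≤ Y) :
    5 * (u : ℝ) ^ 2 * (X ^ (u - 1) * Y) ≤ X ^ u / 2 + (10 * (u : ℝ) ^ 2) ^ u * Y ^ u / 2 := by
  obtain ⟨w, rfl⟩ : ∃ w, u = w + 1 := ⟨u - 1, by omega⟩
  simp only [Nat.add_sub_cancel]
  set U : ℝ := ((w + 1 : ℕ) : ℝ) with hU
  have hU0 : 0 ≤ U := by rw [hU]; positivity
  by_cases hcase : 10 * U ^ 2 * Y ≤ X
  · have h1 : 5 * U ^ 2 * Y ≤ X / 2 := by linarith
    have h2 : X ^ w * (5 * U ^ 2 * Y) ≤ X ^ w * (X / 2) :=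
      mul_le_mul_of_nonneg_left h1 (by positivity)
    have h3 : 0 ≤ (10 * U ^ 2) ^ (w + 1) * Y ^ (w + 1) / 2 := by positivity
    have h4 : X ^ w * (X / 2) = X ^ (w + 1) / 2 := by ring
    nlinarith
  · push_neg at hcase
    have h1 : X ^ w ≤ (10 * U ^ 2 * Y) ^ w := pow_le_pow_left₀ hX hcase.le _
    have h2 : 5 * U ^ 2 * (X ^ w * Y) ≤ 5 * U ^ 2 * ((10 * U ^ 2 * Y) ^ w * Y) := by
      apply mul_le_mul_of_nonneg_left _ (by positivity)
      exact mul_le_mul_of_nonneg_right h1 hY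
    have h3 : 5 * U ^ 2 * ((10 * U ^ 2 * Y) ^ w * Y) = (10 * U ^ 2) ^ (w + 1) * Y ^ (w + 1) / 2 := by
      rw [mul_pow, pow_succ (10 * U ^ 2), pow_succ Y]; ring
    have h4 : 0 ≤ X ^ (w + 1) / 2 := by positivity
    linarith

lemma pow_add_pow_le_add_pow' {s t : ℝ} (hs : 0 ≤ s) (ht : 0 ≤ t) (m : ℕ) (hm : 1 ≤ m) :
    s ^ m + t ^ m ≤ (s + t) ^ m := by
  induction m, hm using Nat.le_induction with
  | base => simp
  | succ m hm ih =>
    have h1 : 0 ≤ s ^ m := by positivity
    have h2 : 0 ≤ t ^ m := by positivity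
    calc s ^ (m + 1) + t ^ (m + 1) = s * s ^ m + t * t ^ m := by ring
      _ ≤ s * (s ^ m + t ^ m) + t * (s ^ m + t ^ m) := by nlinarith [mul_nonneg hs h2, mul_nonneg ht h1]
      _ = (s + t) * (s ^ m + t ^ m) := by ring
      _ ≤ (s + t) * (s + t) ^ m := mul_le_mul_of_nonneg_left ih (by positivity)
      _ = (s + t) ^ (m + 1) := by ring

/-! ## Expectation lemmas -/

section ExLemmas

variable {n : ℕ} {G : Fin n → Type} [∀ i, Fintype (G i)] [∀ i, DecidableEq (G i)] [∀ i, Nonempty (G i)]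

lemma card_Om_pos : 0 < (Fintype.card (Om G) : ℝ) := by
  have : Nonempty (Om G) := inferInstance
  exact_mod_cast Fintype.card_pos

lemma Ex_add (F H : Om G → ℝ) : Ex (fun x => F x + H x) = Ex F + Ex H := by
  simp [Ex, sum_add_distrib, add_div]

lemma Ex_const_mul (c : ℝ) (F : Om G → ℝ) : Ex (fun x => c * F x) = c * Ex F := by
  simp [Ex, ← mul_sum, mul_div_assoc]

lemma Ex_sum {ι : Type} (s : Finset ι) (F : ι → Om G → ℝ) :
    Ex (fun x => ∑ i ∈ s, F i x) = ∑ i ∈ s, Ex (F i) := by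
  simp only [Ex]
  rw [← sum_div]
  congr 1
  rw [sum_comm]

lemma Ex_mono {F H : Om G → ℝ} (h : ∀ x, F x ≤ H x) : Ex F ≤ Ex H := by
  simp only [Ex]
  apply div_le_div_of_nonneg_right _ card_Om_pos.le
  exact sum_le_sum (fun x _ => h x)

lemma Ex_nonneg {F : Om G → ℝ} (h : ∀ x, 0 ≤ F x) : 0 ≤ Ex F := by
  simp only [Ex]
  apply div_nonneg (sum_nonneg (fun x _ => h x)) card_Om_pos.le

lemma Ex_const (c : ℝ) : Ex (fun _ : Om G => c) = c := by
  simp only [Ex, sum_const, card_univ, nsmul_eq_mul]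
  field_simp [card_Om_pos.ne']

lemma card_G_pos (i : Fin n) : 0 < (Fintype.card (G i) : ℝ) := by
  exact_mod_cast Fintype.card_pos

lemma sum_update_swap (i : Fin n) (F : Om G → ℝ) :
    ∑ x : Om G, ∑ c : G i, F (Function.update x i c) = (Fintype.card (G i) : ℝ) * ∑ x : Om G, F x := by
  let φ : Om G × G i → Om G × G i := fun p => (Function.update p.1 i p.2, p.1 i)
  have hφ : Function.Involutive φ := by
    intro p
    simp [φ]
  have h := Equiv.sum_comp hφ.toPerm (fun p : Om G × G i => F p.1)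
  simp only [Function.Involutive.coe_toPerm] at h
  rw [Fintype.sum_prod_type] at h
  rw [Fintype.sum_prod_type] at h
  simp only [φ] at h
  rw [h]
  simp [mul_sum, sum_const, card_univ]

/-- Averaging one coordinate does not change the expectation. -/
lemma Ex_avg (i : Fin n) (F : Om G → ℝ) :
    Ex (fun x => (∑ c : G i, F (Function.update x i c)) / (Fintype.card (G i) : ℝ)) = Ex F := by
  simp only [Ex]
  rw [← sum_div, sum_update_swap i F]
  congr 1
  field_simp [(card_G_pos i).ne']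

lemma merge_empty (y x : Om G) : merge ∅ y x = x := by
  funext i; simp [merge]

end ExLemmas

/-! ## Vector helpers -/

section Vec

variable {Λ : Type} [Fintype Λ]

/-- Dot product. -/
def dp (a d : Λ → ℝ) : ℝ := ∑ l, a l * d l

lemma nsq_nonneg (a : Λ → ℝ) : 0 ≤ nsq a := by
  unfold nsq; positivity

lemma nsq_add (a d : Λ → ℝ) : nsq (a + d) = nsq a + 2 * dp a d + nsq d := by
  simp only [nsq, dp, Pi.add_apply, mul_sum, ← sum_add_distrib]
  apply sum_congr rfl
  intro l _
  ring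

lemma dp_sq_le (a d : Λ → ℝ) : dp a d ^ 2 ≤ nsq a * nsq d :=
  Finset.sum_mul_sq_le_sq_mul_sq _ _ _

lemma nsq_zero : nsq (0 : Λ → ℝ) = 0 := by simp [nsq]

lemma ptwise_vec (u : ℕ) (hu : 1 ≤ u) (a d : Λ → ℝ) :
    nsq (a + d) ^ u ≤ nsq a ^ u + 2 * u * nsq a ^ (u - 1) * dp a d
      + 5 * u ^ 2 * nsq a ^ (u - 1) * nsq d + (2 * u + 1) ^ (2 * u) * nsq d ^ u := by
  rw [nsq_add]
  exact ptwise_scalar u hu (nsq_nonneg a) (nsq_nonneg d) (dp_sq_le a d)

/-- Tangent line for powers of `nsq`. -/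
lemma nsq_pow_tangent (w : ℕ) (a d : Λ → ℝ) :
    nsq a ^ w + w * nsq a ^ (w - 1) * (2 * dp a d) ≤ nsq (a + d) ^ w := by
  have h := tangent_pow w (nsq_nonneg (a + d)) (nsq_nonneg a)
  rw [nsq_add] at h
  rw [nsq_add]
  have h1 : 0 ≤ (w : ℝ) * nsq a ^ (w - 1) * nsq d := by
    have := nsq_nonneg a
    have := nsq_nonneg d
    positivity
  nlinarith

end Vec

/-! ## The abstract martingale inequality -/

section Mart

variable {n : ℕ} {G : Fin n → Type} [∀ i, Fintype (G i)] [∀ i, DecidableEq (G i)] [∀ i, Nonempty (G i)]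
variable {Λ : Type} [Fintype Λ]

/-- Prefix sum of martingale differences. -/
def pre (D : Fin n → Om G → Λ → ℝ) (k : ℕ) (x : Om G) : Λ → ℝ :=
  ∑ i ∈ univ.filter (fun i : Fin n => i.val < k), D i x

/-- Conditional variance. -/
noncomputable def vv (D : Fin n → Om G → Λ → ℝ) (i : Fin n) (x : Om G) : ℝ :=
  (∑ c : G i, nsq (D i (Function.update x i c))) / (Fintype.card (G i) : ℝ)

/-- Martingale differences. -/
structure MartHyp (D : Fin n → Om G → Λ → ℝ) : Prop where
  adp : ∀ i x x', (∀ j, j ≤ i → x j = x' j) → D i x = D i x'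
  mean : ∀ i x lam, ∑ c : G i, D i (Function.update x i c) lam = 0

variable {D : Fin n → Om G → Λ → ℝ}

lemma pre_update (h : MartHyp D) {k : ℕ} {i : Fin n} (hk : k ≤ i.val) (x : Om G) (c : G i) :
    pre D k (Function.update x i c) = pre D k x := by
  unfold pre
  apply sum_congr rfl
  intro j hj
  apply h.adp
  intro j' hj'
  have hj1 : j.val < k := by simpa using hj
  have hne : j' ≠ i := by
    intro e
    have : j'.val ≤ j.val := hj'
    rw [e] at this
    omega
  rw [Function.update_of_ne hne]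

lemma filter_lt_succ {k : ℕ} (hk : k < n) :
    univ.filter (fun i : Fin n => i.val < k + 1)
      = insert (⟨k, hk⟩ : Fin n) (univ.filter (fun i : Fin n => i.val < k)) := by
  ext i
  simp only [mem_filter, mem_univ, true_and, mem_insert, Fin.ext_iff]
  omega

lemma pre_succ {k : ℕ} (hk : k < n) (x : Om G) :
    pre D (k + 1) x = pre D k x + D ⟨k, hk⟩ x := by
  unfold pre
  rw [filter_lt_succ hk, sum_insert (by simp)]
  abel

lemma pre_zero (x : Om G) : pre D 0 x = 0 := by
  simp [pre]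

lemma pre_top (x : Om G) : pre D n x = ∑ i, D i x := by
  unfold pre
  congr 1
  ext i
  simp

lemma vv_nonneg (i : Fin n) (x : Om G) : 0 ≤ vv D i x := by
  unfold vv
  apply div_nonneg (sum_nonneg (fun c _ => nsq_nonneg _)) (card_G_pos i).le

lemma vv_dep (h : MartHyp D) (i : Fin n) (x x' : Om G) (hx : ∀ j, j < i → x j = x' j) :
    vv D i x = vv D i x' := by
  unfold vv
  congr 1
  apply sum_congr rfl
  intro c _
  rw [h.adp i (Function.update x i c) (Function.update x' i c)]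
  intro j hj
  rcases hj.lt_or_eq with h1 | h1
  · rw [Function.update_of_ne h1.ne, Function.update_of_ne h1.ne]
    exact hx j h1
  · subst h1
    simp

lemma dp_sum_zero (h : MartHyp D) (i : Fin n) (x : Om G) (a : Λ → ℝ) :
    ∑ c : G i, dp a (D i (Function.update x i c)) = 0 := by
  unfold dp
  rw [sum_comm]
  apply sum_eq_zero
  intro l _
  rw [← mul_sum, h.mean, mul_zero]

/-- The Jensen step, one coordinate. -/
lemma mono_step (h : MartHyp D) {m : ℕ} (hm : m < n) (V : Om G → ℝ) (hV0 : ∀ x, 0 ≤ V x)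
    (hVdep : ∀ x c, V (Function.update x ⟨m, hm⟩ c) = V x) (w : ℕ) :
    Ex (fun x => nsq (pre D m x) ^ w * V x) ≤ Ex (fun x => nsq (pre D (m + 1) x) ^ w * V x) := by
  rw [← Ex_avg (⟨m, hm⟩ : Fin n) (fun x => nsq (pre D (m + 1) x) ^ w * V x)]
  apply Ex_mono
  intro x
  set i : Fin n := ⟨m, hm⟩ with hi
  have e : ∀ c, nsq (pre D (m + 1) (Function.update x i c)) ^ w * V (Function.update x i c)
      = nsq (pre D m x + D i (Function.update x i c)) ^ w * V x := by
    intro c
    rw [pre_succ hm, pre_update h (k := m) (i := i) (le_refl _), hVdep]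
  simp only [e]
  rw [le_div_iff₀ (card_G_pos i), ← sum_mul]
  set a := pre D m x
  have hsum : (Fintype.card (G i) : ℝ) * nsq a ^ w
      ≤ ∑ c : G i, nsq (a + D i (Function.update x i c)) ^ w := by
    have h1 : ∑ c : G i, (nsq a ^ w + w * nsq a ^ (w - 1) * (2 * dp a (D i (Function.update x i c))))
        ≤ ∑ c : G i, nsq (a + D i (Function.update x i c)) ^ w :=
      sum_le_sum (fun c _ => nsq_pow_tangent w a _)
    have h2 : ∑ c : G i, (nsq a ^ w + w * nsq a ^ (w - 1) * (2 * dp a (D i (Function.update x i c))))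
        = (Fintype.card (G i) : ℝ) * nsq a ^ w := by
      rw [sum_add_distrib, ← mul_sum, ← mul_sum, dp_sum_zero h]
      simp [card_univ]
    linarith
  calc nsq a ^ w * V x * (Fintype.card (G i) : ℝ)
      = ((Fintype.card (G i) : ℝ) * nsq a ^ w) * V x := by ring
    _ ≤ _ := mul_le_mul_of_nonneg_right hsum (hV0 x)

/-- The Jensen step, iterated. -/
lemma mono_chain (h : MartHyp D) {k : ℕ} (V : Om G → ℝ) (hV0 : ∀ x, 0 ≤ V x)
    (hVdep : ∀ x (j : Fin n) c, k ≤ j.val → V (Function.update x j c) = V x) (w : ℕ)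
    {m : ℕ} (hkm : k ≤ m) (hm : m ≤ n) :
    Ex (fun x => nsq (pre D k x) ^ w * V x) ≤ Ex (fun x => nsq (pre D m x) ^ w * V x) := by
  induction m, hkm using Nat.le_induction with
  | base => exact le_refl _
  | succ m hkm ih =>
    have hm' : m < n := hm
    refine (ih (by omega)).trans ?_
    apply mono_step h hm' V hV0
    intro x c
    exact hVdep x ⟨m, hm'⟩ c hkm

lemma cross_zero (h : MartHyp D) {k : ℕ} (hk : k < n) (w : ℕ) :
    Ex (fun x => nsq (pre D k x) ^ w * dp (pre D k x) (D ⟨k, hk⟩ x)) = 0 := by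
  rw [← Ex_avg (⟨k, hk⟩ : Fin n) (fun x => nsq (pre D k x) ^ w * dp (pre D k x) (D ⟨k, hk⟩ x))]
  have : ∀ x : Om G, (∑ c : G (⟨k, hk⟩ : Fin n), nsq (pre D k (Function.update x ⟨k, hk⟩ c)) ^ w *
      dp (pre D k (Function.update x ⟨k, hk⟩ c)) (D ⟨k, hk⟩ (Function.update x ⟨k, hk⟩ c))) /
      (Fintype.card (G (⟨k, hk⟩ : Fin n)) : ℝ) = 0 := by
    intro x
    have e : ∀ c, pre D k (Function.update x (⟨k, hk⟩ : Fin n) c) = pre D k x := fun c =>
      pre_update h (le_refl _) x c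
    simp only [e]
    rw [← mul_sum, dp_sum_zero h]
    simp
  simp only [this]
  exact Ex_const 0

lemma var_eq (h : MartHyp D) {k : ℕ} (hk : k < n) (w : ℕ) :
    Ex (fun x => nsq (pre D k x) ^ w * nsq (D ⟨k, hk⟩ x))
      = Ex (fun x => nsq (pre D k x) ^ w * vv D ⟨k, hk⟩ x) := by
  rw [← Ex_avg (⟨k, hk⟩ : Fin n) (fun x => nsq (pre D k x) ^ w * nsq (D ⟨k, hk⟩ x))]
  congr 1
  funext x
  have e : ∀ c, pre D k (Function.update x (⟨k, hk⟩ : Fin n) c) = pre D k x := fun c =>
    pre_update h (le_refl _) x c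
  simp only [e, vv]
  rw [← mul_sum, mul_div_assoc]

lemma one_step (h : MartHyp D) (u : ℕ) (hu : 1 ≤ u) {k : ℕ} (hk : k < n) :
    Ex (fun x => nsq (pre D (k + 1) x) ^ u) ≤ Ex (fun x => nsq (pre D k x) ^ u)
      + 5 * (u : ℝ) ^ 2 * Ex (fun x => nsq (pre D k x) ^ (u - 1) * vv D ⟨k, hk⟩ x)
      + (2 * (u : ℝ) + 1) ^ (2 * u) * Ex (fun x => nsq (D ⟨k, hk⟩ x) ^ u) := by
  have hpt : ∀ x, nsq (pre D (k + 1) x) ^ u ≤
      nsq (pre D k x) ^ u
      + 2 * (u : ℝ) * (nsq (pre D k x) ^ (u - 1) * dp (pre D k x) (D ⟨k, hk⟩ x))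
      + 5 * (u : ℝ) ^ 2 * (nsq (pre D k x) ^ (u - 1) * nsq (D ⟨k, hk⟩ x))
      + (2 * (u : ℝ) + 1) ^ (2 * u) * nsq (D ⟨k, hk⟩ x) ^ u := by
    intro x
    rw [pre_succ hk]
    have := ptwise_vec u hu (pre D k x) (D ⟨k, hk⟩ x)
    linarith
  refine (Ex_mono hpt).trans (le_of_eq ?_)
  rw [Ex_add, Ex_add, Ex_add, Ex_const_mul, Ex_const_mul, Ex_const_mul, cross_zero h hk,
    var_eq h hk]
  ring

/-- The abstract martingale inequality. -/
theorem mart_ineq (h : MartHyp D) (u : ℕ) (hu : 1 ≤ u) :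
    Ex (fun x => nsq (∑ i, D i x) ^ u) ≤
      (10 * (u : ℝ) ^ 2) ^ u * Ex (fun x => (∑ i, vv D i x) ^ u)
      + 2 * (2 * (u : ℝ) + 1) ^ (2 * u) * ∑ i, Ex (fun x => nsq (D i x) ^ u) := by
  set Cc : ℝ := (2 * (u : ℝ) + 1) ^ (2 * u) with hCc
  have hCc0 : 0 ≤ Cc := by positivity
  set F : Om G → ℝ := fun x => nsq (∑ i, D i x) with hF
  have hF0 : ∀ x, 0 ≤ F x := fun x => nsq_nonneg _
  have hstep : ∀ k, k ≤ n → Ex (fun x => nsq (pre D k x) ^ u) ≤
      5 * (u : ℝ) ^ 2 * ∑ i ∈ univ.filter (fun i : Fin n => i.val < k),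
          Ex (fun x => F x ^ (u - 1) * vv D i x)
      + Cc * ∑ i ∈ univ.filter (fun i : Fin n => i.val < k), Ex (fun x => nsq (D i x) ^ u) := by
    intro k
    induction k with
    | zero =>
      intro _
      have : ∀ x : Om G, nsq (pre D 0 x) ^ u = 0 := by
        intro x
        rw [pre_zero, nsq_zero, zero_pow (by omega)]
      simp only [this]
      rw [Ex_const]
      simp
    | succ k ih =>
      intro hk
      have hk' : k < n := hk
      have h1 := ih (by omega)
      have h2 := one_step h u hu hk'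
      have h3 : Ex (fun x => nsq (pre D k x) ^ (u - 1) * vv D ⟨k, hk'⟩ x)
          ≤ Ex (fun x => F x ^ (u - 1) * vv D ⟨k, hk'⟩ x) := by
        have := mono_chain (D := D) h (k := k) (vv D ⟨k, hk'⟩) (vv_nonneg _) (by
          intro x j c hj
          apply vv_dep h
          intro j' hj'
          have : j'.val < k := hj'
          have hne : j' ≠ j := by
            intro e; rw [e] at this; omega
          rw [Function.update_of_ne hne]) (u - 1) (m := n) (by omega) (le_refl _)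
        simpa only [pre_top, hF] using this
      rw [filter_lt_succ hk', sum_insert (by simp), sum_insert (by simp)]
      have h4 : 5 * (u : ℝ) ^ 2 * Ex (fun x => nsq (pre D k x) ^ (u - 1) * vv D ⟨k, hk'⟩ x)
          ≤ 5 * (u : ℝ) ^ 2 * Ex (fun x => F x ^ (u - 1) * vv D ⟨k, hk'⟩ x) :=
        mul_le_mul_of_nonneg_left h3 (by positivity)
      nlinarith
  have hn := hstep n (le_refl _)
  have hfil : univ.filter (fun i : Fin n => i.val < n) = univ := by
    ext i; simp
  rw [hfil] at hn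
  simp only [pre_top] at hn
  have hs2 : ∑ i, Ex (fun x => F x ^ (u - 1) * vv D i x)
      = Ex (fun x => F x ^ (u - 1) * ∑ i, vv D i x) := by
    rw [← Ex_sum]
    congr 1
    funext x
    rw [mul_sum]
  rw [hs2] at hn
  have hY : Ex (fun x => 5 * (u : ℝ) ^ 2 * (F x ^ (u - 1) * ∑ i, vv D i x))
      ≤ Ex (fun x => F x ^ u / 2 + (10 * (u : ℝ) ^ 2) ^ u * (∑ i, vv D i x) ^ u / 2) := by
    apply Ex_mono
    intro x
    exact young_pt u hu (hF0 x) (sum_nonneg (fun i _ => vv_nonneg i x))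
  rw [Ex_const_mul, Ex_add] at hY
  have e1 : Ex (fun x => F x ^ u / 2) = Ex (fun x => F x ^ u) / 2 := by
    have := Ex_const_mul (G := G) (1 / 2 : ℝ) (fun x => F x ^ u)
    simp only [one_div] at this
    calc Ex (fun x => F x ^ u / 2) = Ex (fun x => 2⁻¹ * F x ^ u) := by
          congr 1; funext x; ring
      _ = 2⁻¹ * Ex (fun x => F x ^ u) := this
      _ = _ := by ring
  have e2 : Ex (fun x => (10 * (u : ℝ) ^ 2) ^ u * (∑ i, vv D i x) ^ u / 2)
      = (10 * (u : ℝ) ^ 2) ^ u * Ex (fun x => (∑ i, vv D i x) ^ u) / 2 := by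
    have := Ex_const_mul (G := G) ((10 * (u : ℝ) ^ 2) ^ u / 2) (fun x => (∑ i, vv D i x) ^ u)
    calc Ex (fun x => (10 * (u : ℝ) ^ 2) ^ u * (∑ i, vv D i x) ^ u / 2)
        = Ex (fun x => ((10 * (u : ℝ) ^ 2) ^ u / 2) * (∑ i, vv D i x) ^ u) := by
          congr 1; funext x; ring
      _ = _ := this
      _ = _ := by ring
  rw [e1, e2] at hY
  have hgoal : Ex (fun x => F x ^ u) ≤ (10 * (u : ℝ) ^ 2) ^ u * Ex (fun x => (∑ i, vv D i x) ^ u)
      + 2 * Cc * ∑ i, Ex (fun x => nsq (D i x) ^ u) := by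
    nlinarith
  exact hgoal

end Mart

/-! ## Splitting a level by its maximal element -/

section Split

variable {n : ℕ}

lemma sum_max_split_inner {M : Type} [AddCommMonoid M] (l : ℕ) (H : Finset (Fin n) → M) (i : Fin n) :
    ∑ S' ∈ powersetCard l (univ : Finset (Fin n)),
        (if (∀ j ∈ S', j < i) then H (insert i S') else 0) =
      ∑ S ∈ powersetCard (l + 1) (univ : Finset (Fin n)),
        (if (i ∈ S ∧ ∀ j ∈ S, j ≤ i) then H S else 0) := by
  rw [← sum_filter, ← sum_filter]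
  apply sum_nbij' (fun S' => insert i S') (fun S => S.erase i)
  · intro S' hS'
    simp only [mem_filter, mem_powersetCard, subset_univ, true_and] at hS' ⊢
    have hi : i ∉ S' := fun h => lt_irrefl _ (hS'.2 i h)
    refine ⟨by rw [card_insert_of_notMem hi, hS'.1], mem_insert_self _ _, ?_⟩
    intro j hj
    rcases mem_insert.mp hj with rfl | h
    · exact le_refl _
    · exact (hS'.2 j h).le
  · intro S hS
    simp only [mem_filter, mem_powersetCard, subset_univ, true_and] at hS ⊢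
    refine ⟨by rw [card_erase_of_mem hS.2.1, hS.1]; rfl, ?_⟩
    intro j hj
    exact lt_of_le_of_ne (hS.2.2 j (mem_of_mem_erase hj)) (ne_of_mem_erase hj)
  · intro S' hS'
    simp only [mem_filter] at hS'
    have hi : i ∉ S' := fun h => lt_irrefl _ (hS'.2 i h)
    exact erase_insert hi
  · intro S hS
    simp only [mem_filter] at hS
    exact insert_erase hS.2.1
  · intro S' _
    rfl

lemma sum_max_split {M : Type} [AddCommMonoid M] (l : ℕ) (H : Finset (Fin n) → M) :
    ∑ S ∈ powersetCard (l + 1) (univ : Finset (Fin n)), H S =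
      ∑ i : Fin n, ∑ S' ∈ powersetCard l (univ : Finset (Fin n)),
        (if (∀ j ∈ S', j < i) then H (insert i S') else 0) := by
  simp_rw [sum_max_split_inner]
  rw [sum_comm]
  apply sum_congr rfl
  intro S hS
  have hne : S.Nonempty := by
    rw [← card_pos, (mem_powersetCard.mp hS).2]; omega
  rw [sum_eq_single (S.max' hne)]
  · rw [if_pos ⟨max'_mem _ _, fun j hj => le_max' _ _ hj⟩]
  · intro b _ hb
    rw [if_neg]
    rintro ⟨h1, h2⟩
    exact hb (le_antisymm (le_max' _ _ h1) (h2 _ (max'_mem _ _)))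
  · intro h
    exact absurd (mem_univ _) h

lemma sum_filter_le1 (l : ℕ) (T : Finset (Fin n)) (H : Finset (Fin n) → ℝ) (hH : ∀ S, 0 ≤ H S) :
    ∑ S' ∈ (powersetCard l (univ : Finset (Fin n))).filter (fun S => T ⊆ S),
        ∑ i : Fin n, (if (∀ j ∈ S', j < i) then H (insert i S') else 0)
      ≤ ∑ S ∈ (powersetCard (l + 1) (univ : Finset (Fin n))).filter (fun S => T ⊆ S), H S := by
  rw [sum_filter, sum_filter, sum_max_split, sum_comm (s := univ)]
  apply sum_le_sum
  intro S' _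
  by_cases hT : T ⊆ S'
  · rw [if_pos hT]
    apply sum_le_sum
    intro i _
    split_ifs with h1 h2
    · exact le_refl _
    · exact absurd (hT.trans (subset_insert _ _)) h2
    · exact le_refl _
  · rw [if_neg hT]
    apply sum_nonneg
    intro i _
    split_ifs <;> first | exact hH _ | exact le_refl _

lemma sum_filter_le2 (l : ℕ) (T T' : Finset (Fin n)) (H : Finset (Fin n) → ℝ) (hH : ∀ S, 0 ≤ H S)
    (i : Fin n) (hTT' : ∀ S', T ⊆ S' → T' ⊆ insert i S') :
    ∑ S' ∈ (powersetCard l (univ : Finset (Fin n))).filter (fun S => T ⊆ S),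
        (if (∀ j ∈ S', j < i) then H (insert i S') else 0)
      ≤ ∑ S ∈ (powersetCard (l + 1) (univ : Finset (Fin n))).filter (fun S => T' ⊆ S), H S := by
  rw [sum_filter, sum_filter, sum_max_split]
  have hnn : ∀ i' S', 0 ≤ (if (∀ j ∈ S', j < i') then
      (if T' ⊆ insert i' S' then H (insert i' S') else 0) else 0) := by
    intro i' S'
    split_ifs <;> first | exact hH _ | exact le_refl _
  refine le_trans ?_ (single_le_sum (f := fun i' => ∑ S' ∈ powersetCard l (univ : Finset (Fin n)),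
      (if (∀ j ∈ S', j < i') then (if T' ⊆ insert i' S' then H (insert i' S') else 0) else 0))
      (fun i' _ => sum_nonneg (fun S' _ => hnn i' S')) (mem_univ i))
  apply sum_le_sum
  intro S' _
  by_cases hT : T ⊆ S'
  · rw [if_pos hT, if_pos (hTT' S' hT)]
  · rw [if_neg hT]
    exact hnn i S'

lemma pascal_sum (l : ℕ) (A : ℕ → ℝ) :
    ∑ j ∈ range (l + 1), (l.choose j : ℝ) * A (j + 1) + ∑ j ∈ range (l + 1), (l.choose j : ℝ) * A j
      = ∑ j ∈ range (l + 1 + 1), ((l + 1).choose j : ℝ) * A j := by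
  rw [sum_range_succ' _ (l + 1)]
  have e : ∀ j, (((l + 1).choose (j + 1) : ℕ) : ℝ) * A (j + 1)
      = (l.choose j : ℝ) * A (j + 1) + (l.choose (j + 1) : ℝ) * A (j + 1) := by
    intro j
    rw [Nat.choose_succ_succ]
    push_cast
    ring
  simp only [e, sum_add_distrib]
  rw [sum_range_succ' (fun j => (l.choose j : ℝ) * A j) l,
    sum_range_succ (fun j => (l.choose (j + 1) : ℝ) * A (j + 1)) l]
  simp
  try ring

end Split

/-! ## The chaos moment inequality -/

section Chaos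

variable {n : ℕ} {G : Fin n → Type} [∀ i, Fintype (G i)] [∀ i, DecidableEq (G i)] [∀ i, Nonempty (G i)]
variable {Λ : Type} [Fintype Λ]

/-- The part of a level with all coordinates below `i`, with `i` added. -/
def cut (Ψ : Finset (Fin n) → Om G → Λ → ℝ) (i : Fin n) (S' : Finset (Fin n)) (x : Om G) : Λ → ℝ :=
  if ∀ j ∈ S', j < i then Ψ (insert i S') x else 0

/-- The martingale differences of a level `l + 1` chaos. -/
def Dk (l : ℕ) (Ψ : Finset (Fin n) → Om G → Λ → ℝ) (i : Fin n) (x : Om G) : Λ → ℝ :=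
  ∑ S' ∈ powersetCard l (univ : Finset (Fin n)), cut Ψ i S' x

variable {Ψ : Finset (Fin n) → Om G → Λ → ℝ}

lemma sum_eq_Dk (l : ℕ) (x : Om G) :
    ∑ S ∈ powersetCard (l + 1) (univ : Finset (Fin n)), Ψ S x = ∑ i, Dk l Ψ i x := by
  rw [sum_max_split l (fun S => Ψ S x)]
  rfl

lemma dk_hyp (hdep : ∀ S x x', (∀ i ∈ S, x i = x' i) → Ψ S x = Ψ S x')
    (hmean : ∀ S, ∀ i ∈ S, ∀ x lam, ∑ c : G i, Ψ S (Function.update x i c) lam = 0) (l : ℕ) :
    MartHyp (Dk l Ψ) := by
  constructor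
  · intro i x x' hx
    unfold Dk
    apply sum_congr rfl
    intro S' _
    unfold cut
    split_ifs with h
    · apply hdep
      intro j hj
      apply hx
      rcases mem_insert.mp hj with rfl | h1
      · exact le_refl _
      · exact (h j h1).le
    · rfl
  · intro i x lam
    unfold Dk
    simp only [Finset.sum_apply]
    rw [sum_comm]
    apply sum_eq_zero
    intro S' _
    unfold cut
    by_cases h : ∀ j ∈ S', j < i
    · simp only [if_pos h]
      exact hmean _ i (mem_insert_self _ _) x lam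
    · simp [if_neg h]

lemma cut_update_dep (hdep : ∀ S x x', (∀ i ∈ S, x i = x' i) → Ψ S x = Ψ S x')
    (i : Fin n) (S' : Finset (Fin n)) (x x' : Om G) (hx : ∀ j ∈ S', x j = x' j) (c : G i) :
    cut Ψ i S' (Function.update x i c) = cut Ψ i S' (Function.update x' i c) := by
  unfold cut
  split_ifs with h
  · apply hdep
    intro j hj
    by_cases hji : j = i
    · subst hji
      simp
    · rw [Function.update_of_ne hji, Function.update_of_ne hji]
      exact hx j (mem_of_mem_insert_of_ne hj hji)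
  · rfl

lemma cut_update_mean (hmean : ∀ S, ∀ i ∈ S, ∀ x lam, ∑ c : G i, Ψ S (Function.update x i c) lam = 0)
    (i : Fin n) (S' : Finset (Fin n)) (j : Fin n) (hj : j ∈ S') (x : Om G) (c : G i) (lam : Λ) :
    ∑ c' : G j, cut Ψ i S' (Function.update (Function.update x j c') i c) lam = 0 := by
  unfold cut
  by_cases h : ∀ j ∈ S', j < i
  · simp only [if_pos h]
    have hji : j ≠ i := (h j hj).ne
    simp only [Function.update_comm hji]
    exact hmean _ j (mem_insert_of_mem hj) _ lam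
  · simp [if_neg h]

lemma merge_update (T : Finset (Fin n)) (y x : Om G) (i : Fin n) (hi : i ∉ T) (c : G i) :
    Function.update (merge T y x) i c = merge T y (Function.update x i c) := by
  funext k
  by_cases hk : k = i
  · subst hk
    simp [merge, hi]
  · rw [Function.update_of_ne hk]
    simp only [merge]
    rw [Function.update_of_ne hk]

lemma update_merge_insert (T : Finset (Fin n)) (y x : Om G) (i : Fin n) (c : G i) :
    Function.update (merge T y x) i c = merge (insert i T) (Function.update y i c) x := by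
  funext k
  by_cases hk : k = i
  · subst hk
    simp [merge]
  · rw [Function.update_of_ne hk]
    simp only [merge, mem_insert, hk, false_or]
    rw [Function.update_of_ne hk]

/-- Rescaled family indexed by `Σ i, G i`. -/
noncomputable def wt (Q : ∀ i : Fin n, G i → Λ → ℝ) : Λ × (Σ i : Fin n, G i) → ℝ :=
  fun p => (Real.sqrt (Fintype.card (G p.2.1)))⁻¹ * Q p.2.1 p.2.2 p.1

lemma nsq_wt (Q : ∀ i : Fin n, G i → Λ → ℝ) :
    nsq (wt Q) = ∑ i, (∑ c : G i, nsq (Q i c)) / (Fintype.card (G i) : ℝ) := by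
  unfold nsq wt
  rw [Fintype.sum_prod_type]
  simp only [Fintype.sum_sigma]
  rw [sum_comm]
  apply sum_congr rfl
  intro i _
  rw [sum_comm, sum_div]
  apply sum_congr rfl
  intro c _
  rw [sum_div]
  apply sum_congr rfl
  intro l _
  rw [mul_pow, inv_pow, Real.sq_sqrt (card_G_pos i).le]
  rw [div_eq_inv_mul]

lemma wt_sum {ι : Type} (s : Finset ι) (Q : ι → ∀ i : Fin n, G i → Λ → ℝ) :
    ∑ a ∈ s, wt (Q a) = wt (fun i c => ∑ a ∈ s, Q a i c) := by
  funext p
  simp only [wt, Finset.sum_apply, mul_sum]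

/-- The level `l` chaos whose norm is the conditional variance. -/
noncomputable def psi1 (Ψ : Finset (Fin n) → Om G → Λ → ℝ) (S' : Finset (Fin n)) (x : Om G) :
    Λ × (Σ i : Fin n, G i) → ℝ :=
  wt (fun i c => cut Ψ i S' (Function.update x i c))

lemma psi1_dep (hdep : ∀ S x x', (∀ i ∈ S, x i = x' i) → Ψ S x = Ψ S x')
    (S' : Finset (Fin n)) (x x' : Om G) (hx : ∀ j ∈ S', x j = x' j) :
    psi1 Ψ S' x = psi1 Ψ S' x' := by
  unfold psi1
  congr 1
  funext i c
  exact cut_update_dep hdep i S' x x' hx c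

lemma psi1_mean (hmean : ∀ S, ∀ i ∈ S, ∀ x lam, ∑ c : G i, Ψ S (Function.update x i c) lam = 0)
    (S' : Finset (Fin n)) (j : Fin n) (hj : j ∈ S') (x : Om G) (p : Λ × (Σ i : Fin n, G i)) :
    ∑ c : G j, psi1 Ψ S' (Function.update x j c) p = 0 := by
  unfold psi1 wt
  rw [← mul_sum]
  rw [cut_update_mean hmean _ S' j hj x _ _, mul_zero]

lemma sum_psi1 (l : ℕ) (x : Om G) :
    nsq (∑ S' ∈ powersetCard l (univ : Finset (Fin n)), psi1 Ψ S' x) = ∑ i, vv (Dk l Ψ) i x := by
  unfold psi1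
  rw [wt_sum, nsq_wt]
  rfl

lemma psi1_level (T : Finset (Fin n)) (y : Om G) (S' : Finset (Fin n)) (hT : T ⊆ S') :
    Ex (fun x => nsq (psi1 Ψ S' (merge T y x))) =
      ∑ i : Fin n, (if (∀ j ∈ S', j < i) then
        Ex (fun x => nsq (Ψ (insert i S') (merge T y x))) else 0) := by
  unfold psi1
  simp only [nsq_wt]
  rw [Ex_sum]
  apply sum_congr rfl
  intro i _
  by_cases h : ∀ j ∈ S', j < i
  · rw [if_pos h]
    have hi : i ∉ T := fun hh => lt_irrefl _ (h i (hT hh))
    rw [← Ex_avg i (fun x => nsq (Ψ (insert i S') (merge T y x)))]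
    congr 1
    funext x
    simp only [cut, if_pos h, merge_update T y x i hi]
  · rw [if_neg h]
    have : ∀ x : Om G, (∑ c : G i, nsq (cut Ψ i S' (Function.update (merge T y x) i c))) /
        (Fintype.card (G i) : ℝ) = 0 := by
      intro x
      simp [cut, if_neg h, nsq_zero]
    simp only [this]
    exact Ex_const 0

theorem chaos_moment_aux (u : ℕ) (hu : 1 ≤ u) (D : ℝ) (hD0 : 0 ≤ D)
    (hD1 : 10 * (u : ℝ) ^ 2 ≤ D ^ 2) (hD2 : 2 * (2 * (u : ℝ) + 1) ^ (2 * u) * n ≤ D ^ (2 * u)) (l : ℕ) :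
    ∀ (Λ : Type) [Fintype Λ] (Ψ : Finset (Fin n) → Om G → Λ → ℝ)
      (_ : ∀ S x x', (∀ i ∈ S, x i = x' i) → Ψ S x = Ψ S x')
      (_ : ∀ S, ∀ i ∈ S, ∀ x lam, ∑ c : G i, Ψ S (Function.update x i c) lam = 0)
      (A : ℕ → ℝ) (_ : ∀ j, 0 ≤ A j)
      (_ : ∀ j ≤ l, ∀ T : Finset (Fin n), T.card = l - j → ∀ y : Om G,
        ∑ S ∈ (powersetCard l univ).filter (fun S => T ⊆ S),
          Ex (fun x => nsq (Ψ S (merge T y x))) ≤ A j ^ 2),
      Ex (fun x => nsq (∑ S ∈ powersetCard l (univ : Finset (Fin n)), Ψ S x) ^ u) ≤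
        (D ^ l * ∑ j ∈ range (l + 1), (l.choose j : ℝ) * A j) ^ (2 * u) := by
  induction l with
  | zero =>
    intro Λ _ Ψ hdep _ A hA0 hA
    obtain ⟨y0⟩ : Nonempty (Om G) := inferInstance
    have hconst : ∀ x, Ψ ∅ x = Ψ ∅ y0 := fun x => hdep ∅ x y0 (by simp)
    have h1 := hA 0 (le_refl _) ∅ (by simp) y0
    simp only [powersetCard_zero, empty_subset, filter_true_of_mem, sum_singleton, mem_singleton,
      implies_true, hconst] at h1
    rw [Ex_const] at h1
    simp only [powersetCard_zero, sum_singleton, hconst]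
    rw [Ex_const]
    simp only [pow_zero, one_mul, zero_add, range_one, sum_singleton, Nat.choose_self,
      Nat.cast_one]
    rw [pow_mul]
    exact pow_le_pow_left₀ (nsq_nonneg _) h1 _
  | succ l ih =>
    intro Λ _ Ψ hdep hmean A hA0 hA
    have hM := dk_hyp hdep hmean l
    simp only [sum_eq_Dk]
    have hmain := mart_ineq hM u hu
    set s : ℝ := D ^ l * ∑ j ∈ range (l + 1), (l.choose j : ℝ) * A (j + 1) with hs
    set t : ℝ := D ^ l * ∑ j ∈ range (l + 1), (l.choose j : ℝ) * A j with ht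
    have hs0 : 0 ≤ s := by
      apply mul_nonneg (by positivity)
      exact sum_nonneg (fun j _ => mul_nonneg (by positivity) (hA0 _))
    have ht0 : 0 ≤ t := by
      apply mul_nonneg (by positivity)
      exact sum_nonneg (fun j _ => mul_nonneg (by positivity) (hA0 _))
    -- the conditional variance part
    have h1 : Ex (fun x => (∑ i, vv (Dk l Ψ) i x) ^ u) ≤ s ^ (2 * u) := by
      have := ih (Λ × (Σ i : Fin n, G i)) (psi1 Ψ) (psi1_dep hdep)
        (fun S' j hj x p => psi1_mean hmean S' j hj x p) (fun j => A (j + 1)) (fun j => hA0 _) ?_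
      · simpa only [sum_psi1] using this
      · intro j hj T hT y
        have hTc : T.card = l + 1 - (j + 1) := by omega
        refine le_trans ?_ (hA (j + 1) (by omega) T hTc y)
        have hcong : ∑ S' ∈ (powersetCard l (univ : Finset (Fin n))).filter (fun S => T ⊆ S),
            Ex (fun x => nsq (psi1 Ψ S' (merge T y x))) =
            ∑ S' ∈ (powersetCard l (univ : Finset (Fin n))).filter (fun S => T ⊆ S),
              ∑ i : Fin n, (if (∀ j ∈ S', j < i) then
                Ex (fun x => nsq (Ψ (insert i S') (merge T y x))) else 0) := by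
          apply sum_congr rfl
          intro S' hS'
          exact psi1_level T y S' (mem_filter.mp hS').2
        rw [hcong]
        exact sum_filter_le1 l T (fun S => Ex (fun x => nsq (Ψ S (merge T y x))))
          (fun S => Ex_nonneg (fun x => nsq_nonneg _))
    -- the large value part
    have h2 : ∀ i, Ex (fun x => nsq (Dk l Ψ i x) ^ u) ≤ t ^ (2 * u) := by
      intro i
      have hc : ∀ c : G i, Ex (fun x => nsq (Dk l Ψ i (Function.update x i c)) ^ u) ≤ t ^ (2 * u) := by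
        intro c
        have := ih Λ (fun S' x => cut Ψ i S' (Function.update x i c))
          (fun S' x x' hx => cut_update_dep hdep i S' x x' hx c)
          (fun S' j hj x lam => cut_update_mean hmean i S' j hj x c lam) A hA0 ?_
        · simpa only [Dk] using this
        · intro j hj T hT y
          by_cases hiT : i ∈ T
          · have : ∑ S' ∈ (powersetCard l (univ : Finset (Fin n))).filter (fun S => T ⊆ S),
                Ex (fun x => nsq (cut Ψ i S' (Function.update (merge T y x) i c))) = 0 := by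
              apply sum_eq_zero
              intro S' hS'
              have hnot : ¬ ∀ j ∈ S', j < i := by
                intro h
                exact lt_irrefl _ (h i ((mem_filter.mp hS').2 hiT))
              simp only [cut, if_neg hnot, nsq_zero]
              exact Ex_const 0
            rw [this]
            exact sq_nonneg _
          · have hTc : (insert i T).card = l + 1 - j := by
              rw [card_insert_of_notMem hiT, hT]; omega
            refine le_trans ?_ (hA j (by omega) (insert i T) hTc (Function.update y i c))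
            have hcong : ∑ S' ∈ (powersetCard l (univ : Finset (Fin n))).filter (fun S => T ⊆ S),
                Ex (fun x => nsq (cut Ψ i S' (Function.update (merge T y x) i c))) =
                ∑ S' ∈ (powersetCard l (univ : Finset (Fin n))).filter (fun S => T ⊆ S),
                  (if (∀ j ∈ S', j < i) then
                    Ex (fun x => nsq (Ψ (insert i S')
                      (merge (insert i T) (Function.update y i c) x))) else 0) := by
              apply sum_congr rfl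
              intro S' _
              by_cases h : ∀ j ∈ S', j < i
              · rw [if_pos h]
                simp only [cut, if_pos h, update_merge_insert]
              · rw [if_neg h]
                simp only [cut, if_neg h, nsq_zero]
                exact Ex_const 0
            rw [hcong]
            exact sum_filter_le2 l T (insert i T)
              (fun S => Ex (fun x => nsq (Ψ S (merge (insert i T) (Function.update y i c) x))))
              (fun S => Ex_nonneg (fun x => nsq_nonneg _)) i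
              (fun S' hS' => insert_subset_insert _ hS')
      rw [← Ex_avg i (fun x => nsq (Dk l Ψ i x) ^ u)]
      have e : ∀ x : Om G, (∑ c : G i, nsq (Dk l Ψ i (Function.update x i c)) ^ u) /
          (Fintype.card (G i) : ℝ)
          = (Fintype.card (G i) : ℝ)⁻¹ * ∑ c : G i, nsq (Dk l Ψ i (Function.update x i c)) ^ u := by
        intro x
        rw [div_eq_inv_mul]
      simp only [e]
      rw [Ex_const_mul, Ex_sum]
      have hle : ∑ c : G i, Ex (fun x => nsq (Dk l Ψ i (Function.update x i c)) ^ u)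
          ≤ (Fintype.card (G i) : ℝ) * t ^ (2 * u) := by
        calc _ ≤ ∑ _c : G i, t ^ (2 * u) := sum_le_sum (fun c _ => hc c)
          _ = _ := by simp [card_univ]
      calc _ ≤ (Fintype.card (G i) : ℝ)⁻¹ * ((Fintype.card (G i) : ℝ) * t ^ (2 * u)) :=
            mul_le_mul_of_nonneg_left hle (inv_nonneg.mpr (card_G_pos i).le)
        _ = _ := by field_simp [(card_G_pos i).ne']
    -- assembling
    have h3 : ∑ i : Fin n, Ex (fun x => nsq (Dk l Ψ i x) ^ u) ≤ (n : ℝ) * t ^ (2 * u) := by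
      calc _ ≤ ∑ _i : Fin n, t ^ (2 * u) := sum_le_sum (fun i _ => h2 i)
        _ = _ := by simp [card_univ]
    have h4 : (10 * (u : ℝ) ^ 2) ^ u ≤ D ^ (2 * u) := by
      rw [pow_mul]
      exact pow_le_pow_left₀ (by positivity) hD1 _
    have h5 : (s + t) * (D * 1) = D ^ (l + 1) * ∑ j ∈ range (l + 1 + 1), ((l + 1).choose j : ℝ) * A j := by
      rw [← pascal_sum, hs, ht]
      ring
    have h6 : s ^ (2 * u) + t ^ (2 * u) ≤ (s + t) ^ (2 * u) :=
      pow_add_pow_le_add_pow' hs0 ht0 _ (by omega)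
    have hD2u : 0 ≤ D ^ (2 * u) := by positivity
    have hEs0 : 0 ≤ Ex (fun x => (∑ i, vv (Dk l Ψ) i x) ^ u) :=
      Ex_nonneg (fun x => pow_nonneg (sum_nonneg (fun i _ => vv_nonneg i x)) _)
    have h7 : (10 * (u : ℝ) ^ 2) ^ u * Ex (fun x => (∑ i, vv (Dk l Ψ) i x) ^ u)
        ≤ D ^ (2 * u) * s ^ (2 * u) :=
      mul_le_mul h4 h1 hEs0 hD2u
    have h8 : 2 * (2 * (u : ℝ) + 1) ^ (2 * u) * ∑ i : Fin n, Ex (fun x => nsq (Dk l Ψ i x) ^ u)
        ≤ D ^ (2 * u) * t ^ (2 * u) := by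
      have hC0 : 0 ≤ 2 * (2 * (u : ℝ) + 1) ^ (2 * u) := by positivity
      calc _ ≤ 2 * (2 * (u : ℝ) + 1) ^ (2 * u) * ((n : ℝ) * t ^ (2 * u)) :=
            mul_le_mul_of_nonneg_left h3 hC0
        _ = (2 * (2 * (u : ℝ) + 1) ^ (2 * u) * n) * t ^ (2 * u) := by ring
        _ ≤ _ := mul_le_mul_of_nonneg_right hD2 (by positivity)
    have h9 : D ^ (2 * u) * (s ^ (2 * u) + t ^ (2 * u)) ≤ D ^ (2 * u) * (s + t) ^ (2 * u) :=
      mul_le_mul_of_nonneg_left h6 hD2u
    have h10 : (D ^ (l + 1) * ∑ j ∈ range (l + 1 + 1), ((l + 1).choose j : ℝ) * A j) ^ (2 * u)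
        = D ^ (2 * u) * (s + t) ^ (2 * u) := by
      rw [← h5, mul_one, mul_pow, mul_comm]
    rw [h10]
    linarith

theorem chaos_moment {Λ : Type} [Fintype Λ] (l u : ℕ) (hu : 1 ≤ u) (D : ℝ) (hD0 : 0 ≤ D)
    (hD1 : 10 * (u : ℝ) ^ 2 ≤ D ^ 2) (hD2 : 2 * (2 * (u : ℝ) + 1) ^ (2 * u) * n ≤ D ^ (2 * u))
    (Ψ : Finset (Fin n) → Om G → Λ → ℝ)
    (hdep : ∀ S x x', (∀ i ∈ S, x i = x' i) → Ψ S x = Ψ S x')
    (hmean : ∀ S, ∀ i ∈ S, ∀ x lam, ∑ c : G i, Ψ S (Function.update x i c) lam = 0)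
    (A : ℕ → ℝ) (hA0 : ∀ j, 0 ≤ A j)
    (hA : ∀ j ≤ l, ∀ T : Finset (Fin n), T.card = l - j → ∀ y : Om G,
      ∑ S ∈ (powersetCard l univ).filter (fun S => T ⊆ S),
        Ex (fun x => nsq (Ψ S (merge T y x))) ≤ A j ^ 2) :
    Ex (fun x => nsq (∑ S ∈ powersetCard l (univ : Finset (Fin n)), Ψ S x) ^ u) ≤
      (D ^ l * ∑ j ∈ range (l + 1), (l.choose j : ℝ) * A j) ^ (2 * u) :=
  chaos_moment_aux u hu D hD0 hD1 hD2 l Λ Ψ hdep hmean A hA0 hA

end Chaos

end Vale.Agent.Lib.P042
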