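import Mathlib

/-! # P042: shared definitions (blueprint: notes/P042_blueprint.md) -/

namespace Vale.Agent.Lib.P042

open Finset

/-- `e(t) = exp(2π i t)`. -/
noncomputable def e (t : ℝ) : ℂ := Complex.exp (2 * Real.pi * Complex.I * t)

/-- Distance to the nearest integer. -/
noncomputable def nint (t : ℝ) : ℝ := |t - round t|

/-- Intersective integer polynomial of degree `k` with positive leading coefficient. -/
structure ClassI (k : ℕ) (f : Polynomial ℤ) : Prop where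
  deg : f.natDegree = k
  lc : 0 < f.leadingCoeff
  inter : ∀ q : ℕ, 1 ≤ q → ∃ n : ℤ, (q : ℤ) ∣ f.eval n

/-- Class `F_k`: moreover the gcd of the nonconstant coefficients is `1` (Bezout form). -/
structure ClassF (k : ℕ) (f : Polynomial ℤ) : Prop extends ClassI k f where
  bez : ∃ v : ℕ → ℤ, ∑ i ∈ Finset.Icc 1 k, v i * f.coeff i = 1

/-- `A` has no difference `f(y) > 0`, `y ≥ 1`. -/
def Free (f : Polynomial ℤ) (A : Finset ℤ) : Prop :=
  ∀ a ∈ A, ∀ b ∈ A, ∀ y : ℕ, 1 ≤ y → 0 < f.eval (y : ℤ) → a - b ≠ f.eval (y : ℤ)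

/-- Number of `z < m` with `x0 + d z ∈ A`. -/
def apCount (A : Finset ℤ) (x0 : ℤ) (d m : ℕ) : ℕ :=
  ((range m).filter (fun z : ℕ => x0 + (d : ℤ) * z ∈ A)).card

/-- The progression `x0 + d z`, `z < m`, lies in `[1,N]`. -/
def InBox (N : ℕ) (x0 : ℤ) (d m : ℕ) : Prop :=
  ∀ z < m, x0 + (d : ℤ) * z ∈ Icc (1 : ℤ) N

/-- No density increment: on progressions of step `≤ Dmax` and `2 d m ≥ L` inside `[1,N]` the density of `A` is at most `(1+ε0)δ`. -/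
def Reg (A : Finset ℤ) (N : ℕ) (δ ε0 : ℝ) (Dmax L : ℕ) : Prop :=
  ∀ (d m : ℕ) (x0 : ℤ), 1 ≤ d → d ≤ Dmax → L ≤ 2 * d * m → InBox N x0 d m →
    (apCount A x0 d m : ℝ) ≤ (1 + ε0) * δ * m

/-- The balanced function `1_A - δ 1_[N]`. -/
noncomputable def gfun (A : Finset ℤ) (N : ℕ) (δ : ℝ) (x : ℤ) : ℝ :=
  (if x ∈ A then 1 else 0) - δ * (if x ∈ Icc (1 : ℤ) N then 1 else 0)

/-! ### Product spaces -/

section Prod

variable {n : ℕ}

/-- The product space. -/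
abbrev Om (G : Fin n → Type) := ∀ i, G i

variable {G : Fin n → Type} [∀ i, Fintype (G i)] [∀ i, DecidableEq (G i)]

/-- Uniform expectation on the product space. -/
noncomputable def Ex (F : Om G → ℝ) : ℝ := (∑ w, F w) / (Fintype.card (Om G) : ℝ)

/-- `y` on `T`, `x` off `T`. -/
def merge (T : Finset (Fin n)) (y x : Om G) : Om G := fun i => if i ∈ T then y i else x i

/-- Squared Euclidean norm of a real vector. -/
def nsq {Λ : Type} [Fintype Λ] (v : Λ → ℝ) : ℝ := ∑ l, v l ^ 2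

variable {α : Type}

/-- `∏_{i∈U} |G_i|`. -/
noncomputable def cardU (G : Fin n → Type) [∀ i, Fintype (G i)] (U : Finset (Fin n)) : ℝ :=
  ∏ i ∈ U, (Fintype.card (G i) : ℝ)

/-- `#{x ∈ Y : π(x)_i = w_i ∀ i ∈ U}`. -/
noncomputable def cnt (π : α → Om G) (Y : Finset α) (U : Finset (Fin n)) (w : Om G) : ℝ :=
  ((Y.filter (fun x => ∀ i ∈ U, π x i = w i)).card : ℝ)

/-- The density ratio `r_S`. -/
noncomputable def rr (π : α → Om G) (X : Finset α) (ν : ℝ) (S : Finset (Fin n)) (w : Om G) : ℝ :=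
  cardU G S * cnt π X S w / ν

/-- The Hoeffding component `h_S = ∑_{R ⊆ S} (-1)^{|S|-|R|} r_R`. -/
noncomputable def hoef (π : α → Om G) (X : Finset α) (ν : ℝ) (S : Finset (Fin n)) (w : Om G) : ℝ :=
  ∑ R ∈ S.powerset, (-1 : ℝ) ^ (S.card - R.card) * rr π X ν R w

/-- Level-`l` weight on the active coordinates `I'`. -/
noncomputable def Mlev (π : α → Om G) (X : Finset α) (ν : ℝ) (I' : Finset (Fin n)) (l : ℕ) : ℝ :=
  ∑ S ∈ I'.powersetCard l, Ex (fun w => hoef π X ν S w ^ 2)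

end Prod

/-! ### Characters and the index family -/

section Char

variable {n : ℕ} (m : Fin n → ℕ) [∀ i, NeZero (m i)]

/-- Product character `ψ_b(w) = e(∑ b_i w_i / m_i)`. -/
noncomputable def psi (b w : ∀ i, ZMod (m i)) : ℂ :=
  e (∑ i, ((b i).val : ℝ) * ((w i).val : ℝ) / (m i : ℝ))

/-- `μ_b = ∑ b_i / m_i`. -/
noncomputable def mu (b : ∀ i, ZMod (m i)) : ℝ := ∑ i, ((b i).val : ℝ) / (m i : ℝ)

/-- `λ(κ,b) = κ/K + μ_b`. -/
noncomputable def lam (K κ : ℕ) (b : ∀ i, ZMod (m i)) : ℝ := (κ : ℝ) / (K : ℝ) + mu m b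

/-- Size of the support of `b`. -/
def suppSize {m : Fin n → ℕ} [∀ i, NeZero (m i)] (b : ∀ i, ZMod (m i)) : ℕ :=
  (univ.filter (fun i => b i ≠ 0)).card

/-- The sum defining `τ`: windows `[x,x+L)`, `1-L < x ≤ N`; frequencies `λ(κ,b)`, `κ < K`, `|supp b| ≤ l0`. -/
noncomputable def tauSum (g : ℤ → ℝ) (N L K : ℕ) (l0 : ℕ) : ℝ :=
  ∑ x ∈ Ioc (1 - (L : ℤ)) N, ∑ κ ∈ range K,
    ∑ b ∈ (univ : Finset (∀ i, ZMod (m i))).filter (fun b => suppSize b ≤ l0),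
      ‖∑ u ∈ Ico x (x + L), (g u : ℂ) * e (lam m K κ b * u)‖ ^ 2

end Char

/-! ### Fourier objects -/

/-- Discrete Fourier transform on `[1,N]` with modulus `W`. -/
noncomputable def ghat (g : ℤ → ℝ) (N W : ℕ) (t : ℕ) : ℂ :=
  ∑ x ∈ Icc (1 : ℤ) N, (g x : ℂ) * e ((t : ℝ) * x / W)

/-- The exponential sum over `Y = (M/2, M]`. -/
noncomputable def Sexp (f : Polynomial ℤ) (M : ℕ) (α : ℝ) : ℂ :=
  ∑ y ∈ Ioc (M / 2) M, e (α * ((f.eval (y : ℤ) : ℤ) : ℝ))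

/-- The arcs statement (Lemma W2) with exponent `C3`. -/
def ArcsProp (k C3 : ℕ) : Prop :=
  ∀ (f : Polynomial ℤ), ClassF k f → ∀ (H : ℝ), (∀ i, |(f.coeff i : ℝ)| ≤ H) →
    ∀ (M : ℕ) (η α : ℝ), 0 < η → η ≤ 1 → (H / η) ^ C3 ≤ (M : ℝ) →
      η * M ≤ ‖Sexp f M α‖ →
      ∃ (q : ℕ) (b : ℤ), 1 ≤ q ∧ (q : ℝ) ≤ η⁻¹ ^ C3 ∧
        |α - (b : ℝ) / q| ≤ η⁻¹ ^ C3 / ((f.leadingCoeff : ℝ) * (M : ℝ) ^ k)

end Vale.Agent.Lib.P042
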