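import Vale.Agent.Lib.P042.Iterate

/-! # P042: final assembly -/

namespace Vale.Agent.Lib.P042

open Finset

lemma bernoulli_pow (u : ℕ) : Real.exp u ≤ (1 + 1 / 1024 : ℝ) ^ (2048 * u) := by
  obtain ⟨b, hb⟩ : ∃ b : ℝ, b = 1 + 1 / 1024 := ⟨_, rfl⟩
  rw [← hb]
  have hb0 : 0 ≤ b := by rw [hb]; norm_num
  have h1 : (2 : ℝ) ≤ b ^ 1024 := by
    have h := one_add_mul_le_pow (a := (1 / 1024 : ℝ)) (by norm_num) 1024
    rw [← hb] at h
    have e : (1 : ℝ) + ((1024 : ℕ) : ℝ) * (1 / 1024) = 2 := by norm_num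
    rw [e] at h
    exact h
  have h2 : (4 : ℝ) ≤ b ^ 2048 := by
    have e : b ^ 2048 = (b ^ 1024) ^ 2 := by
      rw [← pow_mul]
    rw [e]
    generalize b ^ 1024 = t at h1
    nlinarith
  have h3 : Real.exp 1 ≤ b ^ 2048 := by
    have := Real.exp_one_lt_d9; linarith
  have e1 : Real.exp u = (Real.exp 1) ^ u := by
    rw [← Real.exp_nat_mul]; simp
  rw [e1, pow_mul]
  exact pow_le_pow_left₀ (Real.exp_pos 1).le h3 u

/-- Real arithmetic: from `x < W + C5 u^(E+1)`, large `x` and `u` near `log(1/δ)` get the bound on `δ`. -/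
lemma final_numeric {x W C5 δ : ℝ} {E u : ℕ} (hC5 : 1 ≤ C5) (hδ : 0 < δ) (hu : u = max 1 ⌈Real.log δ⁻¹⌉₊)
    (hx : x < W + C5 * (u : ℝ) ^ (E + 1)) (hW : 2 * W ≤ x) (hx0 : (2 * C5) ^ (E + 2) ≤ x) (hx1 : 0 < x) :
    δ ≤ Real.exp 1 * Real.exp (-(x ^ (1 / ((E : ℝ) + 2)))) := by
  set c : ℝ := 1 / ((E : ℝ) + 2) with hc
  have hE2 : (0 : ℝ) < (E : ℝ) + 2 := by positivity
  have hc0 : 0 < c := by positivity
  -- `x^c ≥ 2 C5`
  have hxc : 2 * C5 ≤ x ^ c := by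
    have h1 : ((2 * C5) ^ (E + 2)) ^ c ≤ x ^ c :=
      Real.rpow_le_rpow (by positivity) hx0 hc0.le
    have h2 : ((2 * C5) ^ (E + 2)) ^ c = 2 * C5 := by
      rw [← Real.rpow_natCast, ← Real.rpow_mul (by positivity)]
      have : ((E + 2 : ℕ) : ℝ) * c = 1 := by
        rw [hc]; push_cast; field_simp
      rw [this, Real.rpow_one]
    rwa [h2] at h1
  -- `(x^c)^(E+1) ≤ x/(2 C5)`
  have hpow : (x ^ c) ^ (E + 1) * (2 * C5) ≤ x := by
    have e : x = (x ^ c) ^ (E + 1) * x ^ c := by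
      rw [← Real.rpow_natCast, ← Real.rpow_mul hx1.le, ← Real.rpow_add hx1]
      have : c * ((E + 1 : ℕ) : ℝ) + c = 1 := by
        rw [hc]; push_cast; field_simp; ring
      rw [this, Real.rpow_one]
    calc (x ^ c) ^ (E + 1) * (2 * C5) ≤ (x ^ c) ^ (E + 1) * x ^ c :=
          mul_le_mul_of_nonneg_left hxc (by positivity)
      _ = x := e.symm
  have hu1 : (x ^ c) ^ (E + 1) < (u : ℝ) ^ (E + 1) := by
    have h1 : x / 2 < C5 * (u : ℝ) ^ (E + 1) := by linarith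
    have h2 : (x ^ c) ^ (E + 1) * C5 * 2 ≤ x := by linarith
    have h3 : (x ^ c) ^ (E + 1) * C5 < (u : ℝ) ^ (E + 1) * C5 := by nlinarith
    exact lt_of_mul_lt_mul_right h3 (by linarith)
  have hu2 : x ^ c < (u : ℝ) := lt_of_pow_lt_pow_left₀ (E + 1) (Nat.cast_nonneg _) hu1
  -- so `u ≥ 2`, and `u = ⌈log(1/δ)⌉`
  have hu3 : (2 : ℝ) < u := by linarith
  have hu4 : u = ⌈Real.log δ⁻¹⌉₊ := by
    rcases le_total 1 ⌈Real.log δ⁻¹⌉₊ with h | h
    · rw [hu, max_eq_right h]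
    · exfalso
      rw [hu, max_eq_left h] at hu3
      norm_num at hu3
  have hceil : (u : ℝ) < Real.log δ⁻¹ + 1 := by
    rw [hu4]
    apply Nat.ceil_lt_add_one
    by_contra hneg
    push Not at hneg
    have : ⌈Real.log δ⁻¹⌉₊ = 0 := Nat.ceil_eq_zero.mpr hneg.le
    rw [hu4, this] at hu3
    norm_num at hu3
  have hlog : x ^ c - 1 < Real.log δ⁻¹ := by linarith
  have h5 : Real.exp (x ^ c - 1) < δ⁻¹ := by
    have := (Real.lt_log_iff_exp_lt (by positivity)).mp hlog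
    exact this
  have h6 : δ < (Real.exp (x ^ c - 1))⁻¹ := by
    rw [lt_inv_comm₀ hδ (Real.exp_pos _)]; exact h5
  have e : (Real.exp (x ^ c - 1))⁻¹ = Real.exp 1 * Real.exp (-(x ^ c)) := by
    rw [← Real.exp_neg, ← Real.exp_add]; congr 1; ring
  rw [e] at h6
  exact h6.le

/-- Bound for `f`-free sets, after the normalisation. -/
lemma free_bound {k : ℕ} {C C' : ℝ} {E : ℕ} (hC : 1 ≤ C) (hC' : 1 ≤ C')
    (hno : ∀ u : ℕ, 1 ≤ u → ∀ s : ℕ, ∀ f : Polynomial ℤ, ClassF k f → ∀ H : ℝ, (∀ i, |(f.coeff i : ℝ)| ≤ H) →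
      ∀ (N : ℕ) (A : Finset ℤ), A ⊆ Icc (1 : ℤ) N → Free f A → ∀ δ : ℝ, δ = (A.card : ℝ) / N → 0 < δ →
      δ⁻¹ ≤ Real.exp u → 1 ≤ δ * (1 + 1 / 1024 : ℝ) ^ s →
      C * (Real.log H + (u : ℝ) ^ E) + C' * s * (u : ℝ) ^ E ≤ Real.log ((N : ℝ) / (f.leadingCoeff : ℝ)) →
      False)
    {f : Polynomial ℤ} (hf : ClassF k f) {H : ℝ} (hH : ∀ i, |(f.coeff i : ℝ)| ≤ H) (hH1 : 1 ≤ H)
    {N : ℕ} {A : Finset ℤ} (hA : A ⊆ Icc (1 : ℤ) N) (hfree : Free f A) {δ : ℝ} (hδ : δ = (A.card : ℝ) / N)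
    (hδ0 : 0 < δ) {u : ℕ} (hu : 1 ≤ u) (hδu : δ⁻¹ ≤ Real.exp u) :
    Real.log ((N : ℝ) / (f.leadingCoeff : ℝ)) <
      C * Real.log H + (C + 2048 * C') * (u : ℝ) ^ (E + 1) := by
  by_contra hcon
  push Not at hcon
  have huR : (1 : ℝ) ≤ u := by exact_mod_cast hu
  refine hno u hu (2048 * u) f hf H hH N A hA hfree δ hδ hδ0 hδu ?_ ?_
  · have h1 := bernoulli_pow u
    have h2 : (1 : ℝ) ≤ δ * Real.exp u := by
      have : δ⁻¹ * δ = 1 := inv_mul_cancel₀ hδ0.ne'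
      nlinarith
    have h3 : δ * Real.exp u ≤ δ * (1 + 1 / 1024 : ℝ) ^ (2048 * u) := mul_le_mul_of_nonneg_left h1 hδ0.le
    linarith
  · refine le_trans ?_ hcon
    have hp : (u : ℝ) ^ E ≤ (u : ℝ) ^ (E + 1) := pow_le_pow_right₀ huR (by omega)
    have e : (u : ℝ) ^ (E + 1) = (u : ℝ) ^ E * u := pow_succ _ _
    have h1 : C * (u : ℝ) ^ E ≤ C * (u : ℝ) ^ (E + 1) := mul_le_mul_of_nonneg_left hp (by linarith)
    push_cast
    rw [mul_add, e]
    rw [e] at h1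
    have e2 : C' * (2048 * (u : ℝ)) * (u : ℝ) ^ E = 2048 * C' * ((u : ℝ) ^ E * u) := by ring
    rw [e2]
    nlinarith

lemma card_le_apCount {A : Finset ℕ} {N : ℕ} (hA : A ⊆ Icc 1 N) :
    A.card ≤ apCount (A.image (fun a : ℕ => (a : ℤ))) 1 1 N := by
  unfold apCount
  apply Finset.card_le_card_of_injOn (fun a => a - 1)
  · intro a ha
    have h1 := mem_Icc.mp (hA ha)
    simp only [coe_filter, mem_range, Set.mem_setOf_eq]
    refine ⟨by omega, ?_⟩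
    rw [mem_image]
    refine ⟨a, ha, ?_⟩
    push_cast
    omega
  · intro a ha b hb hab
    have h1 := mem_Icc.mp (hA ha)
    have h2 := mem_Icc.mp (hA hb)
    simp only at hab
    omega

/-- The bound for large `N`. -/
lemma large_case {k : ℕ} {C C' : ℝ} {E : ℕ} (hk : 2 ≤ k) (hC : 1 ≤ C) (hC' : 1 ≤ C')
    (hno : ∀ u : ℕ, 1 ≤ u → ∀ s : ℕ, ∀ f : Polynomial ℤ, ClassF k f → ∀ H : ℝ, (∀ i, |(f.coeff i : ℝ)| ≤ H) →
      ∀ (N : ℕ) (A : Finset ℤ), A ⊆ Icc (1 : ℤ) N → Free f A → ∀ δ : ℝ, δ = (A.card : ℝ) / N → 0 < δ →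
      δ⁻¹ ≤ Real.exp u → 1 ≤ δ * (1 + 1 / 1024 : ℝ) ^ s →
      C * (Real.log H + (u : ℝ) ^ E) + C' * s * (u : ℝ) ^ E ≤ Real.log ((N : ℝ) / (f.leadingCoeff : ℝ)) →
      False)
    {h : Polynomial ℤ} (hI : ClassI k h) {H : ℝ} (hH : ∀ i, |(h.coeff i : ℝ)| ≤ H) (hH1 : 1 ≤ H)
    {N : ℕ} {A : Finset ℕ} (hA : A ⊆ Icc 1 N)
    (hfree : ∀ a ∈ A, ∀ b ∈ A, ∀ n : ℕ, 1 ≤ n → (a : ℤ) - b = h.eval (n : ℤ) → h.eval (n : ℤ) = 0)
    (hne : A.Nonempty)
    (hW : 2 * (Real.log (2 * (h.leadingCoeff : ℝ)) + C * Real.log ((k + 1) * 2 ^ k * H)) ≤ Real.log N)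
    (hx0 : (2 * (C + 2048 * C')) ^ (E + 2) ≤ Real.log N) (hx1 : 0 < Real.log N) :
    (A.card : ℝ) ≤ Real.exp 1 * Real.exp (-(Real.log N ^ (1 / ((E : ℝ) + 2)))) * N := by
  have haZ : (1 : ℤ) ≤ h.leadingCoeff := hI.lc
  have haR : (1 : ℝ) ≤ (h.leadingCoeff : ℝ) := by exact_mod_cast haZ
  have hNpos : 0 < N := by
    obtain ⟨a, ha⟩ := hne
    have := mem_Icc.mp (hA ha)
    omega
  have hNR : (0 : ℝ) < N := by exact_mod_cast hNpos
  have hk1 : (1 : ℝ) ≤ (k : ℝ) + 1 := by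
    have : (0 : ℝ) ≤ k := Nat.cast_nonneg _
    linarith
  have h2k : (1 : ℝ) ≤ 2 ^ k := one_le_pow₀ (by norm_num)
  have hH2 : (1 : ℝ) ≤ (k + 1) * 2 ^ k * H := by
    have : (1 : ℝ) ≤ (k + 1) * 2 ^ k := by nlinarith
    nlinarith
  have hlogH2 : 0 ≤ Real.log ((k + 1) * 2 ^ k * H) := Real.log_nonneg hH2
  have hloga : 0 ≤ Real.log (2 * (h.leadingCoeff : ℝ)) := Real.log_nonneg (by linarith)
  have hCl : 0 ≤ C * Real.log ((k + 1) * 2 ^ k * H) := mul_nonneg (by linarith) hlogH2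
  -- `a ≤ N`
  have haN : 2 * (h.leadingCoeff : ℝ) ≤ N := by
    have : Real.log (2 * (h.leadingCoeff : ℝ)) ≤ Real.log N := by linarith
    exact (Real.log_le_log_iff (by linarith) hNR).mp this
  have haNZ : h.leadingCoeff * ((1 : ℕ) : ℤ) ^ (k - 1) ≤ N := by
    have : (h.leadingCoeff : ℝ) ≤ N := by linarith
    have h' : h.leadingCoeff ≤ (N : ℤ) := by exact_mod_cast this
    simpa using h'
  -- the integer set
  set A' : Finset ℤ := A.image (fun a : ℕ => (a : ℤ)) with hA'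
  have hcard : A'.card = A.card := card_image_of_injective _ Nat.cast_injective
  have hfree' : Free h A' := by
    intro a' ha' b' hb' y hy hpos heq
    obtain ⟨a, ha, rfl⟩ := mem_image.mp ha'
    obtain ⟨b, hb, rfl⟩ := mem_image.mp hb'
    have := hfree a ha b hb y hy heq
    omega
  obtain ⟨f2, m2, A2, hf2, hH2', hA2, hfree2, hm2, hdens, hlead⟩ :=
    transform (x0 := 1) (d := 1) (m := N) hk hI hH hfree' le_rfl haNZ
  have hm2R : (0 : ℝ) < m2 := by exact_mod_cast hm2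
  have hcount : (A.card : ℝ) ≤ apCount A' 1 1 N := by exact_mod_cast card_le_apCount hA
  set δ : ℝ := (A.card : ℝ) / N with hδ
  have hδ0 : 0 < δ := by
    have : 0 < A.card := card_pos.mpr hne
    have : (0 : ℝ) < A.card := by exact_mod_cast this
    positivity
  set δ2 : ℝ := (A2.card : ℝ) / m2 with hδ2
  have hδδ2 : δ ≤ δ2 := by
    rw [hδ, hδ2, div_le_div_iff₀ hNR hm2R]
    have := mul_le_mul_of_nonneg_right hcount hm2R.le
    linarith
  have hδ20 : 0 < δ2 := lt_of_lt_of_le hδ0 hδδ2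
  obtain ⟨u, hu⟩ : ∃ u : ℕ, u = max 1 ⌈Real.log δ⁻¹⌉₊ := ⟨_, rfl⟩
  have hu1 : 1 ≤ u := by rw [hu]; exact le_max_left _ _
  have hδu : δ⁻¹ ≤ Real.exp u := by
    have h1 : Real.log δ⁻¹ ≤ u := by
      refine (Nat.le_ceil _).trans ?_
      rw [hu]
      exact_mod_cast le_max_right _ _
    exact (Real.log_le_iff_le_exp (by positivity)).mp h1
  have hδ2u : δ2⁻¹ ≤ Real.exp u := (inv_anti₀ hδ0 hδδ2).trans hδu
  have hbound := free_bound hC hC' hno hf2 (H := (k + 1) * 2 ^ k * H)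
    (fun i => by simpa using hH2' i) hH2 hA2 hfree2 rfl hδ20 hu1 hδ2u
  have hf2lc : (1 : ℝ) ≤ (f2.leadingCoeff : ℝ) := by
    have : (1 : ℤ) ≤ f2.leadingCoeff := hf2.lc
    exact_mod_cast this
  -- transfer to `N`
  have hlog : Real.log ((N : ℝ) / (2 * (h.leadingCoeff : ℝ))) ≤ Real.log ((m2 : ℝ) / (f2.leadingCoeff : ℝ)) := by
    apply Real.log_le_log (by positivity)
    rw [div_le_div_iff₀ (by linarith) (by linarith)]
    simp only [Nat.cast_one, one_pow, mul_one] at hlead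
    linarith
  rw [Real.log_div hNR.ne' (by linarith)] at hlog
  have hxW : Real.log N < (Real.log (2 * (h.leadingCoeff : ℝ)) + C * Real.log ((k + 1) * 2 ^ k * H)) +
      (C + 2048 * C') * (u : ℝ) ^ (E + 1) := by linarith
  have hC5 : 1 ≤ C + 2048 * C' := by linarith
  have hfinal := final_numeric hC5 hδ0 hu hxW hW hx0 hx1
  have e : (A.card : ℝ) = δ * N := by
    rw [hδ]; field_simp
  rw [e]
  exact mul_le_mul_of_nonneg_right hfinal hNR.le

/-- MAIN THEOREM. For every `k ≥ 2` there is `c > 0` such that for every intersective `h` of degree `k`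
with positive leading coefficient, `r_h(N) ≤ C N exp(-(log N)^c)`. -/
theorem final_main (k : ℕ) (hk : 2 ≤ k) : ∃ c : ℝ, 0 < c ∧ ∀ h : Polynomial ℤ, h.natDegree = k →
    0 < h.leadingCoeff → (∀ q : ℕ, 1 ≤ q → ∃ t : ℤ, (q : ℤ) ∣ h.eval t) →
    ∃ C : ℝ, 0 < C ∧ ∀ (N : ℕ) (A : Finset ℕ), A ⊆ Finset.Icc 1 N →
      (∀ a ∈ A, ∀ b ∈ A, ∀ n : ℕ, 1 ≤ n → (a : ℤ) - b = h.eval (n : ℤ) → h.eval (n : ℤ) = 0) →
      (A.card : ℝ) ≤ C * N * Real.exp (-(Real.log N) ^ c) := by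
  obtain ⟨C, C', E, hC, hC', hE, hno⟩ := no_set k hk
  refine ⟨1 / ((E : ℝ) + 2), by positivity, ?_⟩
  intro h hdeg hlc hint
  have hI : ClassI k h := ⟨hdeg, hlc, hint⟩
  set c : ℝ := 1 / ((E : ℝ) + 2) with hc
  have hc0 : 0 < c := by positivity
  set H : ℝ := 1 + ∑ i ∈ range (k + 1), |(h.coeff i : ℝ)| with hHdef
  have hsum0 : 0 ≤ ∑ i ∈ range (k + 1), |(h.coeff i : ℝ)| := sum_nonneg (fun _ _ => abs_nonneg _)
  have hH1 : 1 ≤ H := by rw [hHdef]; linarith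
  have hH : ∀ i, |(h.coeff i : ℝ)| ≤ H := by
    intro i
    by_cases hi : i ≤ k
    · have := single_le_sum (f := fun i => |(h.coeff i : ℝ)|) (fun _ _ => abs_nonneg _)
        (mem_range.mpr (Nat.lt_succ_of_le hi))
      rw [hHdef]; linarith
    · have : h.coeff i = 0 := Polynomial.coeff_eq_zero_of_natDegree_lt (by omega)
      rw [this]; simp; linarith
  set x0 : ℝ := max (max (2 * (Real.log (2 * (h.leadingCoeff : ℝ)) + C * Real.log ((k + 1) * 2 ^ k * H)))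
    ((2 * (C + 2048 * C')) ^ (E + 2))) 1 with hx0
  have hx01 : 1 ≤ x0 := le_max_right _ _
  refine ⟨Real.exp 1 * Real.exp (x0 ^ c), by positivity, ?_⟩
  intro N A hA hfree
  have hNnn : (0 : ℝ) ≤ N := Nat.cast_nonneg _
  have hexp : (0 : ℝ) < Real.exp (-(Real.log N) ^ c) := Real.exp_pos _
  rcases A.eq_empty_or_nonempty with hemp | hne
  · rw [hemp]; simp; positivity
  have hNpos : 1 ≤ N := by
    obtain ⟨a, ha⟩ := hne
    have := mem_Icc.mp (hA ha)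
    omega
  have hNR : (1 : ℝ) ≤ N := by exact_mod_cast hNpos
  have hx0log : 0 ≤ Real.log N := Real.log_nonneg hNR
  by_cases hxlarge : x0 < Real.log N
  · have h1 : max (2 * (Real.log (2 * (h.leadingCoeff : ℝ)) + C * Real.log ((k + 1) * 2 ^ k * H)))
        ((2 * (C + 2048 * C')) ^ (E + 2)) ≤ x0 := le_max_left _ _
    have hW : 2 * (Real.log (2 * (h.leadingCoeff : ℝ)) + C * Real.log ((k + 1) * 2 ^ k * H)) ≤ Real.log N :=
      (le_max_left _ _).trans (h1.trans hxlarge.le)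
    have hx2 : (2 * (C + 2048 * C')) ^ (E + 2) ≤ Real.log N := (le_max_right _ _).trans (h1.trans hxlarge.le)
    have hmain := large_case hk hC hC' hno hI hH hH1 hA hfree hne hW hx2 (by linarith)
    refine hmain.trans ?_
    have h3 : (1 : ℝ) ≤ Real.exp (x0 ^ c) := Real.one_le_exp (by positivity)
    have e : Real.exp 1 * Real.exp (x0 ^ c) * N * Real.exp (-(Real.log N) ^ c) =
        (Real.exp 1 * Real.exp (-(Real.log N ^ c)) * N) * Real.exp (x0 ^ c) := by ring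
    rw [e]
    have h4 : 0 ≤ Real.exp 1 * Real.exp (-(Real.log N ^ c)) * N := by positivity
    nlinarith
  · push Not at hxlarge
    have hcardN : (A.card : ℝ) ≤ N := by
      have := card_le_card hA
      simp at this
      exact_mod_cast this
    have h5 : (Real.log N) ^ c ≤ x0 ^ c := Real.rpow_le_rpow hx0log hxlarge hc0.le
    have h6 : (1 : ℝ) ≤ Real.exp (x0 ^ c) * Real.exp (-(Real.log N) ^ c) := by
      rw [← Real.exp_add]
      exact Real.one_le_exp (by linarith)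
    have h7 : (1 : ℝ) ≤ Real.exp 1 := Real.one_le_exp (by norm_num)
    have e : Real.exp 1 * Real.exp (x0 ^ c) * N * Real.exp (-(Real.log N) ^ c) =
        Real.exp 1 * (Real.exp (x0 ^ c) * Real.exp (-(Real.log N) ^ c)) * N := by ring
    rw [e]
    have h8 : (1 : ℝ) ≤ Real.exp 1 * (Real.exp (x0 ^ c) * Real.exp (-(Real.log N) ^ c)) := by nlinarith
    nlinarith

end Vale.Agent.Lib.P042
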