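import Vale.Agent.Lib.P042.Defs

/-! # P042 TASK F: the main inequality and Gallagher's lemma, blueprint Sections 3,4 -/

namespace Vale.Agent.Lib.P042

open Finset

lemma e_add (a b : ℝ) : e (a + b) = e a * e b := by
  unfold e
  rw [← Complex.exp_add]
  congr 1
  push_cast
  ring

lemma e_zero : e 0 = 1 := by simp [e]

lemma e_int (n : ℤ) : e (n : ℝ) = 1 := by
  unfold e
  rw [Complex.exp_eq_one_iff]
  exact ⟨n, by push_cast; ring⟩

lemma norm_e (t : ℝ) : ‖e t‖ = 1 := by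
  unfold e
  rw [show (2 * (Real.pi : ℂ) * Complex.I * (t : ℂ)) = ((2 * Real.pi * t : ℝ) : ℂ) * Complex.I by
    push_cast; ring]
  exact Complex.norm_exp_ofReal_mul_I _

lemma conj_e (t : ℝ) : (starRingEnd ℂ) (e t) = e (-t) := by
  unfold e
  rw [← Complex.exp_conj]
  congr 1
  simp only [map_mul, Complex.conj_ofReal, Complex.conj_I, map_ofNat]
  push_cast
  ring

lemma e_nat_mul (k : ℕ) (x : ℝ) : e ((k : ℝ) * x) = e x ^ k := by
  unfold e
  rw [← Complex.exp_nat_mul]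
  congr 1
  push_cast
  ring

lemma e_eq_one_iff (x : ℝ) : e x = 1 ↔ ∃ n : ℤ, x = n := by
  unfold e
  rw [Complex.exp_eq_one_iff]
  constructor
  · rintro ⟨n, hn⟩
    refine ⟨n, ?_⟩
    have h2 : (2 * (Real.pi : ℂ) * Complex.I) ≠ 0 := by
      simp [Real.pi_ne_zero]
    have h3 : (x : ℂ) = (n : ℂ) := by
      apply mul_left_cancel₀ h2
      rw [hn]; ring
    exact_mod_cast h3
  · rintro ⟨n, rfl⟩
    exact ⟨n, by push_cast; ring⟩

/-- Orthogonality of additive characters. -/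
lemma sum_e_range (W : ℕ) (hW : 0 < W) (n : ℤ) :
    ∑ t ∈ range W, e ((t : ℝ) * n / W) = if (W : ℤ) ∣ n then (W : ℂ) else 0 := by
  have hW' : (W : ℝ) ≠ 0 := by positivity
  have hz : ∀ t : ℕ, e ((t : ℝ) * n / W) = e ((n : ℝ) / W) ^ t := by
    intro t
    rw [← e_nat_mul]
    congr 1
    ring
  simp_rw [hz]
  split_ifs with h
  · obtain ⟨c, rfl⟩ := h
    have : e (((W : ℤ) * c : ℤ) / (W : ℝ)) = 1 := by
      rw [e_eq_one_iff]
      refine ⟨c, ?_⟩
      push_cast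
      field_simp
    rw [this]
    simp
  · have hne : e ((n : ℝ) / W) ≠ 1 := by
      intro h1
      rw [e_eq_one_iff] at h1
      obtain ⟨m, hm⟩ := h1
      apply h
      refine ⟨m, ?_⟩
      have : (n : ℝ) = (W : ℝ) * m := by
        field_simp at hm
        linarith
      exact_mod_cast this
    have hpow : e ((n : ℝ) / W) ^ W = 1 := by
      rw [← e_nat_mul]
      have : (W : ℝ) * ((n : ℝ) / W) = (n : ℝ) := by field_simp
      rw [this, e_int]
    rw [geom_sum_eq hne, hpow]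
    simp

/-- The double sum formula behind Parseval and the autocorrelation identity. -/
lemma sum_norm_sq_mul_e (X : Finset ℤ) (h : ℤ → ℂ) (W : ℕ) (hW : 0 < W) (d : ℤ) :
    ∑ t ∈ range W, ((‖∑ x ∈ X, h x * e ((t : ℝ) * x / W)‖ ^ 2 : ℝ) : ℂ) * e ((t : ℝ) * d / W)
      = (W : ℂ) * ∑ x ∈ X, ∑ x' ∈ X, h x * (starRingEnd ℂ) (h x') *
          (if (W : ℤ) ∣ (x - x' + d) then 1 else 0) := by
  have hW' : (W : ℝ) ≠ 0 := by positivity
  have h1 : ∀ t : ℕ, ((‖∑ x ∈ X, h x * e ((t : ℝ) * x / W)‖ ^ 2 : ℝ) : ℂ) * e ((t : ℝ) * d / W)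
      = ∑ x ∈ X, ∑ x' ∈ X, h x * (starRingEnd ℂ) (h x') * e ((t : ℝ) * ((x - x' + d : ℤ) : ℝ) / W) := by
    intro t
    push_cast
    rw [← Complex.mul_conj', map_sum, Finset.sum_mul_sum, Finset.sum_mul]
    refine Finset.sum_congr rfl fun x _ => ?_
    rw [Finset.sum_mul]
    refine Finset.sum_congr rfl fun x' _ => ?_
    rw [map_mul, conj_e]
    have : ((t : ℝ) * ((x : ℝ) - x' + d) / W) = (t : ℝ) * x / W + (-((t : ℝ) * x' / W) + (t : ℝ) * d / W) := by
      ring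
    rw [this, e_add, e_add]
    ring
  simp_rw [h1]
  rw [Finset.sum_comm, Finset.mul_sum]
  refine Finset.sum_congr rfl fun x _ => ?_
  rw [Finset.sum_comm, Finset.mul_sum]
  refine Finset.sum_congr rfl fun x' _ => ?_
  rw [← Finset.mul_sum, sum_e_range W hW]
  split_ifs <;> ring

/-- Complex Parseval on a short set. -/
lemma parseval_gen (X : Finset ℤ) (h : ℤ → ℂ) (W : ℕ) (hW : 0 < W)
    (hX : ∀ x ∈ X, ∀ x' ∈ X, |x - x'| < W) :
    ∑ t ∈ range W, ‖∑ x ∈ X, h x * e ((t : ℝ) * x / W)‖ ^ 2 = (W : ℝ) * ∑ x ∈ X, ‖h x‖ ^ 2 := by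
  have key := sum_norm_sq_mul_e X h W hW 0
  have h0 : ∀ t : ℕ, e ((t : ℝ) * ((0 : ℤ) : ℝ) / W) = 1 := by
    intro t; simp [e_zero]
  simp_rw [h0, mul_one] at key
  have h2 : ∀ x ∈ X, ∑ x' ∈ X, h x * (starRingEnd ℂ) (h x') *
      (if (W : ℤ) ∣ (x - x' + 0) then (1 : ℂ) else 0) = ((‖h x‖ ^ 2 : ℝ) : ℂ) := by
    intro x hx
    rw [Finset.sum_eq_single x]
    · simp only [sub_self, add_zero, dvd_zero, if_true, mul_one]
      push_cast
      exact Complex.mul_conj' _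
    · intro x' hx' hne
      have : ¬ ((W : ℤ) ∣ (x - x' + 0)) := by
        intro hd
        have := Int.eq_zero_of_abs_lt_dvd hd (by simpa using hX x hx x' hx')
        apply hne
        omega
      rw [if_neg this, mul_zero]
    · intro hx'; exact absurd hx hx'
  rw [Finset.sum_congr rfl h2] at key
  exact_mod_cast key


/-- Parseval: `(1/W) ∑_t |ĝ(t)|² = ∑_x g(x)²` when `W ≥ N`. -/
theorem parseval (g : ℤ → ℝ) (N W : ℕ) (hW : N ≤ W) (hW0 : 0 < W) :
    (∑ t ∈ range W, ‖ghat g N W t‖ ^ 2) / W = ∑ x ∈ Icc (1 : ℤ) N, g x ^ 2 := by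
  have hW' : (W : ℝ) ≠ 0 := by positivity
  have key := parseval_gen (Icc (1 : ℤ) N) (fun x => (g x : ℂ)) W hW0 (by
    intro x hx x' hx'
    rw [Finset.mem_Icc] at hx hx'
    rw [abs_lt]
    constructor <;> omega)
  unfold ghat
  rw [key]
  field_simp
  simp

/-- The autocorrelation identity. -/
lemma autocorr (g : ℤ → ℝ) (N W : ℕ) (hW0 : 0 < W) (d : ℤ)
    (hd : ∀ x ∈ Icc (1 : ℤ) N, ∀ x' ∈ Icc (1 : ℤ) N, |x - x' + d| < W)
    (hg : ∀ x, x ∉ Icc (1 : ℤ) N → g x = 0) :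
    (∑ t ∈ range W, ((‖ghat g N W t‖ ^ 2 : ℝ) : ℂ) * e ((t : ℝ) * d / W)) / (W : ℂ)
      = ((∑ x ∈ Icc (1 : ℤ) N, g x * g (x + d) : ℝ) : ℂ) := by
  have hW' : (W : ℂ) ≠ 0 := by exact_mod_cast hW0.ne'
  unfold ghat
  rw [sum_norm_sq_mul_e (Icc (1 : ℤ) N) (fun x => (g x : ℂ)) W hW0 d]
  rw [mul_div_cancel_left₀ _ hW']
  push_cast
  refine Finset.sum_congr rfl fun x hx => ?_
  by_cases hxd : x + d ∈ Icc (1 : ℤ) N
  · rw [Finset.sum_eq_single (x + d)]
    · simp [Complex.conj_ofReal]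
    · intro x' hx' hne
      have : ¬ ((W : ℤ) ∣ (x - x' + d)) := by
        intro hdv
        have := Int.eq_zero_of_abs_lt_dvd hdv (hd x hx x' hx')
        apply hne
        omega
      rw [if_neg this, mul_zero]
    · intro h; exact absurd hxd h
  · rw [hg _ hxd]
    simp only [Complex.ofReal_zero, mul_zero]
    refine Finset.sum_eq_zero fun x' hx' => ?_
    have : ¬ ((W : ℤ) ∣ (x - x' + d)) := by
      intro hdv
      have := Int.eq_zero_of_abs_lt_dvd hdv (hd x hx x' hx')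
      apply hxd
      have h2 : x + d = x' := by omega
      rw [h2]; exact hx'
    rw [if_neg this, mul_zero]

/-- Counting an interval through `apCount`. -/
lemma apCount_eq (A : Finset ℤ) (x0 : ℤ) (m : ℕ) :
    apCount A x0 1 m = (A.filter (fun a => x0 ≤ a ∧ a < x0 + m)).card := by
  unfold apCount
  apply Finset.card_bij (fun (z : ℕ) _ => x0 + ((1 : ℕ) : ℤ) * (z : ℤ))
  · intro z hz
    rw [Finset.mem_filter, Finset.mem_range] at hz
    rw [Finset.mem_filter]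
    refine ⟨hz.2, ?_, ?_⟩ <;> push_cast <;> omega
  · intro z _ z' _ h
    push_cast at h
    omega
  · intro a ha
    rw [Finset.mem_filter] at ha
    obtain ⟨haA, h1, h2⟩ := ha
    refine ⟨(a - x0).toNat, ?_, ?_⟩
    · rw [Finset.mem_filter, Finset.mem_range]
      constructor
      · omega
      · have : x0 + ((1 : ℕ) : ℤ) * (((a - x0).toNat : ℕ) : ℤ) = a := by
          push_cast; omega
        rw [this]; exact haA
    · push_cast; omega


lemma corr_bound {N L0 : ℕ} {A : Finset ℤ} {δ : ℝ}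
    (hA : A ⊆ Icc (1 : ℤ) N) (hδ : δ = (A.card : ℝ) / N) (hδ0 : 0 < δ)
    (hL0 : (L0 : ℝ) ≤ δ * N / 36)
    (hreg : ∀ (m : ℕ) (x0 : ℤ), L0 ≤ m → InBox N x0 1 m →
      (apCount A x0 1 m : ℝ) ≤ (1 + 1 / 36) * δ * m)
    (d : ℕ) (hd0 : 0 < d) (hd : 2 * d ≤ N) (hfree : ∀ x ∈ A, x + (d : ℤ) ∉ A) :
    ∑ x ∈ Icc (1 : ℤ) N, gfun A N δ x * gfun A N δ (x + d) ≤ -(δ ^ 2 * N / 4) := by
  have hN0 : 0 < N := by omega
  have hNR : (0 : ℝ) < N := by exact_mod_cast hN0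
  have hcardA : (A.card : ℝ) = δ * N := by rw [hδ]; field_simp
  -- interval counts
  have hcount : ∀ (x0 : ℤ) (m : ℕ), m ≤ N → InBox N x0 1 m →
      (apCount A x0 1 m : ℝ) ≤ δ * m + δ * N / 36 := by
    intro x0 m hm hbox
    have hmN : (m : ℝ) ≤ N := by exact_mod_cast hm
    by_cases hLm : L0 ≤ m
    · have := hreg m x0 hLm hbox
      nlinarith
    · have h1 : apCount A x0 1 m ≤ m := by
        unfold apCount
        calc _ ≤ (range m).card := Finset.card_filter_le _ _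
          _ = m := Finset.card_range m
      have h2 : (apCount A x0 1 m : ℝ) ≤ m := by exact_mod_cast h1
      have h3 : (m : ℝ) ≤ L0 := by
        have : m ≤ L0 := by omega
        exact_mod_cast this
      have h4 : 0 ≤ δ * (m : ℝ) := by positivity
      linarith
  have hdN : d ≤ N := by omega
  have hdR : (2 : ℝ) * d ≤ N := by exact_mod_cast hd
  -- the three counts
  set P1 : ℝ := ((A.filter (fun a : ℤ => a + (d : ℤ) ≤ N)).card : ℝ) with hP1
  set P2 : ℝ := ((A.filter (fun a : ℤ => (d : ℤ) + 1 ≤ a)).card : ℝ) with hP2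
  have hP1b : δ * N - δ * d - δ * N / 36 ≤ P1 := by
    have hsplit := Finset.card_filter_add_card_filter_not (s := A) (fun a : ℤ => a + d ≤ N)
    have hcast : (A.card : ℝ) = P1 + ((A.filter (fun a : ℤ => ¬ a + d ≤ N)).card : ℝ) := by
      rw [hP1]; exact_mod_cast hsplit.symm
    have heq : A.filter (fun a : ℤ => ¬ a + d ≤ N) =
        A.filter (fun a => ((N : ℤ) - d + 1) ≤ a ∧ a < ((N : ℤ) - d + 1) + d) := by
      ext a
      simp only [Finset.mem_filter]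
      constructor
      · rintro ⟨ha, h⟩
        have := Finset.mem_Icc.mp (hA ha)
        exact ⟨ha, by omega, by omega⟩
      · rintro ⟨ha, h1, h2⟩
        exact ⟨ha, by omega⟩
    have hb := hcount ((N : ℤ) - d + 1) d hdN (by
      intro z hz
      rw [Finset.mem_Icc]
      push_cast
      constructor <;> omega)
    rw [apCount_eq, ← heq] at hb
    linarith
  have hP2b : δ * N - δ * d - δ * N / 36 ≤ P2 := by
    have hsplit := Finset.card_filter_add_card_filter_not (s := A) (fun a : ℤ => (d : ℤ) + 1 ≤ a)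
    have hcast : (A.card : ℝ) = P2 + ((A.filter (fun a : ℤ => ¬ (d : ℤ) + 1 ≤ a)).card : ℝ) := by
      rw [hP2]; exact_mod_cast hsplit.symm
    have heq : A.filter (fun a : ℤ => ¬ (d : ℤ) + 1 ≤ a) =
        A.filter (fun a => (1 : ℤ) ≤ a ∧ a < 1 + d) := by
      ext a
      simp only [Finset.mem_filter]
      constructor
      · rintro ⟨ha, h⟩
        have := Finset.mem_Icc.mp (hA ha)
        exact ⟨ha, by omega, by omega⟩
      · rintro ⟨ha, h1, h2⟩
        exact ⟨ha, by omega⟩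
    have hb := hcount 1 d hdN (by
      intro z hz
      rw [Finset.mem_Icc]
      push_cast
      constructor <;> omega)
    rw [apCount_eq, ← heq] at hb
    linarith
  -- the pointwise expansion
  have hpt : ∀ x ∈ Icc (1 : ℤ) N, gfun A N δ x * gfun A N δ (x + d) =
      - δ * (if (x ∈ A ∧ x + d ≤ N) then 1 else 0) - δ * (if x + d ∈ A then 1 else 0)
        + δ ^ 2 * (if x + d ≤ N then 1 else 0) := by
    intro x hx
    have hx' := Finset.mem_Icc.mp hx
    unfold gfun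
    rw [if_pos hx]
    have hIcc : (x + (d : ℤ) ∈ Icc (1 : ℤ) N) ↔ x + d ≤ N := by
      rw [Finset.mem_Icc]; constructor
      · exact fun h => h.2
      · exact fun h => ⟨by omega, h⟩
    by_cases h1 : x ∈ A
    · have h2 := hfree x h1
      by_cases h3 : x + (d : ℤ) ≤ N
      · simp [h1, h2, h3, hIcc]
        ring
      · simp [h1, h2, h3, hIcc]
    · by_cases h2 : x + (d : ℤ) ∈ A
      · have h3 : x + (d : ℤ) ≤ N := (Finset.mem_Icc.mp (hA h2)).2
        simp [h1, h2, h3, hIcc]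
        ring
      · by_cases h3 : x + (d : ℤ) ≤ N
        · simp [h1, h2, h3, hIcc]
          ring
        · simp [h1, h2, h3, hIcc]
  rw [Finset.sum_congr rfl hpt, Finset.sum_add_distrib, Finset.sum_sub_distrib,
    ← Finset.mul_sum, ← Finset.mul_sum, ← Finset.mul_sum]
  -- evaluate the three sums
  have hS1 : ∑ x ∈ Icc (1 : ℤ) N, (if (x ∈ A ∧ x + d ≤ N) then (1 : ℝ) else 0) = P1 := by
    have hset : (Icc (1 : ℤ) N).filter (fun x => x ∈ A ∧ x + (d : ℤ) ≤ N) =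
        A.filter (fun a : ℤ => a + (d : ℤ) ≤ N) := by
      ext a
      simp only [Finset.mem_filter]
      constructor
      · rintro ⟨_, h1, h2⟩; exact ⟨h1, h2⟩
      · rintro ⟨h1, h2⟩; exact ⟨hA h1, h1, h2⟩
    rw [Finset.sum_boole, hP1, hset]
  have hS2 : ∑ x ∈ Icc (1 : ℤ) N, (if x + (d : ℤ) ∈ A then (1 : ℝ) else 0) = P2 := by
    rw [Finset.sum_boole, hP2]
    congr 1
    apply Finset.card_bij (fun (x : ℤ) _ => x + (d : ℤ))
    · intro x hx
      rw [Finset.mem_filter] at hx ⊢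
      have := Finset.mem_Icc.mp hx.1
      exact ⟨hx.2, by omega⟩
    · intro x _ x' _ h
      omega
    · intro a ha
      rw [Finset.mem_filter] at ha
      have := Finset.mem_Icc.mp (hA ha.1)
      refine ⟨a - d, ?_, by omega⟩
      rw [Finset.mem_filter, Finset.mem_Icc]
      refine ⟨⟨by omega, by omega⟩, ?_⟩
      rw [sub_add_cancel]; exact ha.1
  have hS3 : ∑ x ∈ Icc (1 : ℤ) N, (if x + (d : ℤ) ≤ N then (1 : ℝ) else 0) = (N : ℝ) - d := by
    rw [Finset.sum_boole]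
    have : (Icc (1 : ℤ) N).filter (fun x => x + (d : ℤ) ≤ N) = Icc (1 : ℤ) ((N : ℤ) - d) := by
      ext x
      simp only [Finset.mem_filter, Finset.mem_Icc]
      constructor
      · rintro ⟨⟨h1, h2⟩, h3⟩; exact ⟨h1, by omega⟩
      · rintro ⟨h1, h2⟩; exact ⟨⟨h1, by omega⟩, by omega⟩
    rw [this, Int.card_Icc]
    have h5 : ((N : ℤ) - d + 1 - 1).toNat = N - d := by omega
    rw [h5, Nat.cast_sub hdN]
  rw [hS1, hS2, hS3]
  have hδsq : 0 ≤ δ ^ 2 := by positivity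
  nlinarith [mul_le_mul_of_nonneg_left hP1b hδ0.le, mul_le_mul_of_nonneg_left hP2b hδ0.le,
    mul_le_mul_of_nonneg_left hdR hδsq, mul_nonneg hδsq hNR.le]

/-- MAIN: an `f`-free set with regular intervals has Fourier mass where `S` is large. -/
theorem main_ineq {f : Polynomial ℤ} {M N W L0 : ℕ} {A : Finset ℤ} {δ : ℝ}
    (hY : ∀ y ∈ Ioc (M / 2) M, 0 < f.eval (y : ℤ) ∧ 2 * f.eval (y : ℤ) ≤ N ∧ 1 ≤ y)
    (hA : A ⊆ Icc (1 : ℤ) N) (hfree : Free f A) (hδ : δ = (A.card : ℝ) / N) (hδ0 : 0 < δ)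
    (hW : 3 * N ≤ W) (hL0 : (L0 : ℝ) ≤ δ * N / 36) (hL0N : 2 * L0 ≤ N)
    (hreg : ∀ (m : ℕ) (x0 : ℤ), L0 ≤ m → InBox N x0 1 m →
      (apCount A x0 1 m : ℝ) ≤ (1 + 1 / 36) * δ * m) :
    δ ^ 2 * N * ((M : ℝ) - (M / 2 : ℕ)) / 4 ≤
      (∑ t ∈ range W, ‖ghat (gfun A N δ) N W t‖ ^ 2 * ‖Sexp f M ((t : ℝ) / W)‖) / W := by
  have hN0 : 0 < N := by
    rcases Nat.eq_zero_or_pos N with h | h
    · subst h; simp at hδ; rw [hδ] at hδ0; exact absurd hδ0 (lt_irrefl _)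
    · exact h
  have hW0 : 0 < W := by omega
  have hWR : (0 : ℝ) < W := by exact_mod_cast hW0
  have hg : ∀ x, x ∉ Icc (1 : ℤ) N → gfun A N δ x = 0 := by
    intro x hx
    have h1 : x ∉ A := fun h => hx (hA h)
    simp [gfun, h1, hx]
  -- per-y bound and Fourier identity
  have hper : ∀ y ∈ Ioc (M / 2) M,
      ∑ x ∈ Icc (1 : ℤ) N, gfun A N δ x * gfun A N δ (x + f.eval (y : ℤ)) ≤ -(δ ^ 2 * N / 4) := by
    intro y hy
    obtain ⟨h1, h2, h3⟩ := hY y hy
    obtain ⟨d, hd⟩ := Int.eq_ofNat_of_zero_le h1.le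
    rw [hd] at h1 h2 ⊢
    have hfr : ∀ x ∈ A, x + (d : ℤ) ∉ A := by
      intro x hx hx2
      apply hfree (x + d) hx2 x hx y h3 (by rw [hd]; exact h1)
      rw [hd]; ring
    exact corr_bound hA hδ hδ0 hL0 hreg d (by exact_mod_cast h1) (by exact_mod_cast h2) hfr
  have hfour : ∀ y ∈ Ioc (M / 2) M,
      (∑ t ∈ range W, ((‖ghat (gfun A N δ) N W t‖ ^ 2 : ℝ) : ℂ) *
          e ((t : ℝ) * ((f.eval (y : ℤ) : ℤ) : ℝ) / W)) / (W : ℂ)
      = ((∑ x ∈ Icc (1 : ℤ) N, gfun A N δ x * gfun A N δ (x + f.eval (y : ℤ)) : ℝ) : ℂ) := by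
    intro y hy
    obtain ⟨h1, h2, h3⟩ := hY y hy
    apply autocorr _ _ _ hW0 _ _ hg
    intro x hx x' hx'
    rw [Finset.mem_Icc] at hx hx'
    rw [abs_lt]
    constructor <;> omega
  set T : ℝ := ∑ y ∈ Ioc (M / 2) M, ∑ x ∈ Icc (1 : ℤ) N,
    gfun A N δ x * gfun A N δ (x + f.eval (y : ℤ)) with hT
  have hTC : (T : ℂ) = (∑ t ∈ range W, ((‖ghat (gfun A N δ) N W t‖ ^ 2 : ℝ) : ℂ) *
      Sexp f M ((t : ℝ) / W)) / (W : ℂ) := by
    rw [hT, Complex.ofReal_sum, ← Finset.sum_congr rfl hfour, ← Finset.sum_div]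
    congr 1
    rw [Finset.sum_comm]
    refine Finset.sum_congr rfl fun t _ => ?_
    unfold Sexp
    rw [Finset.mul_sum]
    refine Finset.sum_congr rfl fun y _ => ?_
    congr 2
    ring
  have hTn : |T| ≤ (∑ t ∈ range W, ‖ghat (gfun A N δ) N W t‖ ^ 2 * ‖Sexp f M ((t : ℝ) / W)‖) / W := by
    have h1 : ‖(T : ℂ)‖ = |T| := Complex.norm_real T
    rw [← h1, hTC, norm_div, Complex.norm_natCast]
    apply div_le_div_of_nonneg_right _ hWR.le
    refine (norm_sum_le _ _).trans (le_of_eq ?_)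
    refine Finset.sum_congr rfl fun t _ => ?_
    rw [norm_mul, Complex.norm_real, Real.norm_of_nonneg (by positivity)]
  have hTb : T ≤ ((Ioc (M / 2) M).card : ℝ) * (-(δ ^ 2 * N / 4)) := by
    rw [hT, ← nsmul_eq_mul]
    exact Finset.sum_le_card_nsmul _ _ _ hper
  have hcard : ((Ioc (M / 2) M).card : ℝ) = (M : ℝ) - (M / 2 : ℕ) := by
    rw [Nat.card_Ioc, Nat.cast_sub (Nat.div_le_self M 2)]
  rw [hcard] at hTb
  have h5 : δ ^ 2 * N * ((M : ℝ) - (M / 2 : ℕ)) / 4 ≤ |T| := by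
    have := neg_abs_le T
    nlinarith
  exact h5.trans hTn


/-- The real part of `e s` is at least `1/2` when `|s| ≤ 1/8`. -/
lemma re_e_ge {s : ℝ} (hs : |s| ≤ 1 / 8) : (1 / 2 : ℝ) ≤ (e s).re := by
  unfold e
  rw [show (2 * (Real.pi : ℂ) * Complex.I * (s : ℂ)) = ((2 * Real.pi * s : ℝ) : ℂ) * Complex.I by
    push_cast; ring, Complex.exp_ofReal_mul_I_re]
  have hpi := Real.pi_pos
  have h1 : |2 * Real.pi * s| ≤ Real.pi / 3 := by
    rw [abs_mul, abs_of_pos (by positivity : 0 < 2 * Real.pi)]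
    nlinarith
  rw [← Real.cos_abs, ← Real.cos_pi_div_three]
  apply Real.cos_le_cos_of_nonneg_of_le_pi (abs_nonneg _)
  · linarith [Real.pi_pos]
  · exact h1

/-- The Dirichlet kernel is large near `0` (mod `1`). -/
lemma dirichlet_lower (L : ℕ) (hL : 1 ≤ L) (β : ℝ) (hβ : nint β ≤ 1 / (8 * L)) :
    (L : ℝ) / 2 ≤ ‖∑ j ∈ range L, e (-((j : ℝ) * β))‖ := by
  have hLR : (0 : ℝ) < L := by exact_mod_cast hL
  refine le_trans ?_ (Complex.re_le_norm _)
  rw [Complex.re_sum]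
  have hterm : ∀ j ∈ range L, (1 / 2 : ℝ) ≤ (e (-((j : ℝ) * β))).re := by
    intro j hj
    have hjL : (j : ℝ) ≤ L := by
      have := Finset.mem_range.mp hj
      exact_mod_cast this.le
    have h1 : e (-((j : ℝ) * β)) = e (-((j : ℝ) * (β - round β))) := by
      have h2 : -((j : ℝ) * β) = -((j : ℝ) * (β - round β)) + ((-((j : ℤ) * round β) : ℤ) : ℝ) := by
        push_cast; ring
      rw [h2, e_add, e_int, mul_one]
    rw [h1]
    apply re_e_ge
    rw [abs_neg, abs_mul, Nat.abs_cast]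
    have h3 : |β - round β| = nint β := rfl
    rw [h3]
    have h4 : 0 ≤ nint β := abs_nonneg _
    calc (j : ℝ) * nint β ≤ L * (1 / (8 * L)) := by gcongr
      _ = 1 / 8 := by field_simp
  calc (L : ℝ) / 2 = ((range L).card : ℝ) * (1 / 2) := by simp; ring
    _ = ∑ _j ∈ range L, (1 / 2 : ℝ) := by simp
    _ ≤ _ := Finset.sum_le_sum hterm

/-- Summing a geometric window: reindexing `Ioc (u-L) u` by `j ↦ u - j`. -/
lemma sum_window (L : ℕ) (u : ℤ) (β : ℝ) :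
    ∑ x ∈ Ioc (u - (L : ℤ)) u, e (β * (x : ℝ)) = e (β * (u : ℝ)) * ∑ j ∈ range L, e (-((j : ℝ) * β)) := by
  rw [Finset.mul_sum]
  symm
  apply Finset.sum_bij (fun (j : ℕ) _ => u - (j : ℤ))
  · intro j hj
    rw [Finset.mem_range] at hj
    rw [Finset.mem_Ioc]
    constructor <;> omega
  · intro j _ j' _ h
    omega
  · intro x hx
    rw [Finset.mem_Ioc] at hx
    refine ⟨(u - x).toNat, ?_, by omega⟩
    rw [Finset.mem_range]
    omega
  · intro j _
    rw [← e_add]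
    congr 1
    push_cast
    ring

/-- Factorisation: the window sums transform to `D(β) ĝ(t)`. -/
lemma window_factor (g : ℤ → ℝ) (N L W : ℕ) (hg : ∀ x, x ∉ Icc (1 : ℤ) N → g x = 0)
    (lam β : ℝ) (t : ℕ) (ht : (t : ℝ) / W = lam + β) (hW : (W : ℝ) ≠ 0) :
    ∑ x ∈ Ioc (1 - (L : ℤ)) N, (∑ u ∈ Ico x (x + L), (g u : ℂ) * e (lam * u)) * e (β * (x : ℝ))
      = (∑ j ∈ range L, e (-((j : ℝ) * β))) * ghat g N W t := by
  -- rewrite the inner sum over the box
  have h1 : ∀ x : ℤ, ∑ u ∈ Ico x (x + L), (g u : ℂ) * e (lam * u)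
      = ∑ u ∈ Icc (1 : ℤ) N, (if u ∈ Ico x (x + (L : ℤ)) then (g u : ℂ) * e (lam * u) else 0) := by
    intro x
    rw [← Finset.sum_filter]
    symm
    apply Finset.sum_subset
    · intro u hu
      exact (Finset.mem_filter.mp hu).2
    · intro u hu hu2
      have : u ∉ Icc (1 : ℤ) N := fun h => hu2 (Finset.mem_filter.mpr ⟨h, hu⟩)
      rw [hg u this]
      simp
  have hLHS : ∑ x ∈ Ioc (1 - (L : ℤ)) N, (∑ u ∈ Ico x (x + L), (g u : ℂ) * e (lam * u)) * e (β * (x : ℝ))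
      = ∑ x ∈ Ioc (1 - (L : ℤ)) N, ∑ u ∈ Icc (1 : ℤ) N,
        (if u ∈ Ico x (x + (L : ℤ)) then (g u : ℂ) * e (lam * u) else 0) * e (β * (x : ℝ)) := by
    refine Finset.sum_congr rfl fun x _ => ?_
    rw [h1, Finset.sum_mul]
  rw [hLHS, Finset.sum_comm]
  unfold ghat
  rw [Finset.mul_sum]
  refine Finset.sum_congr rfl fun u hu => ?_
  have hu' := Finset.mem_Icc.mp hu
  have h2 : ∑ x ∈ Ioc (1 - (L : ℤ)) N, (if u ∈ Ico x (x + (L : ℤ)) then (g u : ℂ) * e (lam * u) else 0) * e (β * (x : ℝ))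
      = (g u : ℂ) * e (lam * u) * ∑ x ∈ Ioc (u - (L : ℤ)) u, e (β * (x : ℝ)) := by
    rw [Finset.mul_sum, ← Finset.sum_filter_add_sum_filter_not (Ioc (1 - (L : ℤ)) (N : ℤ))
      (fun x => u ∈ Ico x (x + (L : ℤ)))]
    have hzero : ∑ x ∈ (Ioc (1 - (L : ℤ)) (N : ℤ)).filter (fun x => ¬ u ∈ Ico x (x + (L : ℤ))),
        (if u ∈ Ico x (x + (L : ℤ)) then (g u : ℂ) * e (lam * u) else 0) * e (β * (x : ℝ)) = 0 := by
      apply Finset.sum_eq_zero
      intro x hx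
      rw [if_neg (Finset.mem_filter.mp hx).2, zero_mul]
    rw [hzero, add_zero]
    have hset : (Ioc (1 - (L : ℤ)) (N : ℤ)).filter (fun x => u ∈ Ico x (x + (L : ℤ))) = Ioc (u - (L : ℤ)) u := by
      ext x
      simp only [Finset.mem_filter, Finset.mem_Ioc, Finset.mem_Ico]
      constructor
      · rintro ⟨_, h3, h4⟩; constructor <;> omega
      · rintro ⟨h3, h4⟩; exact ⟨⟨by omega, by omega⟩, by omega, by omega⟩
    rw [hset]
    refine Finset.sum_congr rfl fun x hx => ?_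
    have : u ∈ Ico x (x + (L : ℤ)) := by
      rw [Finset.mem_Ioc] at hx
      rw [Finset.mem_Ico]
      constructor <;> omega
    rw [if_pos this]
  rw [h2, sum_window]
  have h3 : e ((t : ℝ) * (u : ℝ) / W) = e (lam * u) * e (β * u) := by
    rw [← e_add]
    congr 1
    have : (t : ℝ) * (u : ℝ) / W = ((t : ℝ) / W) * u := by ring
    rw [this, ht]; ring
  rw [h3]
  ring

/-- Gallagher's lemma (discrete): the `L²` mass of `ĝ` on an arc of radius `1/(8L)` around `lam` is controlled by window sums. -/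
theorem gallagher (g : ℤ → ℝ) (N L W : ℕ) (hL : 1 ≤ L) (hW : N + L ≤ W)
    (hg : ∀ x, x ∉ Icc (1 : ℤ) N → g x = 0) (lam : ℝ) :
    (∑ t ∈ (range W).filter (fun t : ℕ => nint ((t : ℝ) / W - lam) ≤ 1 / (8 * L)), ‖ghat g N W t‖ ^ 2) / W ≤
      4 / (L : ℝ) ^ 2 * ∑ x ∈ Ioc (1 - (L : ℤ)) N, ‖∑ u ∈ Ico x (x + L), (g u : ℂ) * e (lam * u)‖ ^ 2 := by
  have hW0 : 0 < W := by omega
  have hWR : (0 : ℝ) < W := by exact_mod_cast hW0
  have hLR : (0 : ℝ) < L := by exact_mod_cast hL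
  set H : ℤ → ℂ := fun x => ∑ u ∈ Ico x (x + L), (g u : ℂ) * e (lam * u) with hH
  set h : ℤ → ℂ := fun x => H x * e (-(lam * x)) with hh
  -- pointwise bound
  have hpt : ∀ t ∈ (range W).filter (fun t : ℕ => nint ((t : ℝ) / W - lam) ≤ 1 / (8 * L)),
      ‖ghat g N W t‖ ^ 2 ≤ 4 / (L : ℝ) ^ 2 *
        ‖∑ x ∈ Ioc (1 - (L : ℤ)) N, h x * e ((t : ℝ) * x / W)‖ ^ 2 := by
    intro t ht
    have hnint := (Finset.mem_filter.mp ht).2
    set β : ℝ := (t : ℝ) / W - lam with hβ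
    have hfac := window_factor g N L W hg lam β t (by rw [hβ]; ring) hWR.ne'
    have hsame : ∑ x ∈ Ioc (1 - (L : ℤ)) N, h x * e ((t : ℝ) * x / W)
        = ∑ x ∈ Ioc (1 - (L : ℤ)) N, (∑ u ∈ Ico x (x + L), (g u : ℂ) * e (lam * u)) * e (β * (x : ℝ)) := by
      refine Finset.sum_congr rfl fun x _ => ?_
      have : e (β * (x : ℝ)) = e (-(lam * x)) * e ((t : ℝ) * x / W) := by
        rw [← e_add]; congr 1; rw [hβ]; ring
      rw [this, hh]
      ring
    rw [hsame, hfac, norm_mul]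
    have hD := dirichlet_lower L hL β hnint
    have hn : 0 ≤ ‖ghat g N W t‖ := norm_nonneg _
    have hD2 : ((L : ℝ) / 2) ^ 2 ≤ ‖∑ j ∈ range L, e (-((j : ℝ) * β))‖ ^ 2 := by
      apply pow_le_pow_left₀ (by positivity) hD
    rw [mul_pow, ← mul_assoc]
    have h4 : 1 ≤ 4 / (L : ℝ) ^ 2 * ‖∑ j ∈ range L, e (-((j : ℝ) * β))‖ ^ 2 := by
      have : 4 / (L : ℝ) ^ 2 * ((L : ℝ) / 2) ^ 2 = 1 := by field_simp; ring
      calc (1 : ℝ) = 4 / (L : ℝ) ^ 2 * ((L : ℝ) / 2) ^ 2 := this.symm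
        _ ≤ _ := by gcongr
    nlinarith [sq_nonneg ‖ghat g N W t‖]
  have hpars := parseval_gen (Ioc (1 - (L : ℤ)) N) h W hW0 (by
    intro x hx x' hx'
    rw [Finset.mem_Ioc] at hx hx'
    rw [abs_lt]
    constructor <;> omega)
  have hnorm : ∀ x, ‖h x‖ = ‖H x‖ := by
    intro x
    rw [hh]
    simp only [norm_mul, norm_e, mul_one]
  calc (∑ t ∈ (range W).filter (fun t : ℕ => nint ((t : ℝ) / W - lam) ≤ 1 / (8 * L)), ‖ghat g N W t‖ ^ 2) / W
      ≤ (∑ t ∈ (range W).filter (fun t : ℕ => nint ((t : ℝ) / W - lam) ≤ 1 / (8 * L)),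
          4 / (L : ℝ) ^ 2 * ‖∑ x ∈ Ioc (1 - (L : ℤ)) N, h x * e ((t : ℝ) * x / W)‖ ^ 2) / W := by
        gcongr with t ht
        exact hpt t ht
    _ ≤ (∑ t ∈ range W,
          4 / (L : ℝ) ^ 2 * ‖∑ x ∈ Ioc (1 - (L : ℤ)) N, h x * e ((t : ℝ) * x / W)‖ ^ 2) / W := by
        apply div_le_div_of_nonneg_right _ hWR.le
        apply Finset.sum_le_sum_of_subset_of_nonneg (Finset.filter_subset _ _)
        intros
        positivity
    _ = 4 / (L : ℝ) ^ 2 * ∑ x ∈ Ioc (1 - (L : ℤ)) N, ‖H x‖ ^ 2 := by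
        rw [← Finset.mul_sum, hpars]
        simp_rw [hnorm]
        field_simp

end Vale.Agent.Lib.P042
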