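import Vale.Agent.Lib.P042.Fourier

/-! # P042 TASK S: level sets give (STAR), blueprint Sections 3,4 -/

namespace Vale.Agent.Lib.P042

open Finset

private lemma star_norm_e (t : ℝ) : ‖e t‖ = 1 := by
  unfold e
  have : (2 * Real.pi * Complex.I * t : ℂ) = ((2 * Real.pi * t : ℝ) : ℂ) * Complex.I := by
    push_cast; ring
  rw [this, Complex.norm_exp_ofReal_mul_I]

private lemma star_norm_Sexp (f : Polynomial ℤ) (M : ℕ) (α : ℝ) : ‖Sexp f M α‖ ≤ (M : ℝ) := by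
  unfold Sexp
  calc ‖∑ y ∈ Ioc (M / 2) M, e (α * ((f.eval (y : ℤ) : ℤ) : ℝ))‖
      ≤ ∑ y ∈ Ioc (M / 2) M, ‖e (α * ((f.eval (y : ℤ) : ℤ) : ℝ))‖ := norm_sum_le _ _
    _ = ((Ioc (M / 2) M).card : ℝ) := by simp [star_norm_e]
    _ ≤ (M : ℝ) := by
        have : (Ioc (M / 2) M).card ≤ M := by simp
        exact_mod_cast this

private lemma star_level_pointwise (M s : ℝ) (hM : 0 ≤ M) (hs : s ≤ M) (J : ℕ) :
    s ≤ (1 / 2 : ℝ) ^ (J + 1) * M +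
      ∑ j ∈ range (J + 1), (1 / 2 : ℝ) ^ j * M * (if (1 / 2 : ℝ) ^ (j + 1) * M ≤ s then 1 else 0) := by
  induction J with
  | zero =>
    simp only [zero_add, pow_one, sum_range_one, pow_zero, one_mul]
    split_ifs with h
    · linarith
    · push Not at h; linarith
  | succ J ih =>
    rw [sum_range_succ]
    split_ifs with h
    · have h1 : (0 : ℝ) ≤ (1 / 2 : ℝ) ^ (J + 1 + 1) * M := by positivity
      have h2 : (1 / 2 : ℝ) ^ (J + 1) * M ≤ (1 / 2 : ℝ) ^ (J + 1) * M * 1 + 0 := by simp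
      linarith
    · push Not at h
      have h0 : 0 ≤ ∑ j ∈ range (J + 1), (1 / 2 : ℝ) ^ j * M *
          (if (1 / 2 : ℝ) ^ (j + 1) * M ≤ s then (1 : ℝ) else 0) := by
        apply sum_nonneg
        intro j _
        split_ifs <;> positivity
      have h1 : (0 : ℝ) ≤ (1 / 2 : ℝ) ^ (J + 1) * M * 0 := by simp
      linarith

private lemma star_hY {k : ℕ} (hk : 2 ≤ k) {f : Polynomial ℤ} (hf : ClassF k f) {H : ℝ}
    (hH : ∀ i, |(f.coeff i : ℝ)| ≤ H) {M N : ℕ}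
    (hM1 : 8 * f.leadingCoeff * (M : ℤ) ^ k ≤ N) (hMH : 2 * (k : ℝ) * H ≤ M) :
    ∀ y ∈ Ioc (M / 2) M, 0 < f.eval (y : ℤ) ∧ 2 * f.eval (y : ℤ) ≤ N ∧ 1 ≤ y := by
  intro y hy
  rw [mem_Ioc] at hy
  obtain ⟨hy1, hy2⟩ := hy
  have hy1' : 1 ≤ y := by omega
  have hMy : M < 2 * y := by omega
  have hMyR : (M : ℝ) < 2 * (y : ℝ) := by exact_mod_cast hMy
  have hyR : (1 : ℝ) ≤ (y : ℝ) := by exact_mod_cast hy1'
  have hyM : (y : ℝ) ≤ M := by exact_mod_cast hy2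
  have hH0 : 0 ≤ H := (abs_nonneg _).trans (hH 0)
  have ha : (1 : ℝ) ≤ (f.leadingCoeff : ℝ) := by
    have : 1 ≤ f.leadingCoeff := hf.lc
    exact_mod_cast this
  have hlead : f.coeff k = f.leadingCoeff := by
    rw [← hf.deg]; rfl
  have heval : ((f.eval (y : ℤ) : ℤ) : ℝ) =
      ∑ i ∈ range k, (f.coeff i : ℝ) * (y : ℝ) ^ i + (f.leadingCoeff : ℝ) * (y : ℝ) ^ k := by
    rw [Polynomial.eval_eq_sum_range, hf.deg, sum_range_succ, hlead]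
    push_cast
    rfl
  set Y : ℝ := (y : ℝ) ^ (k - 1) with hYdef
  have hYpos : 0 < Y := by positivity
  have hpow : (y : ℝ) ^ k = y * Y := by
    rw [hYdef, ← pow_succ']
    congr 1
    omega
  have hlow : |∑ i ∈ range k, (f.coeff i : ℝ) * (y : ℝ) ^ i| ≤ k * (H * Y) := by
    calc |∑ i ∈ range k, (f.coeff i : ℝ) * (y : ℝ) ^ i|
        ≤ ∑ i ∈ range k, |(f.coeff i : ℝ) * (y : ℝ) ^ i| := abs_sum_le_sum_abs _ _
      _ ≤ ∑ _i ∈ range k, H * Y := by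
          apply sum_le_sum
          intro i hi
          rw [abs_mul, abs_of_nonneg (by positivity : (0 : ℝ) ≤ (y : ℝ) ^ i)]
          apply mul_le_mul (hH i) _ (by positivity) hH0
          rw [hYdef]
          apply pow_le_pow_right₀ hyR
          have := mem_range.1 hi
          omega
      _ = k * (H * Y) := by simp
  have hkH : (k : ℝ) * H < y := by linarith
  have hkY : (k : ℝ) * (H * Y) < (y : ℝ) ^ k := by
    rw [hpow, ← mul_assoc]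
    exact mul_lt_mul_of_pos_right hkH hYpos
  have hlow' := abs_le.1 hlow
  have hyk : 0 ≤ (y : ℝ) ^ k := by positivity
  have hpos : (0 : ℝ) < ((f.eval (y : ℤ) : ℤ) : ℝ) := by
    rw [heval]
    nlinarith
  have hMk : (y : ℝ) ^ k ≤ (M : ℝ) ^ k := pow_le_pow_left₀ (by positivity) hyM k
  have hM1R : 8 * (f.leadingCoeff : ℝ) * (M : ℝ) ^ k ≤ N := by exact_mod_cast hM1
  have hup : 2 * ((f.eval (y : ℤ) : ℤ) : ℝ) ≤ N := by
    rw [heval]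
    have h1 : (f.leadingCoeff : ℝ) * (y : ℝ) ^ k ≤ (f.leadingCoeff : ℝ) * (M : ℝ) ^ k :=
      mul_le_mul_of_nonneg_left hMk (by linarith)
    have h2 : (y : ℝ) ^ k ≤ (f.leadingCoeff : ℝ) * (M : ℝ) ^ k := by
      have : (M : ℝ) ^ k ≤ (f.leadingCoeff : ℝ) * (M : ℝ) ^ k := by
        have h3 : 0 ≤ (M : ℝ) ^ k := by positivity
        nlinarith
      linarith
    linarith [hlow'.2]
  refine ⟨by exact_mod_cast hpos, by exact_mod_cast hup, hy1'⟩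

private lemma star_gsq {A : Finset ℤ} {N : ℕ} {δ : ℝ} (hA : A ⊆ Icc (1 : ℤ) N)
    (hδ : δ = (A.card : ℝ) / N) (hN : 0 < (N : ℝ)) (hδ0 : 0 < δ) :
    ∑ x ∈ Icc (1 : ℤ) N, gfun A N δ x ^ 2 ≤ δ * N := by
  have hcard : (A.card : ℝ) = δ * N := by
    rw [hδ]; field_simp
  have h1 : ∀ x ∈ Icc (1 : ℤ) N, gfun A N δ x ^ 2 =
      (1 - 2 * δ) * (if x ∈ A then 1 else 0) + δ ^ 2 := by
    intro x hx
    unfold gfun
    rw [if_pos hx]
    split_ifs <;> ring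
  rw [sum_congr rfl h1, sum_add_distrib, ← mul_sum]
  have h2 : ∑ x ∈ Icc (1 : ℤ) N, (if x ∈ A then (1 : ℝ) else 0) = A.card := by
    rw [sum_boole, filter_mem_eq_inter, inter_eq_right.2 hA]
  rw [h2, hcard]
  simp only [sum_const, Int.card_Icc, nsmul_eq_mul]
  have h3 : (((N : ℤ) + 1 - 1).toNat : ℝ) = N := by simp
  rw [h3]
  nlinarith [mul_pos hδ0 hN, mul_pos (mul_pos hδ0 hδ0) hN]

private lemma star_layer (w s : ℕ → ℝ) (M : ℝ) (hM : 0 ≤ M) (W J : ℕ) (hWR : (0 : ℝ) < (W : ℝ))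
    (hw0 : ∀ t, 0 ≤ w t) (hsM : ∀ t, s t ≤ M) :
    (∑ t ∈ range W, w t * s t) / W ≤
      (1 / 2 : ℝ) ^ (J + 1) * M * ((∑ t ∈ range W, w t) / W) +
        ∑ j ∈ range (J + 1), (1 / 2 : ℝ) ^ j * M *
          ((∑ t ∈ range W, w t * (if (1 / 2 : ℝ) ^ (j + 1) * M ≤ s t then 1 else 0)) / W) := by
  have h1 : ∑ t ∈ range W, w t * s t ≤ ∑ t ∈ range W, w t *
      ((1 / 2 : ℝ) ^ (J + 1) * M + ∑ j ∈ range (J + 1), (1 / 2 : ℝ) ^ j * M *
        (if (1 / 2 : ℝ) ^ (j + 1) * M ≤ s t then 1 else 0)) := by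
    apply sum_le_sum
    intro t _
    exact mul_le_mul_of_nonneg_left
      (star_level_pointwise M (s t) hM (hsM t) J) (hw0 t)
  have h2 : ∑ t ∈ range W, w t *
      ((1 / 2 : ℝ) ^ (J + 1) * M + ∑ j ∈ range (J + 1), (1 / 2 : ℝ) ^ j * M *
        (if (1 / 2 : ℝ) ^ (j + 1) * M ≤ s t then 1 else 0)) =
      (1 / 2 : ℝ) ^ (J + 1) * M * (∑ t ∈ range W, w t) +
      ∑ j ∈ range (J + 1), (1 / 2 : ℝ) ^ j * M *
        (∑ t ∈ range W, w t * (if (1 / 2 : ℝ) ^ (j + 1) * M ≤ s t then 1 else 0)) := by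
    simp only [mul_add, sum_add_distrib, mul_sum]
    congr 1
    · apply sum_congr rfl
      intro t _
      ring
    · rw [sum_comm]
      apply sum_congr rfl
      intro j _
      apply sum_congr rfl
      intro t _
      ring
  rw [h2] at h1
  have h3 := div_le_div_of_nonneg_right h1 hWR.le
  refine h3.trans (le_of_eq ?_)
  rw [add_div, mul_div_assoc]
  congr 1
  rw [sum_div]
  apply sum_congr rfl
  intro j _
  rw [mul_div_assoc]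

/-- Arc size: from the size of `N` versus `M`. -/
private lemma star_arc_small {k C3 M N L j J : ℕ} {a : ℝ} (ha : 1 ≤ a) (hM : (1 : ℝ) ≤ M) (hL : (1 : ℝ) ≤ L)
    (hj : j ≤ J) (hM2 : (N : ℝ) < 8 * a * ((M : ℝ) + 1) ^ k)
    (hL2R : (2 : ℝ) ^ (k + 7) * L * 2 ^ ((J + 1) * C3) ≤ N) :
    (2 : ℝ) ^ ((j + 1) * C3) / (a * (M : ℝ) ^ k) ≤ 1 / (8 * L) := by
  have hMk : (0 : ℝ) < (M : ℝ) ^ k := by positivity
  have haM : (0 : ℝ) < a * (M : ℝ) ^ k := by positivity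
  have hM2k : ((M : ℝ) + 1) ^ k ≤ 2 ^ k * (M : ℝ) ^ k := by
    rw [← mul_pow]
    apply pow_le_pow_left₀ (by positivity)
    linarith
  have h1 : (N : ℝ) ≤ 2 ^ (k + 3) * (a * (M : ℝ) ^ k) := by
    have h := mul_le_mul_of_nonneg_left hM2k (by positivity : (0 : ℝ) ≤ 8 * a)
    have e1 : (2 : ℝ) ^ (k + 3) * (a * (M : ℝ) ^ k) =
        8 * a * (2 ^ k * (M : ℝ) ^ k) := by ring
    rw [e1]
    linarith
  have h2 : (2 : ℝ) ^ (k + 7) * L * 2 ^ ((J + 1) * C3) ≤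
      2 ^ (k + 3) * (a * (M : ℝ) ^ k) := le_trans hL2R h1
  have h3 : 16 * (L : ℝ) * 2 ^ ((J + 1) * C3) ≤ a * (M : ℝ) ^ k := by
    have e2 : (2 : ℝ) ^ (k + 7) * L * 2 ^ ((J + 1) * C3) =
        2 ^ (k + 3) * (16 * (L : ℝ) * 2 ^ ((J + 1) * C3)) := by ring
    rw [e2] at h2
    exact le_of_mul_le_mul_left h2 (by positivity)
  have h4 : (2 : ℝ) ^ ((j + 1) * C3) ≤ 2 ^ ((J + 1) * C3) :=
    pow_le_pow_right₀ (by norm_num) (Nat.mul_le_mul_right _ (by omega))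
  rw [div_le_div_iff₀ haM (by positivity)]
  have hLpos : (0 : ℝ) < L := by linarith
  have h6 : (2 : ℝ) ^ ((j + 1) * C3) * (8 * L) ≤ 2 ^ ((J + 1) * C3) * (8 * L) :=
    mul_le_mul_of_nonneg_right h4 (by positivity)
  have h7 : (0 : ℝ) < (L : ℝ) * 2 ^ ((J + 1) * C3) := by positivity
  nlinarith

/-- The sum over a level set is controlled by Gallagher and the covering property. -/
private lemma star_level {g : ℤ → ℝ} {N L W K : ℕ} (hL1 : 1 ≤ L) (hW : N + L ≤ W) (hWR : (0 : ℝ) < (W : ℝ))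
    (hgsupp : ∀ x, x ∉ Icc (1 : ℤ) N → g x = 0) {n : ℕ} (m : Fin n → ℕ) [∀ i, NeZero (m i)] (l0 : ℕ)
    (P : ℕ → Prop) [DecidablePred P]
    (harc : ∀ t, P t → ∃ κ ∈ range K,
      ∃ bb ∈ (univ : Finset (∀ i, ZMod (m i))).filter (fun b => suppSize b ≤ l0),
        nint ((t : ℝ) / W - lam m K κ bb) ≤ 1 / (8 * L)) :
    (∑ t ∈ range W, ‖ghat g N W t‖ ^ 2 * (if P t then 1 else 0)) / W ≤
        4 / (L : ℝ) ^ 2 * tauSum m g N L K l0 := by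
  classical
  set w : ℕ → ℝ := fun t => ‖ghat g N W t‖ ^ 2 with hw
  have hw0 : ∀ t, 0 ≤ w t := fun t => by positivity
  set B := (univ : Finset (∀ i, ZMod (m i))).filter (fun b => suppSize b ≤ l0) with hB
  have hpt : ∀ t ∈ range W, w t * (if P t then 1 else 0) ≤
      ∑ κ ∈ range K, ∑ b ∈ B,
        (if nint ((t : ℝ) / W - lam m K κ b) ≤ 1 / (8 * L) then w t else 0) := by
    intro t _
    have hnn : ∀ κ ∈ range K, ∀ b ∈ B,
        0 ≤ (if nint ((t : ℝ) / W - lam m K κ b) ≤ 1 / (8 * L) then w t else 0) := by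
      intro κ _ b _
      split_ifs
      · exact hw0 t
      · exact le_rfl
    split_ifs with h
    · obtain ⟨κ, hκ, bb, hbb, hn⟩ := harc t h
      calc w t * 1 = (if nint ((t : ℝ) / W - lam m K κ bb) ≤ 1 / (8 * L) then w t else 0) := by
            rw [if_pos hn, mul_one]
        _ ≤ ∑ b ∈ B, (if nint ((t : ℝ) / W - lam m K κ b) ≤ 1 / (8 * L) then w t else 0) :=
            single_le_sum (fun b hb => hnn κ hκ b hb) hbb
        _ ≤ ∑ κ ∈ range K, ∑ b ∈ B,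
              (if nint ((t : ℝ) / W - lam m K κ b) ≤ 1 / (8 * L) then w t else 0) :=
            single_le_sum (f := fun κ => ∑ b ∈ B,
              (if nint ((t : ℝ) / W - lam m K κ b) ≤ 1 / (8 * L) then w t else 0))
              (fun κ hκ => sum_nonneg (hnn κ hκ)) hκ
    · rw [mul_zero]
      exact sum_nonneg (fun κ hκ => sum_nonneg (hnn κ hκ))
  have hsum := sum_le_sum hpt
  have hswap : ∑ t ∈ range W, ∑ κ ∈ range K, ∑ b ∈ B,
      (if nint ((t : ℝ) / W - lam m K κ b) ≤ 1 / (8 * L) then w t else 0) =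
      ∑ κ ∈ range K, ∑ b ∈ B,
        ∑ t ∈ (range W).filter (fun t : ℕ => nint ((t : ℝ) / W - lam m K κ b) ≤ 1 / (8 * L)), w t := by
    rw [sum_comm]
    apply sum_congr rfl
    intro κ _
    rw [sum_comm]
    apply sum_congr rfl
    intro b _
    rw [sum_filter]
  rw [hswap] at hsum
  have hgal : ∀ κ ∈ range K, ∀ b ∈ B,
      (∑ t ∈ (range W).filter (fun t : ℕ => nint ((t : ℝ) / W - lam m K κ b) ≤ 1 / (8 * L)), w t) / W ≤
        4 / (L : ℝ) ^ 2 * ∑ x ∈ Ioc (1 - (L : ℤ)) N,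
          ‖∑ u ∈ Ico x (x + L), (g u : ℂ) * e (lam m K κ b * u)‖ ^ 2 := by
    intro κ _ b _
    exact gallagher g N L W hL1 hW hgsupp (lam m K κ b)
  have htau : 4 / (L : ℝ) ^ 2 * tauSum m g N L K l0 =
      ∑ κ ∈ range K, ∑ b ∈ B, 4 / (L : ℝ) ^ 2 * ∑ x ∈ Ioc (1 - (L : ℤ)) N,
          ‖∑ u ∈ Ico x (x + L), (g u : ℂ) * e (lam m K κ b * u)‖ ^ 2 := by
    have hBeq : tauSum m g N L K l0 = ∑ x ∈ Ioc (1 - (L : ℤ)) N, ∑ κ ∈ range K, ∑ b ∈ B,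
        ‖∑ u ∈ Ico x (x + L), (g u : ℂ) * e (lam m K κ b * u)‖ ^ 2 := rfl
    rw [hBeq]
    simp_rw [mul_sum]
    rw [sum_comm]
    apply sum_congr rfl
    intro κ _
    rw [sum_comm]
  rw [htau]
  calc (∑ t ∈ range W, w t * (if P t then 1 else 0)) / W
      ≤ (∑ κ ∈ range K, ∑ b ∈ B,
        ∑ t ∈ (range W).filter (fun t : ℕ => nint ((t : ℝ) / W - lam m K κ b) ≤ 1 / (8 * L)), w t) / W :=
        div_le_div_of_nonneg_right hsum hWR.le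
    _ = ∑ κ ∈ range K, ∑ b ∈ B,
        (∑ t ∈ (range W).filter (fun t : ℕ => nint ((t : ℝ) / W - lam m K κ b) ≤ 1 / (8 * L)), w t) / W := by
        rw [sum_div]
        apply sum_congr rfl
        intro κ _
        rw [sum_div]
    _ ≤ _ := sum_le_sum (fun κ hκ => sum_le_sum (fun b hb => hgal κ hκ b hb))

/-- The final arithmetic. -/
private lemma star_arith {δ N M L : ℝ} {J : ℕ} (hδ0 : 0 < δ) (hN : 0 < N) (hM : 0 < M) (hL : 0 < L)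
    (hJ : (1 / 2 : ℝ) ^ (J + 1) ≤ δ / 48) {Y PW : ℝ} (hY : M / 2 ≤ Y) (hPW0 : 0 ≤ PW) (hPW : PW ≤ δ * N)
    {MS : ℝ} (hmain : δ ^ 2 * N * Y / 4 ≤ MS) (τ lv : ℕ → ℝ)
    (hlc : MS ≤ (1 / 2 : ℝ) ^ (J + 1) * M * PW + ∑ j ∈ range (J + 1), (1 / 2 : ℝ) ^ j * M * lv j)
    (hlv : ∀ j ∈ range (J + 1), lv j ≤ 4 / L ^ 2 * τ j) :
    (1 / 64 : ℝ) ≤ ∑ j ∈ range (J + 1), (1 / 2 : ℝ) ^ j * (τ j / (N * (δ * L) ^ 2)) := by
  have hlow1 : δ ^ 2 * N * (M / 2) / 4 ≤ δ ^ 2 * N * Y / 4 := by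
    have : 0 ≤ δ ^ 2 * N := by positivity
    have h := mul_le_mul_of_nonneg_left hY this
    linarith
  have hrest : (1 / 2 : ℝ) ^ (J + 1) * M * PW ≤ δ / 48 * M * (δ * N) := by
    apply mul_le_mul _ hPW hPW0 (by positivity)
    exact mul_le_mul_of_nonneg_right hJ hM.le
  have hsumj : ∑ j ∈ range (J + 1), (1 / 2 : ℝ) ^ j * M * lv j ≤
      ∑ j ∈ range (J + 1), (1 / 2 : ℝ) ^ j * M * (4 / L ^ 2 * τ j) := by
    apply sum_le_sum
    intro j hj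
    exact mul_le_mul_of_nonneg_left (hlv j hj) (by positivity)
  set T : ℝ := ∑ j ∈ range (J + 1), (1 / 2 : ℝ) ^ j * τ j with hT
  have e1 : ∑ j ∈ range (J + 1), (1 / 2 : ℝ) ^ j * M * (4 / L ^ 2 * τ j) = M * (4 * T / L ^ 2) := by
    have e0 : M * (4 * T / L ^ 2) = (M * (4 / L ^ 2)) * T := by ring
    rw [e0, hT, mul_sum]
    apply sum_congr rfl
    intro j _
    ring
  rw [e1] at hsumj
  have hfinal : M * (5 / 48 * (δ ^ 2 * N)) ≤ M * (4 * T / L ^ 2) := by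
    have e3 : δ / 48 * M * (δ * N) = M * (1 / 48 * (δ ^ 2 * N)) := by ring
    have e4 : δ ^ 2 * N * (M / 2) / 4 = M * (1 / 8 * (δ ^ 2 * N)) := by ring
    have e5 : M * (5 / 48 * (δ ^ 2 * N)) = M * (1 / 8 * (δ ^ 2 * N)) - M * (1 / 48 * (δ ^ 2 * N)) := by ring
    linarith
  have h := le_of_mul_le_mul_left hfinal hM
  rw [le_div_iff₀ (by positivity)] at h
  have hden : (0 : ℝ) < N * (δ * L) ^ 2 := by positivity
  have hgoal : ∑ j ∈ range (J + 1), (1 / 2 : ℝ) ^ j * (τ j / (N * (δ * L) ^ 2)) =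
      T / (N * (δ * L) ^ 2) := by
    rw [hT, sum_div]
    apply sum_congr rfl
    intro j _
    rw [mul_div_assoc]
  rw [hgoal, le_div_iff₀ hden]
  have e4 : N * (δ * L) ^ 2 = δ ^ 2 * N * L ^ 2 := by ring
  rw [e4]
  have hpos : 0 < δ ^ 2 * N * L ^ 2 := by positivity
  nlinarith

/-- Size consequences of the hypotheses on `L`, `J`, `N`. -/
private lemma star_sizes {k C3 J L N : ℕ} {δ : ℝ} (hk : 2 ≤ k) (hC3 : 1 ≤ C3) (hδ0 : 0 < δ)
    (hJ : (1 / 2 : ℝ) ^ (J + 1) ≤ δ / 48) (hL1 : 1 ≤ L)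
    (hL2 : 2 ^ (k + 7) * L * 2 ^ ((J + 1) * C3) ≤ N) :
    (0 : ℝ) < N ∧ (L : ℝ) ≤ δ * N / 36 ∧ 2 * L ≤ N := by
  have hLR : (1 : ℝ) ≤ (L : ℝ) := by exact_mod_cast hL1
  have hL2R : (2 : ℝ) ^ (k + 7) * L * 2 ^ ((J + 1) * C3) ≤ N := by exact_mod_cast hL2
  have h2C : (2 : ℝ) ^ (J + 1) ≤ 2 ^ ((J + 1) * C3) :=
    pow_le_pow_right₀ (by norm_num) (Nat.le_mul_of_pos_right _ hC3)
  have h2k : (2 : ℝ) ^ 9 ≤ 2 ^ (k + 7) := pow_le_pow_right₀ (by norm_num) (by omega)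
  have h2Jpos : (0 : ℝ) < 2 ^ (J + 1) := by positivity
  have hN9 : (2 : ℝ) ^ 9 * L * 2 ^ (J + 1) ≤ N := by
    refine le_trans ?_ hL2R
    apply mul_le_mul _ h2C (by positivity) (by positivity)
    exact mul_le_mul_of_nonneg_right h2k (by positivity)
  have hNR : (0 : ℝ) < N := by
    have : (0 : ℝ) < (2 : ℝ) ^ 9 * L * 2 ^ (J + 1) := by positivity
    linarith
  have h48 : (48 : ℝ) ≤ δ * 2 ^ (J + 1) := by
    have h := mul_le_mul_of_nonneg_right hJ h2Jpos.le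
    have h' : (1 / 2 : ℝ) ^ (J + 1) * 2 ^ (J + 1) = 1 := by
      rw [← mul_pow]; norm_num
    rw [h'] at h
    linarith
  have hδN : 48 * ((2 : ℝ) ^ 9 * L) ≤ δ * N := by
    have h1 : δ * ((2 : ℝ) ^ 9 * L * 2 ^ (J + 1)) ≤ δ * N :=
      mul_le_mul_of_nonneg_left hN9 hδ0.le
    have h2 : 48 * ((2 : ℝ) ^ 9 * L) ≤ (δ * 2 ^ (J + 1)) * ((2 : ℝ) ^ 9 * L) :=
      mul_le_mul_of_nonneg_right h48 (by positivity)
    nlinarith
  refine ⟨hNR, ?_, ?_⟩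
  · norm_num at hδN ⊢
    linarith
  · have h1 : (2 : ℝ) ≤ (2 : ℝ) ^ 9 * 2 ^ (J + 1) := by
      have : (1 : ℝ) ≤ 2 ^ (J + 1) := one_le_pow₀ (by norm_num)
      nlinarith
    have h2 : (2 : ℝ) * L ≤ N := by nlinarith
    exact_mod_cast h2

theorem star {k C3 : ℕ} (hk : 2 ≤ k) (hC3 : 1 ≤ C3) (harcs : ArcsProp k C3)
    {f : Polynomial ℤ} (hf : ClassF k f) {H : ℝ} (hH : ∀ i, |(f.coeff i : ℝ)| ≤ H)
    {N M L K J : ℕ} {A : Finset ℤ} {δ : ℝ}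
    (hA : A ⊆ Icc (1 : ℤ) N) (hfree : Free f A) (hδ : δ = (A.card : ℝ) / N) (hδ0 : 0 < δ)
    (hM1 : 8 * f.leadingCoeff * (M : ℤ) ^ k ≤ N) (hM2 : (N : ℤ) < 8 * f.leadingCoeff * ((M : ℤ) + 1) ^ k)
    (hJ : (1 / 2 : ℝ) ^ (J + 1) ≤ δ / 48)
    (hMlarge : (H * 2 ^ (J + 1)) ^ C3 ≤ (M : ℝ)) (hMH : 2 * (k : ℝ) * H ≤ M)
    (hL1 : 1 ≤ L) (hL2 : 2 ^ (k + 7) * L * 2 ^ ((J + 1) * C3) ≤ N)
    (hreg : ∀ (m : ℕ) (x0 : ℤ), L ≤ 2 * m → InBox N x0 1 m →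
      (apCount A x0 1 m : ℝ) ≤ (1 + 1 / 36) * δ * m)
    {n : ℕ} (m : Fin n → ℕ) [∀ i, NeZero (m i)] (l : ℕ → ℕ)
    (hcov : ∀ j ≤ J, ∀ (q : ℕ) (b : ℤ), 1 ≤ q → q ≤ 2 ^ ((j + 1) * C3) →
      ∃ κ < K, ∃ bb : ∀ i, ZMod (m i), suppSize bb ≤ l j ∧ ∃ z : ℤ, (b : ℝ) / q = lam m K κ bb + z) :
    (1 / 64 : ℝ) ≤ ∑ j ∈ range (J + 1), (1 / 2 : ℝ) ^ j *
      (tauSum m (gfun A N δ) N L K (l j) / ((N : ℝ) * (δ * L) ^ 2)) := by
  classical
  -- basic real facts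
  have hlead : f.coeff k = f.leadingCoeff := by
    rw [← hf.deg]; rfl
  have ha : (1 : ℝ) ≤ (f.leadingCoeff : ℝ) := by
    have : 1 ≤ f.leadingCoeff := hf.lc
    exact_mod_cast this
  have hH1 : 1 ≤ H := by
    have h := hH k
    rw [hlead, abs_of_nonneg (by linarith)] at h
    linarith
  have hH0 : 0 ≤ H := by linarith
  have hLR : (1 : ℝ) ≤ (L : ℝ) := by exact_mod_cast hL1
  have hL2R : (2 : ℝ) ^ (k + 7) * L * 2 ^ ((J + 1) * C3) ≤ N := by exact_mod_cast hL2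
  obtain ⟨hNR, hL0, hL0N⟩ := star_sizes hk hC3 hδ0 hJ hL1 hL2
  have hN1 : 0 < N := by exact_mod_cast hNR
  have hMpos : (1 : ℝ) ≤ M := by
    refine le_trans ?_ hMlarge
    apply one_le_pow₀
    have : (1 : ℝ) ≤ 2 ^ (J + 1) := one_le_pow₀ (by norm_num)
    nlinarith
  have hM2R : (N : ℝ) < 8 * (f.leadingCoeff : ℝ) * ((M : ℝ) + 1) ^ k := by exact_mod_cast hM2
  -- the modulus
  set W : ℕ := 3 * N + L with hWdef
  have hWpos : 0 < W := by omega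
  have hWR : (0 : ℝ) < (W : ℝ) := by exact_mod_cast hWpos
  have hgsupp : ∀ x, x ∉ Icc (1 : ℤ) N → gfun A N δ x = 0 := by
    intro x hx
    have hxA : x ∉ A := fun h => hx (hA h)
    simp [gfun, hxA, hx]
  have hY := star_hY hk hf hH hM1 hMH
  have hmain := main_ineq (L0 := L) (W := W) hY hA hfree hδ hδ0 (by omega) hL0 hL0N
    (fun m' x0 h1 h2 => hreg m' x0 (by omega) h2)
  have hpars := parseval (gfun A N δ) N W (by omega) hWpos
  have hgsq := star_gsq hA hδ hNR hδ0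
  have hw0 : ∀ t, 0 ≤ ‖ghat (gfun A N δ) N W t‖ ^ 2 := fun t => by positivity
  -- arcs for the j-th level set
  have harc : ∀ j ≤ J, ∀ t, (1 / 2 : ℝ) ^ (j + 1) * M ≤ ‖Sexp f M ((t : ℝ) / W)‖ →
      ∃ κ ∈ range K, ∃ bb ∈ (univ : Finset (∀ i, ZMod (m i))).filter (fun b => suppSize b ≤ l j),
        nint ((t : ℝ) / W - lam m K κ bb) ≤ 1 / (8 * L) := by
    intro j hj t ht
    have hηpos : (0 : ℝ) < (1 / 2 : ℝ) ^ (j + 1) := by positivity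
    have hηle : (1 / 2 : ℝ) ^ (j + 1) ≤ 1 := pow_le_one₀ (by norm_num) (by norm_num)
    have hinv : ((1 / 2 : ℝ) ^ (j + 1))⁻¹ = 2 ^ (j + 1) := by
      rw [← inv_pow]; norm_num
    have hlarge : (H / (1 / 2 : ℝ) ^ (j + 1)) ^ C3 ≤ (M : ℝ) := by
      refine le_trans ?_ hMlarge
      rw [div_eq_mul_inv, hinv]
      apply pow_le_pow_left₀ (by positivity)
      apply mul_le_mul_of_nonneg_left _ hH0
      exact pow_le_pow_right₀ (by norm_num) (by omega)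
    obtain ⟨q, b, hq1, hq2, hqb⟩ := harcs f hf H hH M _ ((t : ℝ) / W) hηpos hηle hlarge ht
    rw [hinv] at hq2 hqb
    rw [← pow_mul] at hq2 hqb
    have hq2' : q ≤ 2 ^ ((j + 1) * C3) := by exact_mod_cast hq2
    obtain ⟨κ, hκ, bb, hbb, z, hz⟩ := hcov j hj q b hq1 hq2'
    refine ⟨κ, mem_range.2 hκ, bb, mem_filter.2 ⟨mem_univ _, hbb⟩, ?_⟩
    have hsmall := star_arc_small (C3 := C3) ha hMpos hLR hj hM2R hL2R
    have hbd : |(t : ℝ) / W - (b : ℝ) / q| ≤ 1 / (8 * L) := hqb.trans hsmall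
    unfold nint
    have h1 := round_le ((t : ℝ) / W - lam m K κ bb) z
    have h2 : (t : ℝ) / W - lam m K κ bb - (z : ℝ) = (t : ℝ) / W - (b : ℝ) / q := by
      rw [hz]; ring
    rw [h2] at h1
    exact h1.trans hbd
  -- the layer cake and Gallagher on level sets
  have hlc := star_layer (fun t => ‖ghat (gfun A N δ) N W t‖ ^ 2)
    (fun t => ‖Sexp f M ((t : ℝ) / W)‖) (M : ℝ) (by positivity) W J hWR hw0
    (fun t => star_norm_Sexp f M _)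
  have hlv : ∀ j ∈ range (J + 1),
      (∑ t ∈ range W, ‖ghat (gfun A N δ) N W t‖ ^ 2 *
        (if (1 / 2 : ℝ) ^ (j + 1) * M ≤ ‖Sexp f M ((t : ℝ) / W)‖ then 1 else 0)) / W ≤
        4 / (L : ℝ) ^ 2 * tauSum m (gfun A N δ) N L K (l j) := by
    intro j hj
    have hj' : j ≤ J := by
      have := mem_range.1 hj
      omega
    exact star_level hL1 (by omega) hWR hgsupp m (l j)
      (fun t => (1 / 2 : ℝ) ^ (j + 1) * M ≤ ‖Sexp f M ((t : ℝ) / W)‖) (fun t ht => harc j hj' t ht)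
  have hYlow : (M : ℝ) / 2 ≤ (M : ℝ) - (M / 2 : ℕ) := by
    have h : ((M / 2 : ℕ) : ℝ) ≤ (M : ℝ) / 2 := Nat.cast_div_le
    linarith
  have hPW0 : 0 ≤ (∑ t ∈ range W, ‖ghat (gfun A N δ) N W t‖ ^ 2) / W :=
    div_nonneg (sum_nonneg (fun t _ => hw0 t)) hWR.le
  have hPW : (∑ t ∈ range W, ‖ghat (gfun A N δ) N W t‖ ^ 2) / W ≤ δ * N := by
    rw [hpars]; exact hgsq
  have hMpos' : (0 : ℝ) < M := by linarith
  have hLpos : (0 : ℝ) < L := by linarith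
  exact star_arith hδ0 hNR hMpos' hLpos hJ hYlow hPW0 hPW hmain
    (fun j => tauSum m (gfun A N δ) N L K (l j)) _ hlc hlv

end Vale.Agent.Lib.P042
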