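import Vale.Agent.Lib.P042.TauAux5

/-! # P042 TASK U: the bound on τ, blueprint Section 7 -/

namespace Vale.Agent.Lib.P042

open Finset

theorem tau_bound {N K nP : ℕ} {A : Finset ℤ} {δ ε0 : ℝ}
    (hA : A ⊆ Icc (1 : ℤ) N) (hδ : δ = (A.card : ℝ) / N) (hδ0 : 0 < δ) (hK1 : 1 ≤ K)
    (hε : 0 < ε0) (hε1 : ε0 ≤ 1 / 4) (hLN : 2 * (K * nP) ≤ N)
    {n : ℕ} (m : Fin n → ℕ) [∀ i, NeZero (m i)] (hcop : Pairwise (Function.onFun Nat.Coprime m))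
    (hKm : ∀ i, Nat.Coprime K (m i)) {Qm Lm u : ℕ} (hm : ∀ i, m i ≤ Qm) (hn : n ≤ Qm) (hQm : 1 ≤ Qm)
    (hu : 1 ≤ u) (hδu : δ⁻¹ ≤ Real.exp (2 * u))
    (hreg : Reg A N δ ε0 (K * Qm ^ Lm) (K * nP))
    (hsize : (2 * (Qm : ℝ)) ^ (8 * u * (Lm + 2)) ≤ nP)
    (D : ℝ) (hD0 : 1 ≤ D) (hD1 : 10 * (u : ℝ) ^ 2 ≤ D ^ 2)
    (hD2 : 2 * (2 * (u : ℝ) + 1) ^ (2 * u) * n ≤ D ^ (2 * u))
    (l0 : ℕ) (hl0 : l0 ≤ Lm) :
    tauSum m (gfun A N δ) N (K * nP) K l0 / ((N : ℝ) * (δ * (K * nP : ℕ)) ^ 2) ≤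
      ε0 + 12 * (K * nP : ℕ) / N + (if 1 ≤ l0 then 40 * ((100 * D) ^ 2) ^ l0 else 0) := by
  have hK : 0 < K := hK1
  have hK0 : (0 : ℝ) < K := by exact_mod_cast hK
  have hQ1 : (1 : ℝ) ≤ Qm := by exact_mod_cast hQm
  have h2Q : (1 : ℝ) ≤ 2 * (Qm : ℝ) := by linarith
  have hnP1 : (1 : ℝ) ≤ nP := le_trans (one_le_pow₀ h2Q) hsize
  have hnP0 : (0 : ℝ) < nP := by linarith
  have hnP : 0 < nP := by exact_mod_cast hnP0
  have hν : 0 < δ * nP := mul_pos hδ0 hnP0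
  have hN0 : (0 : ℝ) < N := by
    by_contra h
    have hN : (N : ℝ) = 0 := le_antisymm (not_lt.mp h) (by positivity)
    rw [hN] at hδ
    simp at hδ
    linarith
  have hregK : ∀ x0 : ℤ, InBox N x0 K nP → (apCount A x0 K nP : ℝ) ≤ (1 + ε0) * δ * nP := by
    intro x0 hx0
    refine hreg K nP x0 hK1 ?_ ?_ hx0
    · exact Nat.le_mul_of_pos_right K (Nat.pow_pos hQm)
    · nlinarith [Nat.mul_pos hK hnP]
  have havg := tau_avg hA hδ hδ0 hK1 hε hε1 hLN hnP hregK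
  set L := K * nP with hL
  have hL0 : 0 < L := Nat.mul_pos hK hnP
  set I := Ioc (1 - (L : ℤ)) (N : ℤ) with hI
  set BB := (100 * D) ^ 2 with hBB
  set E : ℝ := if 1 ≤ l0 then 18 * BB ^ l0 else 0 with hE
  have hBBpos : 0 < BB := by
    rw [hBB]; have : 0 < D := by linarith
    positivity
  have hE0 : 0 ≤ E := by
    rw [hE]
    split_ifs <;> positivity
  -- rewriting the sum by Parseval
  have hsum : tauSum m (gfun A N δ) N L K l0 =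
      (K : ℝ) * ∑ x ∈ I, ∑ c ∈ range K, ∑ b ∈ (univ : Finset (∀ i, ZMod (m i))).filter (fun b => suppSize b ≤ l0),
        ‖∑ v ∈ tauY K L x c, ((gfun A N δ v : ℝ) : ℂ) * e (mu m b * v)‖ ^ 2 := by
    unfold tauSum
    rw [Finset.mul_sum]
    apply Finset.sum_congr rfl
    intro x _
    rw [Finset.sum_comm, Finset.sum_comm (s := range K), Finset.mul_sum]
    apply Finset.sum_congr rfl
    intro b _
    have h1 : ∀ κ ∈ range K, ∑ u ∈ Ico x (x + (L : ℤ)), ((gfun A N δ u : ℝ) : ℂ) * e (lam m K κ b * u) =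
        ∑ u ∈ Ico x (x + (L : ℤ)), (((gfun A N δ u : ℝ) : ℂ) * e (mu m b * u)) * e ((κ : ℝ) / K * u) := by
      intro κ _
      apply Finset.sum_congr rfl
      intro v _
      rw [tau_lam_split]
      ring
    have h2 : ∑ κ ∈ range K, ‖∑ u ∈ Ico x (x + (L : ℤ)), ((gfun A N δ u : ℝ) : ℂ) * e (lam m K κ b * u)‖ ^ 2 =
        ∑ κ ∈ range K, ‖∑ u ∈ Ico x (x + (L : ℤ)), (((gfun A N δ u : ℝ) : ℂ) * e (mu m b * u)) * e ((κ : ℝ) / K * u)‖ ^ 2 := by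
      apply Finset.sum_congr rfl
      intro κ hκ
      rw [h1 κ hκ]
    rw [h2, tau_parsevalK K hK]
    rfl
  -- bound
  have hwin : ∀ x ∈ I, ∀ c ∈ range K,
      ∑ b ∈ (univ : Finset (∀ i, ZMod (m i))).filter (fun b => suppSize b ≤ l0),
        ‖∑ v ∈ tauY K L x c, ((gfun A N δ v : ℝ) : ℂ) * e (mu m b * v)‖ ^ 2 ≤
      (δ * nP) ^ 2 * ((((((tauY K L x c).filter (fun u => u ∈ A)).card : ℝ) / (δ * nP) -
        (((tauY K L x c).filter (fun u => u ∈ Icc (1 : ℤ) N)).card : ℝ) / nP) ^ 2) + E) := by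
    intro x hx c hc
    exact tau_window m hδ0 hK1 hε hε1 hLN hA hcop hKm hm hn hQm hu hδu hreg hsize D hD0 hD1 hD2 l0 hl0 hx
      (Finset.mem_range.mp hc)
  have hIcard : (I.card : ℝ) = (N : ℝ) + L - 1 := by
    rw [hI, Int.card_Ioc]
    have : ((N : ℤ) - (1 - (L : ℤ))) = ((N + L - 1 : ℕ) : ℤ) := by
      have : 1 ≤ N + L := by omega
      push_cast [Nat.cast_sub this]
      ring
    rw [this, Int.toNat_natCast]
    have : 1 ≤ N + L := by omega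
    push_cast [Nat.cast_sub this]
    ring
  have hdouble : ∑ x ∈ I, ∑ c ∈ range K, ∑ b ∈ (univ : Finset (∀ i, ZMod (m i))).filter (fun b => suppSize b ≤ l0),
        ‖∑ v ∈ tauY K L x c, ((gfun A N δ v : ℝ) : ℂ) * e (mu m b * v)‖ ^ 2 ≤
      (δ * nP) ^ 2 * ((K : ℝ) * (ε0 * N + 5 * (L : ℕ)) + (I.card : ℝ) * K * E) := by
    calc _ ≤ ∑ x ∈ I, ∑ c ∈ range K, (δ * nP) ^ 2 * ((((((tauY K L x c).filter (fun u => u ∈ A)).card : ℝ) / (δ * nP) -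
        (((tauY K L x c).filter (fun u => u ∈ Icc (1 : ℤ) N)).card : ℝ) / nP) ^ 2) + E) :=
          Finset.sum_le_sum (fun x hx => Finset.sum_le_sum (fun c hc => hwin x hx c hc))
      _ = (δ * nP) ^ 2 * ((∑ x ∈ I, ∑ c ∈ range K, (((((tauY K L x c).filter (fun u => u ∈ A)).card : ℝ) / (δ * nP) -
        (((tauY K L x c).filter (fun u => u ∈ Icc (1 : ℤ) N)).card : ℝ) / nP) ^ 2)) + (I.card : ℝ) * K * E) := by
          simp only [← Finset.mul_sum, Finset.sum_add_distrib]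
          simp
          left
          ring
      _ ≤ _ := by
          apply mul_le_mul_of_nonneg_left _ (by positivity)
          linarith
  rw [hsum, div_le_iff₀ (by positivity)]
  have hrew : (N : ℝ) * (δ * (L : ℝ)) ^ 2 = (N : ℝ) * (K : ℝ) ^ 2 * (δ * nP) ^ 2 := by
    rw [hL]; push_cast; ring
  rw [hrew]
  have hLr : (2 : ℝ) * L ≤ N := by exact_mod_cast hLN
  have hL0r : (0 : ℝ) < L := by exact_mod_cast hL0
  have hfinal : (ε0 * N + 5 * (L : ℝ) + ((N : ℝ) + L - 1) * E) ≤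
      (ε0 + 12 * (L : ℝ) / N + (if 1 ≤ l0 then 40 * BB ^ l0 else 0)) * N := by
    have h3 : (ε0 + 12 * (L : ℝ) / N + (if 1 ≤ l0 then 40 * BB ^ l0 else 0)) * N =
        ε0 * N + 12 * (L : ℝ) + (if 1 ≤ l0 then 40 * BB ^ l0 else 0) * N := by
      field_simp
    rw [h3]
    have h4 : ((N : ℝ) + L - 1) * E ≤ (if 1 ≤ l0 then 40 * BB ^ l0 else 0) * N := by
      rw [hE]
      split_ifs with h5
      · have h6 : (0 : ℝ) < BB ^ l0 := by positivity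
        have h7 : ((N : ℝ) + L - 1) ≤ 3 / 2 * N := by linarith
        calc ((N : ℝ) + L - 1) * (18 * BB ^ l0) ≤ (3 / 2 * N) * (18 * BB ^ l0) :=
              mul_le_mul_of_nonneg_right h7 (by positivity)
          _ ≤ 40 * BB ^ l0 * N := by nlinarith [mul_pos h6 hN0]
      · simp
    linarith
  have hKpos : (0 : ℝ) ≤ (K : ℝ) ^ 2 * (δ * nP) ^ 2 := by positivity
  calc (K : ℝ) * ∑ x ∈ I, ∑ c ∈ range K, ∑ b ∈ (univ : Finset (∀ i, ZMod (m i))).filter (fun b => suppSize b ≤ l0),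
        ‖∑ v ∈ tauY K L x c, ((gfun A N δ v : ℝ) : ℂ) * e (mu m b * v)‖ ^ 2
      ≤ (K : ℝ) * ((δ * nP) ^ 2 * ((K : ℝ) * (ε0 * N + 5 * (L : ℕ)) + (I.card : ℝ) * K * E)) :=
        mul_le_mul_of_nonneg_left hdouble hK0.le
    _ = ((K : ℝ) ^ 2 * (δ * nP) ^ 2) * (ε0 * N + 5 * (L : ℝ) + ((N : ℝ) + L - 1) * E) := by
        rw [hIcard]; ring
    _ ≤ ((K : ℝ) ^ 2 * (δ * nP) ^ 2) * ((ε0 + 12 * (L : ℝ) / N + (if 1 ≤ l0 then 40 * BB ^ l0 else 0)) * N) :=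
        mul_le_mul_of_nonneg_left hfinal hKpos
    _ = _ := by ring

end Vale.Agent.Lib.P042
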