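import Vale.Agent.Lib.P042.Params
import Vale.Agent.Lib.P042.Arcs
import Vale.Agent.Lib.P042.Star
import Vale.Agent.Lib.P042.Tau

/-! # P042: the density increment, blueprint Section 8 -/

namespace Vale.Agent.Lib.P042

open Finset

lemma exists_M (a : ℤ) (ha : 1 ≤ a) (k : ℕ) (hk : 1 ≤ k) (N : ℕ) (hN : 8 * a ≤ N) :
    ∃ M : ℕ, 1 ≤ M ∧ 8 * a * (M : ℤ) ^ k ≤ N ∧ (N : ℤ) < 8 * a * ((M : ℤ) + 1) ^ k := by
  classical
  have hex : ∃ M' : ℕ, (N : ℤ) < 8 * a * (M' : ℤ) ^ k := by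
    refine ⟨N + 1, ?_⟩
    have h1 : ((N : ℤ) + 1) ≤ ((N : ℤ) + 1) ^ k :=
      le_self_pow₀ (by omega) (by omega)
    push_cast
    nlinarith
  let M' := Nat.find hex
  have hM' : (N : ℤ) < 8 * a * (M' : ℤ) ^ k := Nat.find_spec hex
  have hmin : ∀ j < M', ¬ (N : ℤ) < 8 * a * (j : ℤ) ^ k := fun j hj => Nat.find_min hex hj
  have h1 : 2 ≤ M' := by
    by_contra h
    have : M' = 0 ∨ M' = 1 := by omega
    rcases this with h0 | h0
    · rw [h0] at hM'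
      have : (0 : ℤ) ^ k = 0 := zero_pow (by omega)
      push_cast at hM'
      rw [this] at hM'
      have : (0 : ℤ) ≤ N := Int.natCast_nonneg N
      linarith
    · rw [h0] at hM'
      push_cast at hM'
      rw [one_pow] at hM'
      linarith
  refine ⟨M' - 1, by omega, ?_, ?_⟩
  · have := hmin (M' - 1) (by omega)
    linarith
  · have e : (((M' - 1 : ℕ) : ℤ) + 1) = (M' : ℤ) := by
      rw [Nat.cast_sub (by omega)]; push_cast; ring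
    rw [e]; exact hM'

lemma M_large_aux {k C3 u : ℕ} {H : ℝ} (hu : 1 ≤ u) (hH : 1 ≤ H) :
    Real.log (8 * ((2 * k + 2) * (H * 2 ^ (2 * u + 6)) ^ C3) ^ k) ≤
      3 + k * (2 * k + 2) + k * C3 * Real.log H + 8 * k * C3 * u := by
  have hu' : (1 : ℝ) ≤ u := by exact_mod_cast hu
  have hH0 : 0 < H := by linarith
  have hl8 : Real.log 8 ≤ 3 := by
    have : Real.log 8 = 3 * Real.log 2 := by
      rw [show (8 : ℝ) = 2 ^ 3 by norm_num, Real.log_pow]; norm_num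
    rw [this]; have := Real.log_two_lt_d9; linarith
  have hexp : Real.log (8 * ((2 * k + 2) * (H * 2 ^ (2 * u + 6)) ^ C3) ^ k) =
      Real.log 8 + k * (Real.log (2 * k + 2) + C3 * (Real.log H + (2 * u + 6) * Real.log 2)) := by
    rw [Real.log_mul (by norm_num) (by positivity), Real.log_pow,
      Real.log_mul (by positivity) (by positivity), Real.log_pow,
      Real.log_mul (by positivity) (by positivity), Real.log_pow]
    push_cast; ring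
  have hl2 : Real.log 2 ≤ 1 := by have := Real.log_two_lt_d9; linarith
  have hl20 : 0 ≤ Real.log 2 := by have := Real.log_two_gt_d9; linarith
  have hlk : Real.log (2 * k + 2) ≤ 2 * k + 2 := Real.log_le_self (by positivity)
  have h6 : (2 * (u : ℝ) + 6) * Real.log 2 ≤ 8 * u := by nlinarith
  rw [hexp]
  have hin : Real.log (2 * k + 2) + C3 * (Real.log H + (2 * u + 6) * Real.log 2)
      ≤ (2 * k + 2) + C3 * (Real.log H + 8 * u) := by
    have : (C3 : ℝ) * (Real.log H + (2 * u + 6) * Real.log 2) ≤ C3 * (Real.log H + 8 * u) :=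
      mul_le_mul_of_nonneg_left (by linarith) (by positivity)
    linarith
  have := mul_le_mul_of_nonneg_left hin (by positivity : (0 : ℝ) ≤ k)
  have e : (k : ℝ) * ((2 * k + 2) + C3 * (Real.log H + 8 * u)) =
     k * (2 * k + 2) + k * C3 * Real.log H + 8 * k * C3 * u := by ring
  linarith

lemma M_large_aux2 {k C3 u : ℕ} {H C U : ℝ} (hk : 1 ≤ k) (hC3 : 1 ≤ C3) (hu : 1 ≤ u)
    (hH : 1 ≤ H) (hUu : (u : ℝ) ≤ U) (hC : 3 + (k : ℝ) * (2 * k + 2) + 8 * k * C3 ≤ C) :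
    3 + k * (2 * k + 2) + k * C3 * Real.log H + 8 * k * C3 * u ≤ C * (Real.log H + U) := by
  have hu' : (1 : ℝ) ≤ u := by exact_mod_cast hu
  have hk' : (1 : ℝ) ≤ k := by exact_mod_cast hk
  have hC3' : (1 : ℝ) ≤ C3 := by exact_mod_cast hC3
  have hlH : 0 ≤ Real.log H := Real.log_nonneg hH
  have hU1 : 1 ≤ U := by linarith
  have hkC : (0 : ℝ) ≤ k * C3 := by positivity
  have hCH : (k : ℝ) * C3 ≤ C := by
    have a0 : (0 : ℝ) ≤ (k : ℝ) * (2 * k + 2) := by positivity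
    linarith
  have e1 : (k : ℝ) * C3 * Real.log H ≤ C * Real.log H := mul_le_mul_of_nonneg_right hCH hlH
  have e2 : (3 + (k : ℝ) * (2 * k + 2) + 8 * k * C3) * U ≤ C * U :=
    mul_le_mul_of_nonneg_right hC (by linarith)
  have a0 : (0 : ℝ) ≤ (k : ℝ) * (2 * k + 2) := by positivity
  have a1 : (0 : ℝ) ≤ 8 * (k : ℝ) * C3 := by positivity
  have b1 : 8 * (k : ℝ) * C3 * u ≤ 8 * k * C3 * U := mul_le_mul_of_nonneg_left hUu a1
  have b2 : (3 + (k : ℝ) * (2 * k + 2)) * 1 ≤ (3 + k * (2 * k + 2)) * U :=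
    mul_le_mul_of_nonneg_left hU1 (by positivity)
  have e : C * (Real.log H + U) = C * Real.log H + C * U := by ring
  have e' : (3 + (k : ℝ) * (2 * k + 2) + 8 * k * C3) * U = (3 + k * (2 * k + 2)) * U + 8 * k * C3 * U := by ring
  rw [e]; linarith

/-- Numerical lemma: `M` is large. -/
lemma M_large {k C3 u M N : ℕ} {a H C U : ℝ} (hk : 1 ≤ k) (hC3 : 1 ≤ C3) (hu : 1 ≤ u)
    (ha : 1 ≤ a) (hH : 1 ≤ H) (hUu : (u : ℝ) ≤ U)
    (hC : 3 + (k : ℝ) * (2 * k + 2) + 8 * k * C3 ≤ C) (hN0 : 0 < (N : ℝ))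
    (hM2 : (N : ℝ) < 8 * a * ((M : ℝ) + 1) ^ k)
    (hX : C * (Real.log H + U) ≤ Real.log ((N : ℝ) / a)) :
    (H * 2 ^ (2 * u + 6)) ^ C3 + 2 * (k : ℝ) * H ≤ (M : ℝ) := by
  by_contra hcon
  push_neg at hcon
  have hk' : (1 : ℝ) ≤ k := by exact_mod_cast hk
  have hH0 : 0 < H := by linarith
  have h2 : (1 : ℝ) ≤ 2 ^ (2 * u + 6) := one_le_pow₀ (by norm_num)
  have hb : 1 ≤ H * 2 ^ (2 * u + 6) := by nlinarith
  have hW1 : H * 2 ^ (2 * u + 6) ≤ (H * 2 ^ (2 * u + 6)) ^ C3 := by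
    calc H * 2 ^ (2 * u + 6) = (H * 2 ^ (2 * u + 6)) ^ 1 := (pow_one _).symm
      _ ≤ _ := pow_le_pow_right₀ hb hC3
  have hlog0 := M_large_aux (k := k) (C3 := C3) hu hH
  have hlog1 := M_large_aux2 hk hC3 hu hH hUu hC
  generalize hW : (H * 2 ^ (2 * u + 6)) ^ C3 = W at *
  have hHW : H ≤ W := by nlinarith
  have hW0 : 1 ≤ W := by linarith
  have hT : (M : ℝ) + 1 ≤ (2 * k + 2) * W := by nlinarith
  have hMk : ((M : ℝ) + 1) ^ k ≤ ((2 * k + 2) * W) ^ k :=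
    pow_le_pow_left₀ (by positivity) hT k
  have hNa : (N : ℝ) / a < 8 * ((2 * k + 2) * W) ^ k := by
    rw [div_lt_iff₀ (by linarith)]
    have := mul_le_mul_of_nonneg_left hMk (by positivity : (0 : ℝ) ≤ 8 * a)
    nlinarith
  have hlog : Real.log ((N : ℝ) / a) < Real.log (8 * ((2 * k + 2) * W) ^ k) :=
    Real.log_lt_log (by positivity) hNa
  linarith

lemma geom_half (n : ℕ) : ∑ j ∈ range n, (1 / 2 : ℝ) ^ j ≤ 2 := by
  have : ∑ j ∈ range n, (1 / 2 : ℝ) ^ j = 2 - 2 * (1 / 2 : ℝ) ^ n := by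
    induction n with
    | zero => simp
    | succ n ih => rw [sum_range_succ, ih, pow_succ]; ring
  rw [this]
  have : (0 : ℝ) ≤ (1 / 2 : ℝ) ^ n := by positivity
  linarith

lemma geom_34 (n : ℕ) : ∑ j ∈ range n, (3 / 4 : ℝ) ^ j ≤ 4 := by
  have : ∑ j ∈ range n, (3 / 4 : ℝ) ^ j = 4 - 4 * (3 / 4 : ℝ) ^ n := by
    induction n with
    | zero => simp
    | succ n ih => rw [sum_range_succ, ih, pow_succ]; ring
  rw [this]
  have : (0 : ℝ) ≤ (3 / 4 : ℝ) ^ n := by positivity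
  linarith

lemma star_numeric {J : ℕ} {l : ℕ → ℕ} {B e : ℝ} {τ : ℕ → ℝ} (he0 : 0 ≤ e)
    (hτ : ∀ j ≤ J, τ j ≤ e + (if 1 ≤ l j then 40 * B ^ (l j) else 0))
    (hl : ∀ j ≤ J, 1 ≤ l j → 99 ≤ j ∧ B ^ (l j) ≤ (5 / 4 : ℝ) ^ (j + 1)) :
    ∑ j ∈ range (J + 1), (1 / 2 : ℝ) ^ j * τ j ≤ 2 * e + 1 / 1000 := by
  have key : ∀ j ∈ range (J + 1), (1 / 2 : ℝ) ^ j * τ j ≤
      (1 / 2 : ℝ) ^ j * e + (1 / 4000 : ℝ) * (3 / 4 : ℝ) ^ j := by
    intro j hj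
    have hjJ : j ≤ J := by simpa [Nat.lt_succ_iff] using hj
    have h12 : (0 : ℝ) < (1 / 2 : ℝ) ^ j := by positivity
    have h34 : (0 : ℝ) < (3 / 4 : ℝ) ^ j := by positivity
    have h1 := mul_le_mul_of_nonneg_left (hτ j hjJ) h12.le
    by_cases hc : 1 ≤ l j
    · rw [if_pos hc] at h1
      obtain ⟨h99, hB⟩ := hl j hjJ hc
      have h2 : (1 / 2 : ℝ) ^ j * (40 * B ^ (l j)) ≤ (1 / 2 : ℝ) ^ j * (40 * (5 / 4 : ℝ) ^ (j + 1)) :=
        mul_le_mul_of_nonneg_left (by linarith) h12.le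
      have h3 : (1 / 2 : ℝ) ^ j * (40 * (5 / 4 : ℝ) ^ (j + 1)) = 50 * ((5 / 6 : ℝ) ^ j * (3 / 4 : ℝ) ^ j) := by
        have : (1 / 2 : ℝ) ^ j * (5 / 4 : ℝ) ^ j = (5 / 6 : ℝ) ^ j * (3 / 4 : ℝ) ^ j := by
          rw [← mul_pow, ← mul_pow]; norm_num
        rw [pow_succ]
        calc _ = 50 * ((1 / 2 : ℝ) ^ j * (5 / 4 : ℝ) ^ j) := by ring
          _ = _ := by rw [this]
      have h4 : (5 / 6 : ℝ) ^ j ≤ (5 / 6 : ℝ) ^ 99 :=
        pow_le_pow_of_le_one (by norm_num) (by norm_num) h99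
      have h5 : (50 : ℝ) * (5 / 6 : ℝ) ^ 99 ≤ 1 / 4000 := by norm_num
      have h6 : 50 * ((5 / 6 : ℝ) ^ j * (3 / 4 : ℝ) ^ j) ≤ (1 / 4000 : ℝ) * (3 / 4 : ℝ) ^ j := by
        have := mul_le_mul_of_nonneg_right (le_trans (mul_le_mul_of_nonneg_left h4 (by norm_num)) h5) h34.le
        linarith
      rw [mul_add] at h1
      linarith
    · rw [if_neg hc, add_zero] at h1
      have : (0 : ℝ) ≤ (1 / 4000 : ℝ) * (3 / 4 : ℝ) ^ j := by positivity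
      linarith
  calc ∑ j ∈ range (J + 1), (1 / 2 : ℝ) ^ j * τ j
      ≤ ∑ j ∈ range (J + 1), ((1 / 2 : ℝ) ^ j * e + (1 / 4000 : ℝ) * (3 / 4 : ℝ) ^ j) := sum_le_sum key
    _ = (∑ j ∈ range (J + 1), (1 / 2 : ℝ) ^ j) * e + (1 / 4000 : ℝ) * ∑ j ∈ range (J + 1), (3 / 4 : ℝ) ^ j := by
        rw [sum_add_distrib, sum_mul, mul_sum]
    _ ≤ 2 * e + 1 / 1000 := by
        have h1 := mul_le_mul_of_nonneg_right (geom_half (J + 1)) he0
        have h2 := geom_34 (J + 1)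
        linarith

/-- The levels `l_j = log_y Q_j`: if `l_j ≥ 1` then `j ≥ 99` and `B^{l_j} ≤ (5/4)^{j+1}`. -/
lemma level_numeric {C3 u j : ℕ} (hC3 : 1 ≤ C3) (hl : 1 ≤ Nat.log (py C3 u) (2 ^ ((j + 1) * C3))) :
    99 ≤ j ∧ ((pB C3 u : ℝ)) ^ (Nat.log (py C3 u) (2 ^ ((j + 1) * C3))) ≤ (5 / 4 : ℝ) ^ (j + 1) := by
  set l := Nat.log (py C3 u) (2 ^ ((j + 1) * C3)) with hldef
  have hBpos : 1 ≤ pB C3 u := by
    unfold pB; exact Nat.pow_pos (Nat.mul_pos (by norm_num) (pD_pos C3 u))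
  have h1 : py C3 u ^ l ≤ 2 ^ ((j + 1) * C3) :=
    Nat.pow_log_le_self _ (by positivity)
  have h2 : ((pB C3 u) ^ (4 * l) * 2 ^ (100 * l)) ^ C3 ≤ (2 ^ (j + 1)) ^ C3 := by
    calc ((pB C3 u) ^ (4 * l) * 2 ^ (100 * l)) ^ C3 = py C3 u ^ l := by
          unfold py
          rw [← pow_mul, mul_pow, mul_pow, ← pow_mul, ← pow_mul, ← pow_mul]
          congr 2 <;> ring
      _ ≤ 2 ^ ((j + 1) * C3) := h1
      _ = _ := by rw [pow_mul]
  have h3 : (pB C3 u) ^ (4 * l) * 2 ^ (100 * l) ≤ 2 ^ (j + 1) :=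
    (Nat.pow_le_pow_iff_left (by omega)).mp h2
  have h4 : 2 ^ (100 * l) ≤ 2 ^ (j + 1) := by
    refine le_trans ?_ h3
    exact Nat.le_mul_of_pos_left _ (Nat.pow_pos hBpos)
  have h5 : 100 * l ≤ j + 1 := (Nat.pow_le_pow_iff_right (by norm_num)).mp h4
  have h6 : (pB C3 u) ^ (4 * l) ≤ 2 ^ (j + 1) := by
    refine le_trans ?_ h3
    exact Nat.le_mul_of_pos_right _ (Nat.two_pow_pos _)
  refine ⟨by omega, ?_⟩
  have h7 : (((pB C3 u : ℝ)) ^ l) ^ 4 ≤ ((5 / 4 : ℝ) ^ (j + 1)) ^ 4 := by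
    have h8 : ((pB C3 u : ℝ)) ^ (4 * l) ≤ (2 : ℝ) ^ (j + 1) := by exact_mod_cast h6
    have h9 : (2 : ℝ) ^ (j + 1) ≤ (((5 / 4 : ℝ)) ^ 4) ^ (j + 1) :=
      pow_le_pow_left₀ (by norm_num) (by norm_num) _
    calc ((pB C3 u : ℝ) ^ l) ^ 4 = (pB C3 u : ℝ) ^ (4 * l) := by rw [← pow_mul]; ring_nf
      _ ≤ _ := h8.trans h9
      _ = _ := by rw [← pow_mul, ← pow_mul]; ring_nf
  exact (pow_le_pow_iff_left₀ (by positivity) (by positivity) (by norm_num)).mp h7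

lemma pD_conditions (C3 u : ℕ) (hC3 : 1 ≤ C3) (hu : 1 ≤ u) :
    10 * (u : ℝ) ^ 2 ≤ (pD C3 u : ℝ) ^ 2 ∧
    2 * (2 * (u : ℝ) + 1) ^ (2 * u) * ((primesIn (py C3 u) (pQs C3 u)).card : ℝ) ≤ (pD C3 u : ℝ) ^ (2 * u) := by
  have hu' : (1 : ℝ) ≤ u := by exact_mod_cast hu
  have hD : (pD C3 u : ℝ) = (2 * (u : ℝ) + 1) * 2 ^ (4 * C3 + 1) := by
    unfold pD; push_cast; ring
  constructor
  · rw [hD]
    have h1 : (2 : ℝ) ≤ 2 ^ (4 * C3 + 1) := by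
      calc (2 : ℝ) = 2 ^ 1 := (pow_one _).symm
        _ ≤ _ := pow_le_pow_right₀ (by norm_num) (by omega)
    have h2 : (2 * (u : ℝ)) * 2 ≤ (2 * (u : ℝ) + 1) * 2 ^ (4 * C3 + 1) :=
      mul_le_mul (by linarith) h1 (by norm_num) (by positivity)
    have h3 : (4 * (u : ℝ)) ^ 2 ≤ ((2 * (u : ℝ) + 1) * 2 ^ (4 * C3 + 1)) ^ 2 :=
      pow_le_pow_left₀ (by positivity) (by linarith) 2
    nlinarith
  · rw [hD, mul_pow]
    have hn : ((primesIn (py C3 u) (pQs C3 u)).card : ℝ) ≤ (pQs C3 u : ℝ) := by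
      exact_mod_cast card_primesIn_le _ _
    have hQ : (pQs C3 u : ℝ) = 2 ^ ((2 * u + 6) * C3) := by unfold pQs; push_cast; rfl
    have h1 : 2 * (pQs C3 u : ℝ) ≤ ((2 : ℝ) ^ (4 * C3 + 1)) ^ (2 * u) := by
      rw [hQ, ← pow_succ', ← pow_mul]
      apply pow_le_pow_right₀ (by norm_num)
      nlinarith
    have h0 : (0 : ℝ) ≤ (2 * (u : ℝ) + 1) ^ (2 * u) := by positivity
    calc 2 * (2 * (u : ℝ) + 1) ^ (2 * u) * ((primesIn (py C3 u) (pQs C3 u)).card : ℝ)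
        = (2 * (u : ℝ) + 1) ^ (2 * u) * (2 * ((primesIn (py C3 u) (pQs C3 u)).card : ℝ)) := by ring
      _ ≤ _ := mul_le_mul_of_nonneg_left (by linarith) h0

lemma delta_J {δ : ℝ} {u : ℕ} (hδ0 : 0 < δ) (hδu : δ⁻¹ ≤ Real.exp u) :
    (1 / 2 : ℝ) ^ (2 * u + 6) ≤ δ / 48 := by
  have h1 : Real.exp u ≤ 4 ^ u := by
    have : Real.exp u = (Real.exp 1) ^ u := by
      rw [← Real.exp_nat_mul]; simp
    rw [this]
    exact pow_le_pow_left₀ (Real.exp_pos 1).le (by have := Real.exp_one_lt_d9; linarith) u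
  have h2 : δ⁻¹ ≤ 4 ^ u := hδu.trans h1
  have h3 : (1 / 2 : ℝ) ^ (2 * u + 6) = (1 / 64) * ((4 : ℝ) ^ u)⁻¹ := by
    rw [pow_add, pow_mul]
    have : ((1 / 2 : ℝ) ^ 2) ^ u = ((4 : ℝ) ^ u)⁻¹ := by
      rw [← inv_pow]; norm_num
    rw [this]; norm_num; ring
  have h4 : ((4 : ℝ) ^ u)⁻¹ ≤ δ := by
    have := inv_anti₀ (by positivity) h2
    rwa [inv_inv] at this
  rw [h3]
  have : (0 : ℝ) < ((4 : ℝ) ^ u)⁻¹ := by positivity
  linarith

/-- The core: `Reg` (no increment) and the size conditions are contradictory. -/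
lemma no_reg {k C3 u : ℕ} (hk : 2 ≤ k) (hC3 : 1 ≤ C3) (harcs : ArcsProp k C3) (hu : 1 ≤ u)
    {f : Polynomial ℤ} (hf : ClassF k f) {H : ℝ} (hH : ∀ i, |(f.coeff i : ℝ)| ≤ H)
    {N M nP : ℕ} {A : Finset ℤ} {δ : ℝ}
    (hA : A ⊆ Icc (1 : ℤ) N) (hfree : Free f A) (hδ : δ = (A.card : ℝ) / N) (hδ0 : 0 < δ)
    (hδu : δ⁻¹ ≤ Real.exp u)
    (hM1 : 8 * f.leadingCoeff * (M : ℤ) ^ k ≤ N) (hM2 : (N : ℤ) < 8 * f.leadingCoeff * ((M : ℤ) + 1) ^ k)
    (hMlarge : (H * 2 ^ (2 * u + 6)) ^ C3 + 2 * (k : ℝ) * H ≤ (M : ℝ))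
    (hH1 : 1 ≤ H)
    (hnP : pnmin C3 u ≤ nP)
    (hL2 : 2 ^ (k + 7) * (pK C3 u * nP) * pQs C3 u ≤ N)
    (hreg : Reg A N δ (1 / 1024) (pK C3 u * pQs C3 u ^ pv C3 u) (pK C3 u * nP)) : False := by
  classical
  have hk1 : 1 ≤ k := by omega
  have hNpos : 0 < N := by
    rcases Nat.eq_zero_or_pos N with h | h
    · exfalso; rw [hδ, h] at hδ0; simp at hδ0
    · exact h
  have hNreal : (0 : ℝ) < N := by exact_mod_cast hNpos
  have hnmin1 : 1 ≤ pnmin C3 u := by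
    unfold pnmin; exact Nat.pow_pos (Nat.mul_pos (by norm_num) (pQs_pos C3 u))
  have hnP1 : 1 ≤ nP := hnmin1.trans hnP
  have hK1 := pK_pos C3 u
  have hL1 : 1 ≤ pK C3 u * nP := Nat.mul_pos hK1 hnP1
  set l : ℕ → ℕ := fun j => Nat.log (py C3 u) (2 ^ ((j + 1) * C3)) with hl
  have hy2 := py_ge C3 u hC3
  have hQj : ∀ j ≤ 2 * u + 5, 2 ^ ((j + 1) * C3) ≤ pQs C3 u := by
    intro j hj
    unfold pQs
    apply Nat.pow_le_pow_right (by norm_num)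
    exact Nat.mul_le_mul_right _ (by omega)
  have hcov : ∀ j ≤ 2 * u + 5, ∀ (q : ℕ) (b : ℤ), 1 ≤ q → q ≤ 2 ^ ((j + 1) * C3) →
      ∃ κ < pK C3 u, ∃ bb : ∀ i, ZMod (mc (py C3 u) (pQs C3 u) i), suppSize bb ≤ l j ∧
        ∃ z : ℤ, (b : ℝ) / q = lam (mc (py C3 u) (pQs C3 u)) (pK C3 u) κ bb + z := by
    intro j hj q b hq1 hq2
    exact cover hy2 (pQs_lt C3 u) (hQj j hj) (Nat.lt_pow_succ_log_self (by omega) _) q b hq1 hq2
  have hreg1 : ∀ (m : ℕ) (x0 : ℤ), pK C3 u * nP ≤ 2 * m → InBox N x0 1 m →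
      (apCount A x0 1 m : ℝ) ≤ (1 + 1 / 36) * δ * m := by
    intro m x0 hm hbox
    have h1 := hreg 1 m x0 le_rfl (Nat.mul_pos hK1 (Nat.pow_pos (pQs_pos C3 u))) (by simpa using hm) hbox
    have h2 : (1 + 1 / 1024 : ℝ) * δ * m ≤ (1 + 1 / 36) * δ * m := by
      have : (0 : ℝ) ≤ δ * m := by positivity
      nlinarith
    linarith
  have hM2' : (H * 2 ^ (2 * u + 6)) ^ C3 ≤ (M : ℝ) := by
    have : (0 : ℝ) ≤ 2 * (k : ℝ) * H := by positivity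
    linarith
  have hM3 : 2 * (k : ℝ) * H ≤ M := by
    have : (0 : ℝ) ≤ (H * 2 ^ (2 * u + 6)) ^ C3 := by positivity
    linarith
  have hstar := star (J := 2 * u + 5) hk hC3 harcs hf hH hA hfree hδ hδ0 hM1 hM2 (delta_J hδ0 hδu) hM2' hM3 hL1
    (by
      have : pQs C3 u = 2 ^ ((2 * u + 5 + 1) * C3) := rfl
      rw [← this]; exact hL2)
    hreg1 (mc (py C3 u) (pQs C3 u)) l hcov
  -- the τ bounds
  have hLN : 2 * (pK C3 u * nP) ≤ N := by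
    refine le_trans ?_ hL2
    have h1 : 2 ≤ 2 ^ (k + 7) := by
      calc 2 = 2 ^ 1 := rfl
        _ ≤ 2 ^ (k + 7) := Nat.pow_le_pow_right (by norm_num) (by omega)
    calc 2 * (pK C3 u * nP) ≤ 2 ^ (k + 7) * (pK C3 u * nP) := Nat.mul_le_mul_right _ h1
      _ ≤ _ := Nat.le_mul_of_pos_right _ (pQs_pos C3 u)
  have hsize : (2 * (pQs C3 u : ℝ)) ^ (8 * u * (pv C3 u + 2)) ≤ nP := by
    have : ((pnmin C3 u : ℕ) : ℝ) ≤ nP := by exact_mod_cast hnP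
    refine le_trans (le_of_eq ?_) this
    unfold pnmin; push_cast; ring
  obtain ⟨hD1, hD2⟩ := pD_conditions C3 u hC3 hu
  have hD0 : (1 : ℝ) ≤ (pD C3 u : ℝ) := by exact_mod_cast pD_pos C3 u
  have hδu2 : δ⁻¹ ≤ Real.exp (2 * u) := by
    refine hδu.trans (Real.exp_le_exp.mpr ?_)
    have : (0 : ℝ) ≤ u := Nat.cast_nonneg _
    linarith
  have hlv : ∀ j ≤ 2 * u + 5, l j ≤ pv C3 u := by
    intro j hj
    have h1 : py C3 u ^ l j ≤ 2 ^ ((j + 1) * C3) := Nat.pow_log_le_self _ (by positivity)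
    have h2 : 2 ^ l j ≤ py C3 u ^ l j := Nat.pow_le_pow_left hy2 _
    have h3 : 2 ^ l j < 2 ^ pv C3 u := lt_of_le_of_lt (h2.trans (h1.trans (hQj j hj))) (pQs_lt C3 u)
    exact ((Nat.pow_lt_pow_iff_right (by norm_num)).mp h3).le
  have htau : ∀ j ≤ 2 * u + 5,
      tauSum (mc (py C3 u) (pQs C3 u)) (gfun A N δ) N (pK C3 u * nP) (pK C3 u) (l j) /
          ((N : ℝ) * (δ * (pK C3 u * nP : ℕ)) ^ 2) ≤
        ((1 / 1024 : ℝ) + 12 * (pK C3 u * nP : ℕ) / N) +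
          (if 1 ≤ l j then 40 * ((pB C3 u : ℝ)) ^ (l j) else 0) := by
    intro j hj
    have h := tau_bound (Qm := pQs C3 u) (Lm := pv C3 u) (u := u) hA hδ hδ0 hK1 (by norm_num : (0 : ℝ) < 1 / 1024) (by norm_num) hLN
      (mc (py C3 u) (pQs C3 u)) (mc_coprime _ _) (mc_coprime_K _ _ _) (mc_le _ _) (card_primesIn_le _ _)
      (pQs_pos C3 u) hu hδu2 hreg hsize (pD C3 u : ℝ) hD0 hD1 hD2 (l j) (hlv j hj)
    have hB : ((100 * (pD C3 u : ℝ)) ^ 2) = (pB C3 u : ℝ) := by unfold pB; push_cast; ring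
    rw [hB] at h
    exact h
  have hsum := star_numeric (J := 2 * u + 5) (l := l) (B := (pB C3 u : ℝ))
    (e := ((1 / 1024 : ℝ) + 12 * (pK C3 u * nP : ℕ) / N)) (by positivity) htau
    (fun j _ hj => level_numeric hC3 hj)
  -- numerics
  have hQ8 : 2 ^ 8 ≤ pQs C3 u := by
    unfold pQs
    apply Nat.pow_le_pow_right (by norm_num)
    nlinarith
  have hLN2 : (2 : ℝ) ^ 17 * (pK C3 u * nP : ℕ) ≤ N := by
    have h1 : 2 ^ 17 * (pK C3 u * nP) ≤ N := by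
      refine le_trans ?_ hL2
      calc 2 ^ 17 * (pK C3 u * nP) = 2 ^ 9 * (pK C3 u * nP) * 2 ^ 8 := by ring
        _ ≤ 2 ^ (k + 7) * (pK C3 u * nP) * pQs C3 u := by
          apply Nat.mul_le_mul (Nat.mul_le_mul_right _ (Nat.pow_le_pow_right (by norm_num) (by omega))) hQ8
    exact_mod_cast h1
  have hfrac : 12 * ((pK C3 u * nP : ℕ) : ℝ) / N ≤ 12 / 2 ^ 17 := by
    rw [div_le_div_iff₀ hNreal (by positivity)]
    nlinarith
  have : (1 / 64 : ℝ) ≤ 2 * ((1 / 1024 : ℝ) + 12 / 2 ^ 17) + 1 / 1000 := by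
    refine hstar.trans (hsum.trans ?_)
    linarith
  norm_num at this

/-- DENSITY INCREMENT. -/
theorem density_increment (k : ℕ) (hk : 2 ≤ k) : ∃ (C : ℝ) (E : ℕ), 1 ≤ C ∧ 1 ≤ E ∧
    ∀ (f : Polynomial ℤ), ClassF k f → ∀ (H : ℝ), (∀ i, |(f.coeff i : ℝ)| ≤ H) →
    ∀ (N : ℕ) (A : Finset ℤ), A ⊆ Icc (1 : ℤ) N → Free f A → ∀ δ : ℝ, δ = (A.card : ℝ) / N → 0 < δ →
    ∀ u : ℕ, 1 ≤ u → δ⁻¹ ≤ Real.exp u →
    C * (Real.log H + (u : ℝ) ^ E) ≤ Real.log ((N : ℝ) / (f.leadingCoeff : ℝ)) →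
    ∃ (d m : ℕ) (x0 : ℤ), 1 ≤ d ∧ (d : ℝ) ≤ Real.exp (C * (u : ℝ) ^ E) ∧
      (N : ℝ) ≤ m * Real.exp (C * (u : ℝ) ^ E) ∧ InBox N x0 d m ∧
      (1 + 1 / 1024 : ℝ) * δ * m < apCount A x0 d m := by
  obtain ⟨C3, hC3, harcs⟩ := exists_arcs k hk
  obtain ⟨C1, hC1, hlog⟩ := log_params k C3 hC3
  have hk1 : 1 ≤ k := by omega
  have hkR : (1 : ℝ) ≤ k := by exact_mod_cast hk1
  have hC3R : (1 : ℝ) ≤ C3 := by exact_mod_cast hC3
  set C : ℝ := C1 + (3 + (k : ℝ) * (2 * k + 2) + 8 * k * C3) with hCdef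
  have hCpart : (0 : ℝ) ≤ 3 + (k : ℝ) * (2 * k + 2) + 8 * k * C3 := by positivity
  refine ⟨C, 16 * C3 + 1, by linarith, by omega, ?_⟩
  intro f hf H hH N A hA hfree δ hδ hδ0 u hu hδu hX
  by_contra hno
  push_neg at hno
  have huR : (1 : ℝ) ≤ u := by exact_mod_cast hu
  have hNpos : 0 < N := by
    rcases Nat.eq_zero_or_pos N with h | h
    · exfalso; rw [hδ, h] at hδ0; simp at hδ0
    · exact h
  have hNR : (0 : ℝ) < N := by exact_mod_cast hNpos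
  have ha : (1 : ℤ) ≤ f.leadingCoeff := hf.lc
  have haR : (1 : ℝ) ≤ (f.leadingCoeff : ℝ) := by exact_mod_cast ha
  have hH1 : 1 ≤ H := by
    have h := hH k
    have e : f.coeff k = f.leadingCoeff := by
      rw [Polynomial.leadingCoeff, hf.deg]
    rw [e] at h
    have : |(f.leadingCoeff : ℝ)| = (f.leadingCoeff : ℝ) := abs_of_pos (by linarith)
    rw [this] at h
    linarith
  have hlogH : 0 ≤ Real.log H := Real.log_nonneg hH1
  set U : ℝ := (u : ℝ) ^ (16 * C3 + 1) with hU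
  have hUu : (u : ℝ) ≤ U := by
    rw [hU]
    calc (u : ℝ) = (u : ℝ) ^ 1 := (pow_one _).symm
      _ ≤ _ := pow_le_pow_right₀ huR (by omega)
  have hU1 : 1 ≤ U := by linarith
  have hNa0 : (0 : ℝ) < (N : ℝ) / (f.leadingCoeff : ℝ) := by positivity
  have hNaN : (N : ℝ) / (f.leadingCoeff : ℝ) ≤ N := div_le_self hNR.le haR
  -- all parameters fit
  have hCU : C * U ≤ Real.log ((N : ℝ) / (f.leadingCoeff : ℝ)) := by
    refine le_trans ?_ hX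
    have : 0 ≤ C := by linarith
    exact mul_le_mul_of_nonneg_left (by linarith) this
  have hC1U : C1 * U ≤ C * U := mul_le_mul_of_nonneg_right (by linarith) (by linarith)
  have hLossPos : (0 : ℝ) < (pLoss k C3 u : ℝ) := by
    have : 0 < pLoss k C3 u := by
      unfold pLoss pDmax
      exact Nat.mul_pos (Nat.mul_pos (Nat.two_pow_pos _) (pQs_pos C3 u)) (Nat.mul_pos (pK_pos C3 u) (Nat.pow_pos (pQs_pos C3 u)))
    exact_mod_cast this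
  have hnminPos : (0 : ℝ) < (pnmin C3 u : ℝ) := by
    have : 0 < pnmin C3 u := by
      unfold pnmin; exact Nat.pow_pos (Nat.mul_pos (by norm_num) (pQs_pos C3 u))
    exact_mod_cast this
  have hQsPos : (0 : ℝ) < (pQs C3 u : ℝ) := by exact_mod_cast pQs_pos C3 u
  have hX0 : (0 : ℝ) < (pLoss k C3 u : ℝ) * (pnmin C3 u : ℝ) * (4 * (pQs C3 u : ℝ)) := by positivity
  have hXN : (pLoss k C3 u : ℝ) * (pnmin C3 u : ℝ) * (4 * (pQs C3 u : ℝ)) ≤ N := by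
    have h := (hlog u hu).trans (hC1U.trans hCU)
    exact ((Real.log_le_log_iff hX0 hNa0).mp h).trans hNaN
  have hXN' : pLoss k C3 u * pnmin C3 u * (4 * pQs C3 u) ≤ N := by exact_mod_cast hXN
  have hXexp : (pLoss k C3 u : ℝ) ≤ Real.exp (C * U) := by
    have h := (hlog u hu).trans hC1U
    have h2 := (Real.log_le_iff_le_exp hX0).mp h
    refine le_trans ?_ h2
    have h1 : (1 : ℝ) ≤ (pnmin C3 u : ℝ) := by exact_mod_cast hnminPos
    have h3 : (1 : ℝ) ≤ (pQs C3 u : ℝ) := by exact_mod_cast pQs_pos C3 u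
    have h4 : (1 : ℝ) ≤ (pnmin C3 u : ℝ) * (4 * (pQs C3 u : ℝ)) := by nlinarith
    nlinarith
  -- choice of M
  have h8a : 8 * f.leadingCoeff ≤ (N : ℤ) := by
    have h3 : Real.log 8 ≤ Real.log ((N : ℝ) / (f.leadingCoeff : ℝ)) := by
      have hl8 : Real.log 8 ≤ 3 := by
        have : Real.log 8 = 3 * Real.log 2 := by
          rw [show (8 : ℝ) = 2 ^ 3 by norm_num, Real.log_pow]; norm_num
        rw [this]; have := Real.log_two_lt_d9; linarith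
      have h3C : 3 ≤ C := by
        have : (0 : ℝ) ≤ (k : ℝ) * (2 * k + 2) + 8 * k * C3 := by positivity
        linarith
      have : 3 * 1 ≤ C * U := mul_le_mul h3C hU1 (by norm_num) (by linarith)
      linarith
    have h4 : (8 : ℝ) ≤ (N : ℝ) / (f.leadingCoeff : ℝ) :=
      (Real.log_le_log_iff (by norm_num) hNa0).mp h3
    rw [le_div_iff₀ (by linarith)] at h4
    exact_mod_cast h4
  obtain ⟨M, _, hM1, hM2⟩ := exists_M f.leadingCoeff ha k hk1 N h8a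
  have hM2R : (N : ℝ) < 8 * (f.leadingCoeff : ℝ) * ((M : ℝ) + 1) ^ k := by exact_mod_cast hM2
  have hMlarge := M_large hk1 hC3 hu haR hH1 hUu (by linarith) hNR hM2R hX
  -- the window parameter
  set T := pK C3 u * 2 ^ (k + 7) * pQs C3 u with hT
  have hTpos : 0 < T := Nat.mul_pos (Nat.mul_pos (pK_pos C3 u) (Nat.two_pow_pos _)) (pQs_pos C3 u)
  have hTLoss : T ≤ pLoss k C3 u := by
    unfold pLoss pDmax
    have h1 : 2 ^ (k + 7) ≤ 2 ^ (k + 9) := Nat.pow_le_pow_right (by norm_num) (by omega)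
    have h2 : 1 ≤ pQs C3 u ^ pv C3 u := Nat.pow_pos (pQs_pos C3 u)
    calc T = 2 ^ (k + 7) * pQs C3 u * (pK C3 u * 1) := by rw [hT]; ring
      _ ≤ 2 ^ (k + 9) * pQs C3 u * (pK C3 u * pQs C3 u ^ pv C3 u) := by gcongr
  set nP := N / T with hnPdef
  have hnP : pnmin C3 u ≤ nP := by
    rw [hnPdef, Nat.le_div_iff_mul_le hTpos]
    calc pnmin C3 u * T ≤ pnmin C3 u * pLoss k C3 u := Nat.mul_le_mul_left _ hTLoss
      _ = pLoss k C3 u * pnmin C3 u * 1 := by ring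
      _ ≤ pLoss k C3 u * pnmin C3 u * (4 * pQs C3 u) := by
          apply Nat.mul_le_mul_left; have := pQs_pos C3 u; omega
      _ ≤ N := hXN'
  have hnP1 : 1 ≤ nP := le_trans (Nat.pow_pos (Nat.mul_pos (by norm_num) (pQs_pos C3 u))) hnP
  have hL2 : 2 ^ (k + 7) * (pK C3 u * nP) * pQs C3 u ≤ N := by
    calc 2 ^ (k + 7) * (pK C3 u * nP) * pQs C3 u = nP * T := by rw [hT]; ring
      _ ≤ N := Nat.div_mul_le_self N T
  have hNL : N ≤ 2 ^ (k + 8) * pQs C3 u * (pK C3 u * nP) := by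
    have h1 : N < T * (nP + 1) := by
      rw [hnPdef]; exact Nat.lt_mul_div_succ N hTpos
    have h2 : T * (nP + 1) ≤ 2 * (nP * T) := by nlinarith
    have h3 : 2 * (nP * T) = 2 ^ (k + 8) * pQs C3 u * (pK C3 u * nP) := by rw [hT]; ring
    omega
  have hreg : Reg A N δ (1 / 1024) (pK C3 u * pQs C3 u ^ pv C3 u) (pK C3 u * nP) := by
    intro d m x0 hd1 hd2 hLm hbox
    have hdLoss : d ≤ pLoss k C3 u := by
      refine hd2.trans ?_
      unfold pLoss pDmax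
      exact Nat.le_mul_of_pos_left _ (Nat.mul_pos (Nat.two_pow_pos _) (pQs_pos C3 u))
    have hdexp : (d : ℝ) ≤ Real.exp (C * U) :=
      le_trans (by exact_mod_cast hdLoss) hXexp
    have hNm : N ≤ pLoss k C3 u * m := by
      calc N ≤ 2 ^ (k + 8) * pQs C3 u * (pK C3 u * nP) := hNL
        _ ≤ 2 ^ (k + 8) * pQs C3 u * (2 * d * m) := Nat.mul_le_mul_left _ hLm
        _ ≤ 2 ^ (k + 8) * pQs C3 u * (2 * (pK C3 u * pQs C3 u ^ pv C3 u) * m) := by gcongr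
        _ = pLoss k C3 u * m := by unfold pLoss pDmax; ring
    have hNmexp : (N : ℝ) ≤ m * Real.exp (C * U) := by
      have h1 : (N : ℝ) ≤ (pLoss k C3 u : ℝ) * m := by exact_mod_cast hNm
      have h2 : (pLoss k C3 u : ℝ) * m ≤ Real.exp (C * U) * m :=
        mul_le_mul_of_nonneg_right hXexp (Nat.cast_nonneg _)
      linarith
    have h := hno d m x0 hd1 hdexp hNmexp hbox
    exact h
  exact no_reg hk hC3 harcs hu hf hH hA hfree hδ hδ0 hδu hM1 hM2 hMlarge hH1 hnP hL2 hreg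

end Vale.Agent.Lib.P042
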