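import Vale.Agent.Lib.P042.Defs

/-! # P042 TASK T: passing to a subprogression, blueprint Section 1 -/

namespace Vale.Agent.Lib.P042

open Finset Polynomial

/-- A residue class modulo `d` which stays intersective. -/
lemma exists_good_class {f : Polynomial ℤ}
    (inter : ∀ q : ℕ, 1 ≤ q → ∃ n : ℤ, (q : ℤ) ∣ f.eval n) {d : ℕ} (hd : 1 ≤ d) :
    ∃ r : ℕ, r < d ∧ ∀ q : ℕ, 1 ≤ q → ∃ n : ℤ, ((d : ℤ) * q) ∣ f.eval n ∧ n % d = r := by
  by_contra hcon
  push Not at hcon
  have hq : ∀ r : ℕ, ∃ q : ℕ, r < d → (1 ≤ q ∧ ∀ n : ℤ, ((d : ℤ) * q) ∣ f.eval n → n % d ≠ r) := by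
    intro r
    by_cases hr : r < d
    · obtain ⟨q, h1, h2⟩ := hcon r hr
      exact ⟨q, fun _ => ⟨h1, h2⟩⟩
    · exact ⟨1, fun h => absurd h hr⟩
  choose Q hQ using hq
  have hQpos : 1 ≤ d * ∏ r ∈ range d, Q r := by
    apply Nat.one_le_iff_ne_zero.mpr
    apply Nat.mul_ne_zero (by omega)
    apply Finset.prod_ne_zero_iff.mpr
    intro r hr
    have := (hQ r (mem_range.mp hr)).1
    omega
  obtain ⟨n, hn⟩ := inter _ hQpos
  have hdpos : (0 : ℤ) < d := by exact_mod_cast hd
  set r : ℕ := (n % d).toNat with hr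
  have hr0 : n % d = r := by
    rw [hr, Int.toNat_of_nonneg (Int.emod_nonneg _ hdpos.ne')]
  have hrd : r < d := by
    have := Int.emod_lt_of_pos n hdpos
    omega
  apply (hQ r hrd).2 n _ hr0
  refine dvd_trans ?_ hn
  push_cast
  apply mul_dvd_mul_left
  have : Q r ∣ ∏ r ∈ range d, Q r := Finset.dvd_prod_of_mem _ (mem_range.mpr hrd)
  exact_mod_cast this

/-- Bezout for finitely many integers. -/
lemma exists_bezout (s : Finset ℕ) (c : ℕ → ℤ) :
    ∃ G : ℕ, (∀ i ∈ s, (G : ℤ) ∣ c i) ∧ ∃ v : ℕ → ℤ, ∑ i ∈ s, v i * c i = G := by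
  classical
  induction s using Finset.induction_on with
  | empty => exact ⟨0, by simp, fun _ => 0, by simp⟩
  | insert a s ha ih =>
    obtain ⟨G, hG, v, hv⟩ := ih
    refine ⟨Int.gcd (c a) G, ?_, ?_⟩
    · intro i hi
      rcases mem_insert.mp hi with rfl | hi
      · exact Int.gcd_dvd_left _ _
      · exact dvd_trans (Int.gcd_dvd_right _ _) (hG i hi)
    · refine ⟨fun i => if i = a then Int.gcdA (c a) G else Int.gcdB (c a) G * v i, ?_⟩
      rw [Finset.sum_insert ha]
      simp only [if_true]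
      have : ∑ i ∈ s, (if i = a then Int.gcdA (c a) G else Int.gcdB (c a) G * v i) * c i
          = Int.gcdB (c a) G * ∑ i ∈ s, v i * c i := by
        rw [Finset.mul_sum]
        apply Finset.sum_congr rfl
        intro i hi
        have : i ≠ a := fun h => ha (h ▸ hi)
        rw [if_neg this]; ring
      rw [this, hv, Int.gcd_eq_gcd_ab]
      ring

/-- Coefficient bound for powers of `C r + C d * X`. -/
lemma coeff_pow_linear_le (r d : ℕ) (j i : ℕ) :
    |((C (r : ℤ) + C (d : ℤ) * X) ^ j).coeff i| ≤ ((r : ℤ) + d) ^ j := by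
  induction j generalizing i with
  | zero =>
    rw [pow_zero, coeff_one]
    split_ifs <;> simp
  | succ j ih =>
    rw [pow_succ, mul_add, ← mul_assoc, coeff_add]
    have h1 : ((C (r : ℤ) + C (d : ℤ) * X) ^ j * C (r : ℤ)).coeff i
        = ((C (r : ℤ) + C (d : ℤ) * X) ^ j).coeff i * (r : ℤ) := by
      rw [coeff_mul_C]
    have h2 : |((C (r : ℤ) + C (d : ℤ) * X) ^ j * C (d : ℤ) * X).coeff i|
        ≤ ((r : ℤ) + d) ^ j * (d : ℤ) := by
      cases i with
      | zero => simp [mul_assoc]; positivity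
      | succ i =>
        rw [coeff_mul_X, coeff_mul_C, abs_mul]
        have := ih i
        have hd : |(d : ℤ)| = d := abs_of_nonneg (by positivity)
        rw [hd]
        exact mul_le_mul_of_nonneg_right this (by positivity)
    calc _ ≤ |((C (r : ℤ) + C (d : ℤ) * X) ^ j * C (r : ℤ)).coeff i|
          + |((C (r : ℤ) + C (d : ℤ) * X) ^ j * C (d : ℤ) * X).coeff i| := abs_add_le _ _
      _ ≤ ((r : ℤ) + d) ^ j * (r : ℤ) + ((r : ℤ) + d) ^ j * (d : ℤ) := by
        apply add_le_add _ h2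
        rw [h1, abs_mul]
        have hr : |(r : ℤ)| = r := abs_of_nonneg (by positivity)
        rw [hr]
        exact mul_le_mul_of_nonneg_right (ih i) (by positivity)
      _ = ((r : ℤ) + d) ^ (j + 1) := by ring

/-- Coefficients of the substituted polynomial. -/
lemma coeff_comp_linear_le {f : Polynomial ℤ} {k r d : ℕ} (hdeg : f.natDegree = k) (hr : r < d)
    {H : ℝ} (hH : ∀ i, |(f.coeff i : ℝ)| ≤ H) (i : ℕ) :
    |(((f.comp (C (r : ℤ) + C (d : ℤ) * X)).coeff i : ℤ) : ℝ)| ≤ (k + 1) * 2 ^ k * H * (d : ℝ) ^ k := by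
  have hd : 1 ≤ d := by omega
  have hH0 : 0 ≤ H := le_trans (abs_nonneg _) (hH 0)
  have hexp : f.comp (C (r : ℤ) + C (d : ℤ) * X)
      = ∑ j ∈ range (k + 1), C (f.coeff j) * (C (r : ℤ) + C (d : ℤ) * X) ^ j := by
    rw [comp, eval₂_eq_sum_range, hdeg]
  rw [hexp, finsetSum_coeff]
  push_cast
  have hbound : ∀ j ∈ range (k + 1),
      |((C (f.coeff j) * (C (r : ℤ) + C (d : ℤ) * X) ^ j).coeff i : ℝ)| ≤ H * (2 * (d : ℝ)) ^ k := by
    intro j hj
    rw [coeff_C_mul]
    push_cast
    rw [abs_mul]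
    have h1 := coeff_pow_linear_le r d j i
    have h2 : |(((C (r : ℤ) + C (d : ℤ) * X) ^ j).coeff i : ℝ)| ≤ ((r : ℝ) + d) ^ j := by
      have : ((|((C (r : ℤ) + C (d : ℤ) * X) ^ j).coeff i| : ℤ) : ℝ) ≤ (((r : ℤ) + d) ^ j : ℤ) := by
        exact_mod_cast h1
      simpa using this
    have h3 : ((r : ℝ) + d) ^ j ≤ (2 * (d : ℝ)) ^ k := by
      have hrd : (r : ℝ) + d ≤ 2 * d := by
        have : (r : ℝ) ≤ d := by exact_mod_cast hr.le
        linarith
      have hd1 : (1 : ℝ) ≤ 2 * d := by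
        have : (1 : ℝ) ≤ d := by exact_mod_cast hd
        linarith
      calc ((r : ℝ) + d) ^ j ≤ (2 * (d : ℝ)) ^ j := by gcongr
        _ ≤ (2 * (d : ℝ)) ^ k := pow_le_pow_right₀ hd1 (by have := mem_range.mp hj; omega)
    exact mul_le_mul (hH j) (h2.trans h3) (abs_nonneg _) hH0
  calc |∑ j ∈ range (k + 1), ((C (f.coeff j) * (C (r : ℤ) + C (d : ℤ) * X) ^ j).coeff i : ℝ)|
      ≤ ∑ j ∈ range (k + 1), |((C (f.coeff j) * (C (r : ℤ) + C (d : ℤ) * X) ^ j).coeff i : ℝ)| :=
        Finset.abs_sum_le_sum_abs _ _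
    _ ≤ ∑ _j ∈ range (k + 1), H * (2 * (d : ℝ)) ^ k := Finset.sum_le_sum hbound
    _ = (k + 1) * 2 ^ k * H * (d : ℝ) ^ k := by
      rw [Finset.sum_const, card_range, nsmul_eq_mul, mul_pow]
      push_cast
      ring

/-- The algebra of Lemma T: the polynomial `f2` with `d G f2(y) = f(r + d y)`. -/
lemma exists_transformed {k : ℕ} (hk : 2 ≤ k) {f : Polynomial ℤ} (hf : ClassI k f) {H : ℝ}
    (hH : ∀ i, |(f.coeff i : ℝ)| ≤ H) {d : ℕ} (hd : 1 ≤ d) :
    ∃ (f2 : Polynomial ℤ) (r G : ℕ), 1 ≤ G ∧ ClassF k f2 ∧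
      (∀ i, |(f2.coeff i : ℝ)| ≤ (k + 1) * 2 ^ k * H * (d : ℝ) ^ k) ∧
      (∀ y : ℤ, (d : ℤ) * G * f2.eval y = f.eval ((r : ℤ) + d * y)) ∧
      f2.leadingCoeff * G = f.leadingCoeff * (d : ℤ) ^ (k - 1) := by
  obtain ⟨r, hrd, hr⟩ := exists_good_class hf.inter hd
  have hd0 : (d : ℤ) ≠ 0 := by
    have : d ≠ 0 := by omega
    exact_mod_cast this
  -- `d ∣ f(r)`
  have hdr : (d : ℤ) ∣ f.eval (r : ℤ) := by
    obtain ⟨n, hn, hnr⟩ := hr 1 le_rfl
    have h1 : (d : ℤ) ∣ f.eval n := dvd_trans ⟨((1 : ℕ) : ℤ), rfl⟩ hn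
    have h2 : (d : ℤ) ∣ n - r := by
      rw [← hnr]
      exact Int.dvd_self_sub_emod
    have h3 : n - r ∣ f.eval n - f.eval (r : ℤ) := Polynomial.sub_dvd_eval_sub _ _ _
    have h4 := dvd_trans h2 h3
    have := dvd_sub h1 h4
    simpa using this
  set q : Polynomial ℤ := C (r : ℤ) + C (d : ℤ) * X with hq
  set g : Polynomial ℤ := f.comp q with hg
  have hgeval : ∀ y : ℤ, g.eval y = f.eval ((r : ℤ) + d * y) := by
    intro y
    rw [hg, eval_comp, hq]
    simp
  have hqdeg : q.natDegree = 1 := by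
    rw [hq, add_comm]
    exact natDegree_linear hd0
  have hqlc : q.leadingCoeff = d := by
    rw [hq, add_comm]
    exact leadingCoeff_linear hd0
  have hgdeg : g.natDegree = k := by
    rw [hg, natDegree_comp, hqdeg, hf.deg, mul_one]
  have hglc : g.leadingCoeff = f.leadingCoeff * (d : ℤ) ^ k := by
    rw [hg, leadingCoeff_comp (by omega), hqlc, hf.deg]
  -- `C d ∣ g`
  have hCd : C (d : ℤ) ∣ g := by
    obtain ⟨h, hh⟩ : X - C (r : ℤ) ∣ f - C (f.eval (r : ℤ)) := Polynomial.X_sub_C_dvd_sub_C_eval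
    have hf' : f = C (f.eval (r : ℤ)) + (X - C (r : ℤ)) * h := by
      rw [← hh]; ring
    have : g = C (f.eval (r : ℤ)) + C (d : ℤ) * (X * h.comp q) := by
      rw [hg]
      conv_lhs => rw [hf']
      rw [add_comp, mul_comp, sub_comp, X_comp, C_comp, C_comp, hq]
      ring
    rw [this]
    apply dvd_add
    · exact Polynomial.C_dvd_iff_dvd_coeff _ _ |>.mpr (fun i => by
        rw [coeff_C]
        split_ifs
        · exact hdr
        · exact dvd_zero _)
    · exact dvd_mul_right _ _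
  obtain ⟨f1, hf1⟩ := hCd
  have hf1eval : ∀ y : ℤ, (d : ℤ) * f1.eval y = f.eval ((r : ℤ) + d * y) := by
    intro y
    rw [← hgeval, hf1]
    simp
  have hf1deg : f1.natDegree = k := by
    rw [← hgdeg, hf1, natDegree_C_mul hd0]
  have hf1lc : f1.leadingCoeff * (d : ℤ) = f.leadingCoeff * (d : ℤ) ^ k := by
    rw [← hglc, hf1, leadingCoeff_mul, leadingCoeff_C]
    ring
  have hf1lc' : f1.leadingCoeff = f.leadingCoeff * (d : ℤ) ^ (k - 1) := by
    have : (d : ℤ) ^ k = (d : ℤ) ^ (k - 1) * d := by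
      rw [← pow_succ]
      congr 1
      omega
    rw [this, ← mul_assoc] at hf1lc
    exact mul_right_cancel₀ hd0 hf1lc
  -- the content of the nonconstant part
  obtain ⟨G, hG, v, hv⟩ := exists_bezout (Icc 1 k) f1.coeff
  have hf1k : f1.coeff k ≠ 0 := by
    have : f1.leadingCoeff ≠ 0 := by
      rw [hf1lc']
      exact mul_ne_zero hf.lc.ne' (pow_ne_zero _ hd0)
    rwa [leadingCoeff, hf1deg] at this
  have hG0 : G ≠ 0 := by
    intro h
    have := hG k (mem_Icc.mpr ⟨by omega, le_rfl⟩)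
    rw [h] at this
    simp only [Nat.cast_zero, zero_dvd_iff] at this
    exact hf1k this
  have hGz : (G : ℤ) ≠ 0 := by exact_mod_cast hG0
  have hGpos : 1 ≤ G := Nat.one_le_iff_ne_zero.mpr hG0
  -- every coefficient of index ≥ 1 is divisible by `G`
  have hGi : ∀ i, 1 ≤ i → (G : ℤ) ∣ f1.coeff i := by
    intro i hi
    by_cases hik : i ≤ k
    · exact hG i (mem_Icc.mpr ⟨hi, hik⟩)
    · rw [coeff_eq_zero_of_natDegree_lt (by omega)]
      exact dvd_zero _
  -- roots of `f1`
  have hroot : ∀ q' : ℕ, 1 ≤ q' → ∃ y : ℤ, (q' : ℤ) ∣ f1.eval y := by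
    intro q' hq'
    obtain ⟨n, hn, hnr⟩ := hr q' hq'
    refine ⟨n / d, ?_⟩
    have hn' : n = (r : ℤ) + d * (n / d) := by
      have := Int.emod_add_mul_ediv n d
      rw [hnr] at this
      exact this.symm
    have h2 := hf1eval (n / d)
    rw [← hn'] at h2
    rw [← h2] at hn
    exact (mul_dvd_mul_iff_left hd0).mp hn
  -- `G ∣ f1(0)`
  have hG0c : (G : ℤ) ∣ f1.coeff 0 := by
    obtain ⟨y, hy⟩ := hroot G hGpos
    have h1 : C (G : ℤ) ∣ f1 - C (f1.coeff 0) := by
      apply (Polynomial.C_dvd_iff_dvd_coeff _ _).mpr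
      intro i
      rw [coeff_sub, coeff_C]
      split_ifs with hi
      · subst hi; simp
      · simpa using hGi i (by omega)
    obtain ⟨p, hp⟩ := h1
    have h2 : f1.eval y - f1.coeff 0 = G * p.eval y := by
      have := congrArg (eval y) hp
      simpa using this
    have h3 : f1.coeff 0 = f1.eval y - G * p.eval y := by linarith
    rw [h3]
    exact dvd_sub hy (dvd_mul_right _ _)
  have hCG : C (G : ℤ) ∣ f1 := by
    apply (Polynomial.C_dvd_iff_dvd_coeff _ _).mpr
    intro i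
    by_cases hi : i = 0
    · subst hi; exact hG0c
    · exact hGi i (by omega)
  obtain ⟨f2, hf2⟩ := hCG
  have hf2coeff : ∀ i, f1.coeff i = G * f2.coeff i := by
    intro i
    rw [hf2, coeff_C_mul]
  have hf2eval : ∀ y : ℤ, f1.eval y = G * f2.eval y := by
    intro y
    rw [hf2]
    simp
  have hf2deg : f2.natDegree = k := by
    rw [← hf1deg, hf2, natDegree_C_mul hGz]
  have hf2lc : f2.leadingCoeff * G = f.leadingCoeff * (d : ℤ) ^ (k - 1) := by
    rw [← hf1lc', hf2, leadingCoeff_mul, leadingCoeff_C]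
    ring
  have hdpos : (0 : ℤ) < d := by
    have : 0 < d := by omega
    exact_mod_cast this
  have hGzpos : (0 : ℤ) < G := by
    have : 0 < G := by omega
    exact_mod_cast this
  have hf2lcpos : 0 < f2.leadingCoeff := by
    have : 0 < f2.leadingCoeff * (G : ℤ) := by
      rw [hf2lc]
      exact mul_pos hf.lc (pow_pos hdpos _)
    by_contra h
    push Not at h
    nlinarith
  refine ⟨f2, r, G, hGpos, ?_, ?_, ?_, hf2lc⟩
  · refine ⟨⟨hf2deg, hf2lcpos, ?_⟩, ?_⟩
    · intro q' hq'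
      obtain ⟨y, hy⟩ := hroot (G * q') (Nat.mul_pos (by omega) (by omega))
      refine ⟨y, ?_⟩
      rw [hf2eval] at hy
      push_cast at hy
      exact (mul_dvd_mul_iff_left hGz).mp hy
    · refine ⟨v, ?_⟩
      apply mul_left_cancel₀ hGz
      rw [Finset.mul_sum, mul_one]
      refine Eq.trans ?_ hv
      apply Finset.sum_congr rfl
      intro i _
      rw [hf2coeff]
      ring
  · intro i
    have hgc : g.coeff i = (d : ℤ) * G * f2.coeff i := by
      rw [hf1, coeff_C_mul, hf2coeff]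
      ring
    have h1 := coeff_comp_linear_le (k := k) (r := r) (d := d) hf.deg hrd hH i
    refine le_trans ?_ h1
    rw [← hq, ← hg, hgc]
    push_cast
    rw [abs_mul, abs_mul]
    have h3 : (1 : ℝ) ≤ |(d : ℝ)| := by
      rw [abs_of_nonneg (by positivity)]
      exact_mod_cast hd
    have h4 : (1 : ℝ) ≤ |(G : ℝ)| := by
      rw [abs_of_nonneg (by positivity)]
      exact_mod_cast hGpos
    have h5 : 0 ≤ |(f2.coeff i : ℝ)| := abs_nonneg _
    nlinarith [mul_nonneg (sub_nonneg.mpr h3) (sub_nonneg.mpr h4), mul_nonneg (sub_nonneg.mpr h4) h5,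
      mul_nonneg (sub_nonneg.mpr h3) h5,
      mul_nonneg (mul_nonneg (sub_nonneg.mpr h3) (sub_nonneg.mpr h4)) h5]
  · intro y
    rw [← hf1eval, hf2eval]
    ring

/-- Lemma T. From `f`-free `A` and a progression, a new `f2 ∈ F_k` and an `f2`-free set in `[1,m2]` of at least the density of `A` on the progression. -/
theorem transform {k : ℕ} (hk : 2 ≤ k) {f : Polynomial ℤ} (hf : ClassI k f) {H : ℝ}
    (hH : ∀ i, |(f.coeff i : ℝ)| ≤ H) {A : Finset ℤ} (hfree : Free f A) {d m : ℕ} {x0 : ℤ}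
    (hd : 1 ≤ d) (hm : f.leadingCoeff * (d : ℤ) ^ (k - 1) ≤ m) :
    ∃ (f2 : Polynomial ℤ) (m2 : ℕ) (A2 : Finset ℤ), ClassF k f2 ∧
      (∀ i, |(f2.coeff i : ℝ)| ≤ (k + 1) * 2 ^ k * H * (d : ℝ) ^ k) ∧
      A2 ⊆ Icc (1 : ℤ) m2 ∧ Free f2 A2 ∧ 1 ≤ m2 ∧
      (apCount A x0 d m : ℝ) * m2 ≤ A2.card * m ∧
      (m : ℝ) * (f2.leadingCoeff : ℝ) ≤ 2 * m2 * ((f.leadingCoeff : ℝ) * (d : ℝ) ^ (k - 1)) := by
  classical
  obtain ⟨f2, r, G, hGpos, hF, hhei, heval, hlc⟩ := exists_transformed hk hf hH hd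
  have hGz : (0 : ℤ) < G := by
    have : 0 < G := by omega
    exact_mod_cast this
  have ha2 : 0 < f2.leadingCoeff := hF.lc
  have hGm : G ≤ m := by
    have h1 : (G : ℤ) ≤ f2.leadingCoeff * G := by nlinarith
    have h2 : (G : ℤ) ≤ m := h1.trans (by rw [hlc]; exact hm)
    exact_mod_cast h2
  -- the classes modulo `G`
  set A' : Finset ℕ := (range m).filter (fun z : ℕ => x0 + (d : ℤ) * z ∈ A) with hA'
  have hcountA : apCount A x0 d m = A'.card := rfl
  set cls : ℕ → Finset ℕ := fun z0 => (range m).filter (fun z => z % G = z0) with hcls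
  set acl : ℕ → Finset ℕ := fun z0 => A'.filter (fun z => z % G = z0) with hacl
  have hsum1 : ∑ z0 ∈ range G, (cls z0).card = m := by
    have := Finset.card_eq_sum_card_fiberwise (s := range m) (t := range G) (f := fun z => z % G)
      (fun z _ => by
        simp only [coe_range, Set.mem_Iio]
        exact Nat.mod_lt _ (by omega))
    rw [card_range] at this
    exact this.symm
  have hsum2 : ∑ z0 ∈ range G, (acl z0).card = A'.card := by
    have := Finset.card_eq_sum_card_fiberwise (s := A') (t := range G) (f := fun z => z % G)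
      (fun z _ => by
        simp only [coe_range, Set.mem_Iio]
        exact Nat.mod_lt _ (by omega))
    exact this.symm
  -- mediant
  obtain ⟨z0, hz0, hmed⟩ : ∃ z0 ∈ range G, A'.card * (cls z0).card ≤ (acl z0).card * m := by
    by_contra hcon
    push Not at hcon
    have : ∑ z0 ∈ range G, (acl z0).card * m < ∑ z0 ∈ range G, A'.card * (cls z0).card :=
      Finset.sum_lt_sum_of_nonempty (by simp; omega) hcon
    rw [← Finset.sum_mul, hsum2, ← Finset.mul_sum, hsum1] at this
    exact lt_irrefl _ this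
  have hz0G : z0 < G := mem_range.mp hz0
  -- structure of the class
  have hmemcls : ∀ w : ℕ, z0 + G * w < m → w < (cls z0).card := by
    intro w hw
    have hinj : ((range (w + 1)).image (fun i => z0 + G * i)) ⊆ cls z0 := by
      intro z hz
      obtain ⟨i, hi, rfl⟩ := mem_image.mp hz
      have hi' : i ≤ w := by have := mem_range.mp hi; omega
      refine mem_filter.mpr ⟨mem_range.mpr ?_, ?_⟩
      · have : G * i ≤ G * w := Nat.mul_le_mul_left _ hi'
        omega
      · rw [Nat.add_mul_mod_self_left, Nat.mod_eq_of_lt hz0G]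
    have hcard := card_le_card hinj
    rw [card_image_of_injective, card_range] at hcard
    · omega
    · intro a b hab
      have : G * a = G * b := by simpa using hab
      exact Nat.eq_of_mul_eq_mul_left (by omega) this
  have hdecomp : ∀ z, z % G = z0 → z = z0 + G * (z / G) := by
    intro z hz
    have := Nat.mod_add_div z G
    rw [hz] at this
    exact this.symm
  have hm2pos : 1 ≤ (cls z0).card := by
    have := hmemcls 0 (by omega)
    omega
  have hm2large : m ≤ 2 * (cls z0).card * G := by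
    -- `m / G ≤ card`
    have hq1 : 1 ≤ m / G := Nat.div_pos hGm (by omega)
    have hq2 : m / G ≤ (cls z0).card := by
      have hpred : m / G - 1 < (cls z0).card := by
        apply hmemcls
        have h1 : G * (m / G - 1) + G = G * (m / G) := by
          have : m / G = (m / G - 1) + 1 := by omega
          calc G * (m / G - 1) + G = G * ((m / G - 1) + 1) := by ring
            _ = G * (m / G) := by rw [← this]
        have h2 : G * (m / G) ≤ m := Nat.mul_div_le m G
        omega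
      omega
    have h3 : m < G * (m / G + 1) := by
      have := Nat.lt_mul_div_succ m (show 0 < G by omega)
      simpa using this
    have h4 : G * (m / G + 1) ≤ G * (2 * (cls z0).card) := by
      apply Nat.mul_le_mul_left
      omega
    calc m ≤ G * (2 * (cls z0).card) := by omega
      _ = 2 * (cls z0).card * G := by ring
  set toW : ℕ → ℤ := fun z => ((z / G : ℕ) : ℤ) + 1 with htoW
  set A2 : Finset ℤ := (acl z0).image toW with hA2
  have hinjA : Set.InjOn toW (acl z0 : Set ℕ) := by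
    intro a ha b hb hab
    have ha' : a % G = z0 := (mem_filter.mp (mem_coe.mp ha)).2
    have hb' : b % G = z0 := (mem_filter.mp (mem_coe.mp hb)).2
    have h : a / G = b / G := by
      have : ((a / G : ℕ) : ℤ) + 1 = ((b / G : ℕ) : ℤ) + 1 := hab
      have : ((a / G : ℕ) : ℤ) = ((b / G : ℕ) : ℤ) := by linarith
      exact_mod_cast this
    rw [hdecomp a ha', hdecomp b hb', h]
  have hcardA2 : A2.card = (acl z0).card := card_image_of_injOn hinjA
  refine ⟨f2, (cls z0).card, A2, hF, hhei, ?_, ?_, hm2pos, ?_, ?_⟩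
  · intro w hw
    obtain ⟨z, hz, rfl⟩ := mem_image.mp hw
    obtain ⟨hz1, hz2⟩ := mem_filter.mp hz
    have hzm : z < m := mem_range.mp (mem_filter.mp hz1).1
    have h3 : z / G < (cls z0).card := by
      apply hmemcls
      rw [← hdecomp z hz2]
      exact hzm
    simp only [mem_Icc, htoW]
    constructor
    · have : (0 : ℤ) ≤ ((z / G : ℕ) : ℤ) := by positivity
      linarith
    · have : ((z / G : ℕ) : ℤ) < ((cls z0).card : ℤ) := by exact_mod_cast h3
      linarith
  · intro a ha b hb y hy hypos hab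
    obtain ⟨za, hza, rfl⟩ := mem_image.mp ha
    obtain ⟨zb, hzb, rfl⟩ := mem_image.mp hb
    obtain ⟨hza1, hza2⟩ := mem_filter.mp hza
    obtain ⟨hzb1, hzb2⟩ := mem_filter.mp hzb
    have hA1 : x0 + (d : ℤ) * za ∈ A := (mem_filter.mp hza1).2
    have hB1 : x0 + (d : ℤ) * zb ∈ A := (mem_filter.mp hzb1).2
    have hd0 : (0 : ℤ) < d := by
      have : 0 < d := by omega
      exact_mod_cast this
    have hval := heval (y : ℤ)
    have hpos : 0 < f.eval (((r + d * y : ℕ) : ℤ)) := by
      have : ((r + d * y : ℕ) : ℤ) = (r : ℤ) + d * y := by push_cast; ring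
      rw [this, ← hval]
      exact mul_pos (mul_pos hd0 hGz) hypos
    apply hfree _ hA1 _ hB1 (r + d * y) (by nlinarith) hpos
    have hcast : ((r + d * y : ℕ) : ℤ) = (r : ℤ) + d * y := by push_cast; ring
    rw [hcast, ← hval, ← hab]
    have hza3 : (za : ℤ) = z0 + G * ((za / G : ℕ) : ℤ) := by
      have := hdecomp za hza2
      exact_mod_cast this
    have hzb3 : (zb : ℤ) = z0 + G * ((zb / G : ℕ) : ℤ) := by
      have := hdecomp zb hzb2
      exact_mod_cast this
    simp only [htoW]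
    rw [hza3, hzb3]
    ring
  · rw [hcountA, hcardA2]
    exact_mod_cast hmed
  · have hlcR : (f2.leadingCoeff : ℝ) * G = (f.leadingCoeff : ℝ) * (d : ℝ) ^ (k - 1) := by
      exact_mod_cast hlc
    rw [← hlcR]
    have hmR : (m : ℝ) ≤ 2 * (cls z0).card * G := by exact_mod_cast hm2large
    have ha2R : (0 : ℝ) ≤ (f2.leadingCoeff : ℝ) := by exact_mod_cast ha2.le
    calc (m : ℝ) * (f2.leadingCoeff : ℝ) ≤ (2 * (cls z0).card * G) * (f2.leadingCoeff : ℝ) :=
          mul_le_mul_of_nonneg_right hmR ha2R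
      _ = _ := by ring

end Vale.Agent.Lib.P042
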