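import Vale.Agent.Lib.P042.Increment
import Vale.Agent.Lib.P042.Transform

/-! # P042: the iteration, blueprint Section 9 -/

namespace Vale.Agent.Lib.P042

open Finset

/-- Bookkeeping of one increment step. -/
lemma step_numeric {k : ℕ} {C C' U H a a2 N m m2 d s : ℝ} {H2 : ℝ} (K1 : ℝ) (hk : (1:ℝ) ≤ k)
    (hC : 1 ≤ C) (hU : 1 ≤ U) (hs : 0 ≤ s) (hK1 : 1 ≤ K1)
    (hC' : C * Real.log K1 + C ^ 2 * k + k * C + 1 ≤ C')
    (ha : 1 ≤ a) (ha2 : 1 ≤ a2) (hH : 1 ≤ H) (hd : 1 ≤ d) (hN : 0 < N) (hm : 0 < m) (hm2 : 0 < m2)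
    (hdexp : d ≤ Real.exp (C * U)) (hNm : N ≤ m * Real.exp (C * U))
    (hH2 : H2 = K1 * H * d ^ k)
    (hlead : m * a2 ≤ 2 * m2 * (a * d ^ (k - 1)))
    (hX : C * (Real.log H + U) + C' * (s + 1) * U ≤ Real.log (N / a)) :
    C * (Real.log H2 + U) + C' * s * U ≤ Real.log (m2 / a2) := by
  have hd0 : 0 < d := by linarith
  have ha0 : 0 < a := by linarith
  have ha20 : 0 < a2 := by linarith
  have hH0 : 0 < H := by linarith
  have hK0 : 0 < K1 := by linarith
  have hlogd : Real.log d ≤ C * U := by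
    have := Real.log_le_log hd0 hdexp
    rwa [Real.log_exp] at this
  have hlogd0 : 0 ≤ Real.log d := Real.log_nonneg hd
  have hlogH2 : Real.log H2 = Real.log K1 + Real.log H + k * Real.log d := by
    rw [hH2, Real.log_mul (by positivity) (by positivity), Real.log_mul hK0.ne' hH0.ne', Real.log_pow]
  have hlogm : Real.log N ≤ Real.log m + C * U := by
    have h1 := Real.log_le_log hN hNm
    rwa [Real.log_mul hm.ne' (Real.exp_pos _).ne', Real.log_exp] at h1
  have hkk : ((k - 1 : ℕ) : ℝ) ≤ k := by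
    have : k - 1 ≤ k := Nat.sub_le _ _
    exact_mod_cast this
  have hk1 : ((k - 1 : ℕ) : ℝ) = (k : ℝ) - 1 := by
    have : 1 ≤ k := by exact_mod_cast hk
    rw [Nat.cast_sub this]; simp
  have hlogm2 : Real.log m + Real.log a2 ≤ Real.log 2 + Real.log m2 + Real.log a + ((k : ℝ) - 1) * Real.log d := by
    have h1 : 0 < m * a2 := by positivity
    have h2 := Real.log_le_log h1 hlead
    rw [Real.log_mul hm.ne' ha20.ne', Real.log_mul (by positivity) (by positivity),
      Real.log_mul (by norm_num) hm2.ne', Real.log_mul ha0.ne' (by positivity), Real.log_pow, hk1] at h2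
    linarith
  have hl2 : Real.log 2 ≤ 1 := by have := Real.log_two_lt_d9; linarith
  rw [Real.log_div hm2.ne' ha20.ne']
  rw [Real.log_div hN.ne' ha0.ne'] at hX
  rw [hlogH2]
  have hC0 : 0 < C := by linarith
  have hkR : (0:ℝ) < k := by linarith
  have e1 : C * (k * Real.log d) ≤ C ^ 2 * k * U := by
    have : (k : ℝ) * Real.log d ≤ k * (C * U) := mul_le_mul_of_nonneg_left hlogd hkR.le
    have := mul_le_mul_of_nonneg_left this hC0.le
    calc _ ≤ C * ((k : ℝ) * (C * U)) := this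
      _ = _ := by ring
  have e2 : ((k : ℝ) - 1) * Real.log d ≤ ((k : ℝ) - 1) * (C * U) :=
    mul_le_mul_of_nonneg_left hlogd (by linarith)
  have e3 : C * Real.log K1 + C ^ 2 * k * U + k * C * U + Real.log 2 ≤ C' * U := by
    have hlK : 0 ≤ Real.log K1 := Real.log_nonneg hK1
    have h1 : (C * Real.log K1 + C ^ 2 * k + k * C + 1) * U ≤ C' * U :=
      mul_le_mul_of_nonneg_right hC' (by linarith)
    have h2 : C * Real.log K1 ≤ C * Real.log K1 * U := by
      have : 0 ≤ C * Real.log K1 := by positivity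
      nlinarith
    have e : (C * Real.log K1 + C ^ 2 * k + k * C + 1) * U =
        C * Real.log K1 * U + C ^ 2 * k * U + k * C * U + U := by ring
    linarith
  have e4 : C * (Real.log K1 + Real.log H + k * Real.log d + U) + C' * s * U =
      C * Real.log K1 + C * Real.log H + C * (k * Real.log d) + C * U + C' * s * U := by ring
  have e5 : C * (Real.log H + U) + C' * (s + 1) * U = C * Real.log H + C * U + C' * s * U + C' * U := by ring
  have e6 : ((k : ℝ) - 1) * (C * U) = k * C * U - C * U := by ring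
  rw [e4]
  rw [e5] at hX
  linarith

/-- ITERATION: no large `f`-free set once the scale is `exp(C log H + C' s u^E)`. -/
theorem no_set (k : ℕ) (hk : 2 ≤ k) : ∃ (C C' : ℝ) (E : ℕ), 1 ≤ C ∧ 1 ≤ C' ∧ 1 ≤ E ∧
    ∀ u : ℕ, 1 ≤ u → ∀ s : ℕ, ∀ f : Polynomial ℤ, ClassF k f → ∀ H : ℝ, (∀ i, |(f.coeff i : ℝ)| ≤ H) →
    ∀ (N : ℕ) (A : Finset ℤ), A ⊆ Icc (1 : ℤ) N → Free f A → ∀ δ : ℝ, δ = (A.card : ℝ) / N → 0 < δ →
    δ⁻¹ ≤ Real.exp u → 1 ≤ δ * (1 + 1 / 1024 : ℝ) ^ s →
    C * (Real.log H + (u : ℝ) ^ E) + C' * s * (u : ℝ) ^ E ≤ Real.log ((N : ℝ) / (f.leadingCoeff : ℝ)) →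
    False := by
  obtain ⟨C, E, hC, hE, hDI⟩ := density_increment k hk
  have hk1 : 1 ≤ k := by omega
  have hkR : (1 : ℝ) ≤ k := by exact_mod_cast hk1
  set K1 : ℝ := (k + 1) * 2 ^ k with hK1def
  have hK1 : 1 ≤ K1 := by
    have h2 : (1 : ℝ) ≤ 2 ^ k := one_le_pow₀ (by norm_num)
    rw [hK1def]; nlinarith
  have hlK : 0 ≤ Real.log K1 := Real.log_nonneg hK1
  set C' : ℝ := C * Real.log K1 + C ^ 2 * k + k * C + 1 with hC'def
  have hC'1 : 1 ≤ C' := by
    have : 0 ≤ C * Real.log K1 := by positivity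
    have : 0 ≤ C ^ 2 * k := by positivity
    have : 0 ≤ (k : ℝ) * C := by positivity
    rw [hC'def]; linarith
  refine ⟨C, C', E, hC, hC'1, hE, ?_⟩
  intro u hu s
  induction s with
  | zero =>
    intro f hf H hH N A hA hfree δ hδ hδ0 hδu hone hX
    simp only [pow_zero, mul_one, Nat.cast_zero, mul_zero, zero_mul, add_zero] at hone hX
    obtain ⟨d, m, x0, _, _, _, _, hcount⟩ := hDI f hf H hH N A hA hfree δ hδ hδ0 u hu hδu hX
    have hle : (apCount A x0 d m : ℝ) ≤ m := by
      unfold apCount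
      exact_mod_cast (card_filter_le _ _).trans (by simp)
    have hm0 : (0 : ℝ) ≤ m := Nat.cast_nonneg _
    nlinarith
  | succ s ih =>
    intro f hf H hH N A hA hfree δ hδ hδ0 hδu hone hX
    have huR : (1 : ℝ) ≤ u := by exact_mod_cast hu
    set U : ℝ := (u : ℝ) ^ E with hU
    have hU1 : 1 ≤ U := one_le_pow₀ huR
    have hs0 : (0 : ℝ) ≤ s := Nat.cast_nonneg _
    have hNpos : 0 < N := by
      rcases Nat.eq_zero_or_pos N with h | h
      · exfalso; rw [hδ, h] at hδ0; simp at hδ0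
      · exact h
    have hNR : (0 : ℝ) < N := by exact_mod_cast hNpos
    have ha : (1 : ℤ) ≤ f.leadingCoeff := hf.lc
    have haR : (1 : ℝ) ≤ (f.leadingCoeff : ℝ) := by exact_mod_cast ha
    have hH1 : 1 ≤ H := by
      have h := hH k
      have e : f.coeff k = f.leadingCoeff := by
        rw [Polynomial.leadingCoeff, hf.deg]
      rw [e] at h
      have : |(f.leadingCoeff : ℝ)| = (f.leadingCoeff : ℝ) := abs_of_pos (by linarith)
      rw [this] at h
      linarith
    have hlogH : 0 ≤ Real.log H := Real.log_nonneg hH1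
    have hcast : ((s + 1 : ℕ) : ℝ) = (s : ℝ) + 1 := by push_cast; ring
    rw [hcast] at hX
    have hX0 : C * (Real.log H + U) ≤ Real.log ((N : ℝ) / (f.leadingCoeff : ℝ)) := by
      have : 0 ≤ C' * ((s : ℝ) + 1) * U := by positivity
      linarith
    obtain ⟨d, m, x0, hd1, hdexp, hNm, hbox, hcount⟩ := hDI f hf H hH N A hA hfree δ hδ hδ0 u hu hδu hX0
    have hle : (apCount A x0 d m : ℝ) ≤ m := by
      unfold apCount
      exact_mod_cast (card_filter_le _ _).trans (by simp)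
    have hmpos : 0 < m := by
      rcases Nat.eq_zero_or_pos m with h | h
      · exfalso
        rw [h] at hcount hle
        simp only [Nat.cast_zero, mul_zero] at hcount hle
        linarith
      · exact h
    have hmR : (0 : ℝ) < m := by exact_mod_cast hmpos
    have hdR : (1 : ℝ) ≤ d := by exact_mod_cast hd1
    have hdk : (d : ℝ) ^ (k - 1) ≤ Real.exp (C * U) ^ (k - 1) :=
      pow_le_pow_left₀ (by linarith) hdexp _
    -- a d^(k-1) ≤ m
    have hlarge : (f.leadingCoeff : ℝ) * (d : ℝ) ^ (k - 1) ≤ m := by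
      have hkC : (k : ℝ) * (C * U) ≤ Real.log ((N : ℝ) / (f.leadingCoeff : ℝ)) := by
        have h1 : (k : ℝ) * C ≤ C' := by
          have : 0 ≤ C * Real.log K1 := by positivity
          have : 0 ≤ C ^ 2 * k := by positivity
          rw [hC'def]; linarith
        have h2 : (k : ℝ) * C * U ≤ C' * ((s : ℝ) + 1) * U := by
          apply mul_le_mul_of_nonneg_right _ (by linarith)
          nlinarith
        have h3 : 0 ≤ C * (Real.log H + U) := by
          have : 0 ≤ Real.log H + U := by linarith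
          positivity
        have e : (k : ℝ) * (C * U) = (k : ℝ) * C * U := by ring
        linarith
      have h1 : Real.exp ((k : ℝ) * (C * U)) ≤ (N : ℝ) / (f.leadingCoeff : ℝ) :=
        (Real.le_log_iff_exp_le (by positivity)).mp hkC
      rw [le_div_iff₀ (by linarith)] at h1
      have h2 : Real.exp ((k : ℝ) * (C * U)) = Real.exp (C * U) ^ (k - 1) * Real.exp (C * U) := by
        rw [← Real.exp_nat_mul, ← Real.exp_add]
        congr 1
        have : ((k - 1 : ℕ) : ℝ) = (k : ℝ) - 1 := by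
          rw [Nat.cast_sub hk1]; simp
        rw [this]; ring
      have hexp0 : 0 < Real.exp (C * U) := Real.exp_pos _
      have h3 : Real.exp (C * U) ^ (k - 1) * (f.leadingCoeff : ℝ) * Real.exp (C * U) ≤ m * Real.exp (C * U) := by
        calc _ = Real.exp ((k : ℝ) * (C * U)) * (f.leadingCoeff : ℝ) := by rw [h2]; ring
          _ ≤ N := h1
          _ ≤ _ := hNm
      have h4 : Real.exp (C * U) ^ (k - 1) * (f.leadingCoeff : ℝ) ≤ m :=
        le_of_mul_le_mul_right h3 hexp0
      calc (f.leadingCoeff : ℝ) * (d : ℝ) ^ (k - 1) ≤ (f.leadingCoeff : ℝ) * Real.exp (C * U) ^ (k - 1) :=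
            mul_le_mul_of_nonneg_left hdk (by linarith)
        _ ≤ m := by linarith
    have hlargeZ : f.leadingCoeff * (d : ℤ) ^ (k - 1) ≤ m := by exact_mod_cast hlarge
    obtain ⟨f2, m2, A2, hf2, hH2, hA2, hfree2, hm2, hdens, hlead⟩ :=
      transform (x0 := x0) hk hf.toClassI hH hfree hd1 hlargeZ
    have hm2R : (0 : ℝ) < m2 := by exact_mod_cast hm2
    set δ2 : ℝ := (A2.card : ℝ) / m2 with hδ2def
    have hδ2 : (apCount A x0 d m : ℝ) / m ≤ δ2 := by
      rw [hδ2def, div_le_div_iff₀ hmR hm2R]; linarith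
    have hδ3 : (1 + 1 / 1024 : ℝ) * δ < δ2 := by
      refine lt_of_lt_of_le ?_ hδ2
      rw [lt_div_iff₀ hmR]; exact hcount
    have hδ2pos : 0 < δ2 := lt_trans (by positivity) hδ3
    have hδ2δ : δ ≤ δ2 := by
      have : δ ≤ (1 + 1 / 1024 : ℝ) * δ := by linarith
      linarith
    have hf2lc : (1 : ℝ) ≤ (f2.leadingCoeff : ℝ) := by
      have : (1 : ℤ) ≤ f2.leadingCoeff := hf2.lc
      exact_mod_cast this
    have hstep := step_numeric (k := k) (C := C) (C' := C') (U := U) (H := H)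
      (a := (f.leadingCoeff : ℝ)) (a2 := (f2.leadingCoeff : ℝ)) (N := N) (m := m) (m2 := m2) (d := d)
      (s := s) (H2 := K1 * H * (d : ℝ) ^ k) K1 hkR hC hU1 hs0 hK1 le_rfl haR hf2lc hH1 hdR hNR hmR hm2R
      hdexp hNm rfl hlead hX
    refine ih f2 hf2 (K1 * H * (d : ℝ) ^ k) (fun i => by simpa [hK1def] using hH2 i) m2 A2 hA2 hfree2 δ2 rfl hδ2pos ?_ ?_ hstep
    · refine le_trans ?_ hδu
      exact inv_anti₀ hδ0 hδ2δ
    · have e : δ * (1 + 1 / 1024 : ℝ) ^ (s + 1) = ((1 + 1 / 1024 : ℝ) * δ) * (1 + 1 / 1024 : ℝ) ^ s := by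
        rw [pow_succ]; ring
      rw [e] at hone
      have h0 : (0 : ℝ) ≤ (1 + 1 / 1024 : ℝ) ^ s := by positivity
      have := mul_le_mul_of_nonneg_right hδ3.le h0
      linarith

end Vale.Agent.Lib.P042
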