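import Vale.Agent.Lib.P042.LevelCore
import Vale.Agent.Lib.P042.Bessel

/-! # P042 TASK L: the level lemma and the Bessel step, blueprint Section 6 -/

namespace Vale.Agent.Lib.P042

open Finset

variable {n : ℕ} {G : Fin n → Type} [∀ i, Fintype (G i)] [∀ i, DecidableEq (G i)] [∀ i, Nonempty (G i)]
  {α : Type}

/-- BESSEL: the Fourier coefficients of `X` at characters of exact support `S` are controlled by `h_S`. -/
theorem bessel_level {m : Fin n → ℕ} [∀ i, NeZero (m i)] (π : α → ∀ i, ZMod (m i)) (X : Finset α)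
    (ν : ℝ) (hν : 0 < ν) (S : Finset (Fin n)) :
    ∑ b ∈ (univ : Finset (∀ i, ZMod (m i))).filter (fun b => univ.filter (fun i => b i ≠ 0) = S),
        ‖(ν⁻¹ : ℂ) * ∑ x ∈ X, psi m b (π x)‖ ^ 2 ≤
      Ex (G := fun i => ZMod (m i)) (fun w => hoef (G := fun i => ZMod (m i)) π X ν S w ^ 2) :=
  bessel_level' π X ν S

end Vale.Agent.Lib.P042
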