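import Vale.Agent.Lib.P042.Chaos

/-! # P042 TASK L1: the level lemma (core), blueprint Section 6 -/

set_option linter.unusedSectionVars false

namespace Vale.Agent.Lib.P042

open Finset

variable {n : ℕ} {G : Fin n → Type} [∀ i, Fintype (G i)] [∀ i, DecidableEq (G i)] [∀ i, Nonempty (G i)]
  {α : Type}

/-! ### Expectation -/

omit [∀ i, DecidableEq (G i)] in
lemma lc_card_Om_pos : (0 : ℝ) < (Fintype.card (Om G) : ℝ) := by
  exact_mod_cast Fintype.card_pos

omit [∀ i, DecidableEq (G i)] in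
lemma lc_card_G_pos (i : Fin n) : (0 : ℝ) < (Fintype.card (G i) : ℝ) := by
  exact_mod_cast Fintype.card_pos

lemma Ex_add' (F F' : Om G → ℝ) : Ex (fun w => F w + F' w) = Ex F + Ex F' := by
  simp [Ex, Finset.sum_add_distrib, add_div]

lemma Ex_sum' {ι : Type} (s : Finset ι) (F : ι → Om G → ℝ) :
    Ex (fun w => ∑ i ∈ s, F i w) = ∑ i ∈ s, Ex (F i) := by
  simp only [Ex]; rw [Finset.sum_comm, Finset.sum_div]

lemma Ex_const_mul' (c : ℝ) (F : Om G → ℝ) : Ex (fun w => c * F w) = c * Ex F := by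
  simp [Ex, ← Finset.mul_sum, mul_div_assoc]

lemma Ex_mono' {F F' : Om G → ℝ} (h : ∀ w, F w ≤ F' w) : Ex F ≤ Ex F' := by
  have := lc_card_Om_pos (G := G)
  exact div_le_div_of_nonneg_right (sum_le_sum fun w _ => h w) this.le

lemma Ex_nonneg' {F : Om G → ℝ} (h : ∀ w, 0 ≤ F w) : 0 ≤ Ex F := by
  have := lc_card_Om_pos (G := G)
  exact div_nonneg (sum_nonneg fun w _ => h w) this.le

lemma Ex_const' (c : ℝ) : Ex (fun _ : Om G => c) = c := by
  have := lc_card_Om_pos (G := G)
  simp only [Ex, sum_const, card_univ, nsmul_eq_mul]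
  field_simp

/-- If a function has mean zero in the coordinate `i`, its total sum vanishes. -/
lemma sum_eq_zero_of_update {i : Fin n} {F : Om G → ℝ}
    (h : ∀ w, ∑ c : G i, F (Function.update w i c) = 0) : ∑ w, F w = 0 := by
  classical
  rw [← Equiv.sum_comp (Equiv.piSplitAt i G).symm F, Fintype.sum_prod_type]
  rw [Finset.sum_comm]
  refine Finset.sum_eq_zero fun r _ => ?_
  obtain ⟨c0⟩ := ‹∀ i, Nonempty (G i)› i
  rw [← h ((Equiv.piSplitAt i G).symm (c0, r))]
  refine Finset.sum_congr rfl fun c _ => ?_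
  congr 1
  funext j
  by_cases hj : j = i
  · subst hj; simp [Equiv.piSplitAt]
  · simp [Equiv.piSplitAt, hj, Function.update]

/-- The number of points agreeing with `y` on `U`. -/
lemma card_agree (U : Finset (Fin n)) (y : Om G) :
    (((univ : Finset (Om G)).filter (fun w => ∀ i ∈ U, y i = w i)).card : ℝ) * cardU G U
      = (Fintype.card (Om G) : ℝ) := by
  classical
  have h1 : (univ : Finset (Om G)).filter (fun w => ∀ i ∈ U, y i = w i)
      = Fintype.piFinset (fun i => if i ∈ U then {y i} else (univ : Finset (G i))) := by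
    ext w
    simp only [mem_filter, mem_univ, true_and, Fintype.mem_piFinset]
    constructor
    · intro h i
      by_cases hi : i ∈ U
      · simp [hi, h i hi]
      · simp [hi]
    · intro h i hi
      have := h i
      simp only [hi, if_true, mem_singleton] at this
      exact this.symm
  rw [h1, Fintype.card_piFinset, Fintype.card_pi, cardU]
  push_cast
  rw [← Finset.prod_filter_mul_prod_filter_not univ (fun i => i ∈ U)]
  have h2 : ∏ i ∈ U, (Fintype.card (G i) : ℝ) =
      ∏ i ∈ univ.filter (fun i => i ∈ U), (Fintype.card (G i) : ℝ) := by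
    simp
  rw [h2]
  have h3 : ∏ i ∈ univ.filter (fun i => i ∈ U),
      (((if i ∈ U then {y i} else (univ : Finset (G i))) : Finset (G i)).card : ℝ) = 1 := by
    refine Finset.prod_eq_one fun i hi => ?_
    have : i ∈ U := by simpa using hi
    simp [this]
  have h4 : ∏ i ∈ univ.filter (fun i => ¬ i ∈ U),
      (((if i ∈ U then {y i} else (univ : Finset (G i))) : Finset (G i)).card : ℝ) =
      ∏ i ∈ univ.filter (fun i => ¬ i ∈ U), (Fintype.card (G i) : ℝ) := by
    refine Finset.prod_congr rfl fun i hi => ?_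
    have : i ∉ U := by simpa using hi
    simp [this]
  rw [h3, h4, one_mul, mul_comm, Finset.prod_filter_mul_prod_filter_not]

omit [∀ i, Nonempty (G i)] in
lemma cnt_eq_sum (π : α → Om G) (Y : Finset α) (U : Finset (Fin n)) (w : Om G) :
    cnt π Y U w = ∑ x ∈ Y, if (∀ i ∈ U, π x i = w i) then (1 : ℝ) else 0 := by
  unfold cnt
  rw [Finset.card_filter]
  push_cast
  rfl

/-- The transfer identity. -/
theorem transfer_id (π : α → Om G) (Y : Finset α) (U : Finset (Fin n)) (F : Om G → ℝ)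
    (hF : ∀ w w', (∀ i ∈ U, w i = w' i) → F w = F w') :
    Ex (fun w => cardU G U * cnt π Y U w * F w) = ∑ x ∈ Y, F (π x) := by
  classical
  have hc := lc_card_Om_pos (G := G)
  have key : ∀ x ∈ Y, ∑ w : Om G, (cardU G U * (if (∀ i ∈ U, π x i = w i) then (1 : ℝ) else 0) * F w)
      = (Fintype.card (Om G) : ℝ) * F (π x) := by
    intro x _
    have h1 : ∀ w : Om G, cardU G U * (if (∀ i ∈ U, π x i = w i) then (1 : ℝ) else 0) * F w
        = cardU G U * F (π x) * (if (∀ i ∈ U, π x i = w i) then (1 : ℝ) else 0) := by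
      intro w
      by_cases hw : ∀ i ∈ U, π x i = w i
      · rw [if_pos hw, hF _ _ hw]; ring
      · simp [hw]
    rw [Finset.sum_congr rfl (fun w _ => h1 w), ← Finset.mul_sum, ← card_agree U (π x)]
    have h2 : ∑ w : Om G, (if (∀ i ∈ U, π x i = w i) then (1 : ℝ) else 0)
        = (((univ : Finset (Om G)).filter (fun w => ∀ i ∈ U, π x i = w i)).card : ℝ) := by
      rw [Finset.card_filter]
      push_cast
      rfl
    rw [h2]; ring
  simp only [Ex]
  rw [div_eq_iff hc.ne']
  calc ∑ w : Om G, cardU G U * cnt π Y U w * F w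
      = ∑ w : Om G, ∑ x ∈ Y, cardU G U * (if (∀ i ∈ U, π x i = w i) then (1 : ℝ) else 0) * F w := by
        refine Finset.sum_congr rfl fun w _ => ?_
        rw [cnt_eq_sum, Finset.mul_sum, Finset.sum_mul]
    _ = ∑ x ∈ Y, ∑ w : Om G, cardU G U * (if (∀ i ∈ U, π x i = w i) then (1 : ℝ) else 0) * F w :=
        Finset.sum_comm
    _ = ∑ x ∈ Y, (Fintype.card (Om G) : ℝ) * F (π x) := Finset.sum_congr rfl key
    _ = (∑ x ∈ Y, F (π x)) * (Fintype.card (Om G) : ℝ) := by
        rw [← Finset.mul_sum]; ring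

omit [∀ i, DecidableEq (G i)] [∀ i, Nonempty (G i)] in
lemma cardU_pos' [∀ i, Nonempty (G i)] (U : Finset (Fin n)) : 0 < cardU G U :=
  Finset.prod_pos fun i _ => lc_card_G_pos i

omit [∀ i, DecidableEq (G i)] [∀ i, Nonempty (G i)] in
lemma cardU_union {Z U : Finset (Fin n)} (h : Disjoint Z U) : cardU G (Z ∪ U) = cardU G Z * cardU G U := by
  simp [cardU, Finset.prod_union h]

omit [∀ i, Nonempty (G i)] in
lemma rr_congr (π : α → Om G) (X : Finset α) (ν : ℝ) (S : Finset (Fin n)) {w w' : Om G}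
    (h : ∀ i ∈ S, w i = w' i) : rr π X ν S w = rr π X ν S w' := by
  have : X.filter (fun x => ∀ i ∈ S, π x i = w i) = X.filter (fun x => ∀ i ∈ S, π x i = w' i) := by
    refine Finset.filter_congr fun x _ => ?_
    constructor
    · intro hx i hi; rw [hx i hi, h i hi]
    · intro hx i hi; rw [hx i hi, h i hi]
  unfold rr cnt
  rw [this]

omit [∀ i, Nonempty (G i)] in
lemma rr_nonneg (π : α → Om G) (X : Finset α) {ν : ℝ} (hν : 0 < ν) (S : Finset (Fin n)) (w : Om G) :
    0 ≤ rr π X ν S w := by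
  unfold rr cnt cardU
  positivity

omit [∀ i, Nonempty (G i)] in
lemma hoef_congr (π : α → Om G) (X : Finset α) (ν : ℝ) (S : Finset (Fin n)) {w w' : Om G}
    (h : ∀ i ∈ S, w i = w' i) : hoef π X ν S w = hoef π X ν S w' := by
  unfold hoef
  refine Finset.sum_congr rfl fun R hR => ?_
  rw [rr_congr π X ν R (fun i hi => h i (Finset.mem_powerset.mp hR hi))]

omit [∀ i, Nonempty (G i)] in
/-- Averaging `r_{R ∪ i}` in the coordinate `i` gives `r_R`. -/
lemma sum_rr_insert (π : α → Om G) (X : Finset α) (ν : ℝ) {R : Finset (Fin n)} {i : Fin n} (hi : i ∉ R)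
    (w : Om G) :
    ∑ c : G i, rr π X ν (insert i R) (Function.update w i c) =
      (Fintype.card (G i) : ℝ) * rr π X ν R w := by
  classical
  have h1 : ∀ c : G i, cnt π X (insert i R) (Function.update w i c) =
      ∑ x ∈ X.filter (fun x => ∀ j ∈ R, π x j = w j), if π x i = c then (1 : ℝ) else 0 := by
    intro c
    unfold cnt
    rw [← Finset.sum_filter, Finset.filter_filter]
    simp only [Finset.sum_const, nsmul_eq_mul, mul_one]
    congr 2
    refine Finset.filter_congr fun x _ => ?_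
    simp only [Finset.forall_mem_insert, Function.update_self]
    constructor
    · rintro ⟨h1, h2⟩
      refine ⟨fun j hj => ?_, h1⟩
      have := h2 j hj
      rwa [Function.update_of_ne (by rintro rfl; exact hi hj)] at this
    · rintro ⟨h1, h2⟩
      refine ⟨h2, fun j hj => ?_⟩
      rw [Function.update_of_ne (by rintro rfl; exact hi hj)]
      exact h1 j hj
  have h2 : ∑ c : G i, cnt π X (insert i R) (Function.update w i c) = cnt π X R w := by
    simp only [h1]
    rw [Finset.sum_comm]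
    have : ∀ x ∈ X.filter (fun x => ∀ j ∈ R, π x j = w j),
        ∑ c : G i, (if π x i = c then (1 : ℝ) else 0) = 1 := by
      intro x _
      simp
    rw [Finset.sum_congr rfl this]
    simp [cnt]
  unfold rr
  rw [← Finset.sum_div, ← Finset.mul_sum, h2]
  have : cardU G (insert i R) = (Fintype.card (G i) : ℝ) * cardU G R := by
    simp [cardU, Finset.prod_insert hi]
  rw [this]
  ring

omit [∀ i, Nonempty (G i)] in
/-- `h_S` has mean zero in every coordinate of `S`. -/
lemma hoef_mean (π : α → Om G) (X : Finset α) (ν : ℝ) {S : Finset (Fin n)} {i : Fin n} (hi : i ∈ S)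
    (w : Om G) : ∑ c : G i, hoef π X ν S (Function.update w i c) = 0 := by
  classical
  unfold hoef
  rw [Finset.sum_comm]
  have hS : S = insert i (S.erase i) := (Finset.insert_erase hi).symm
  have hne : i ∉ S.erase i := Finset.notMem_erase i S
  have hcS : S.card = (S.erase i).card + 1 := by
    rw [Finset.card_erase_of_mem hi]
    have := Finset.card_pos.mpr ⟨i, hi⟩
    omega
  conv_lhs => rw [hS]
  rw [Finset.sum_powerset_insert hne, ← hS]
  rw [← Finset.sum_add_distrib]
  refine Finset.sum_eq_zero fun R hR => ?_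
  have hRS : R ⊆ S.erase i := Finset.mem_powerset.mp hR
  have hiR : i ∉ R := fun h => hne (hRS h)
  have hcR : R.card ≤ (S.erase i).card := Finset.card_le_card hRS
  rw [← Finset.mul_sum, ← Finset.mul_sum, sum_rr_insert π X ν hiR w]
  have h1 : ∑ c : G i, rr π X ν R (Function.update w i c) =
      (Fintype.card (G i) : ℝ) * rr π X ν R w := by
    have : ∀ c : G i, rr π X ν R (Function.update w i c) = rr π X ν R w := by
      intro c
      refine rr_congr π X ν R fun j hj => ?_
      rw [Function.update_of_ne (by rintro rfl; exact hiR hj)]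
    simp [this]
  rw [h1, Finset.card_insert_of_notMem hiR]
  have h2 : S.card - R.card = (S.card - (R.card + 1)) + 1 := by omega
  rw [h2, pow_succ]
  ring

/-! ### Orthogonality -/

lemma Ex_rr_mul_hoef (π : α → Om G) (X : Finset α) (ν : ℝ) {R S : Finset (Fin n)} (hRS : R ⊆ S)
    (hne : R ≠ S) : Ex (fun w => rr π X ν R w * hoef π X ν S w) = 0 := by
  classical
  obtain ⟨i, hiS, hiR⟩ : ∃ i ∈ S, i ∉ R := by
    by_contra hcon
    push Not at hcon
    exact hne (Finset.Subset.antisymm hRS hcon)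
  have hz : ∑ w : Om G, rr π X ν R w * hoef π X ν S w = 0 := by
    refine sum_eq_zero_of_update (i := i) fun w => ?_
    have h1 : ∀ c : G i, rr π X ν R (Function.update w i c) = rr π X ν R w := by
      intro c
      refine rr_congr π X ν R fun j hj => ?_
      rw [Function.update_of_ne (by rintro rfl; exact hiR hj)]
    simp only [h1]
    rw [← Finset.mul_sum, hoef_mean π X ν hiS w, mul_zero]
  simp [Ex, hz]

/-- `E h_S^2 = (1/ν) ∑_{x ∈ X} h_S(π x)`. -/
theorem Ex_hoef_sq (π : α → Om G) (X : Finset α) {ν : ℝ} (hν : ν ≠ 0) (S : Finset (Fin n)) :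
    Ex (fun w => hoef π X ν S w ^ 2) = ν⁻¹ * ∑ x ∈ X, hoef π X ν S (π x) := by
  classical
  have h1 : (fun w => hoef π X ν S w ^ 2) = fun w => ∑ R ∈ S.powerset,
      (-1 : ℝ) ^ (S.card - R.card) * (rr π X ν R w * hoef π X ν S w) := by
    funext w
    have h0 : hoef π X ν S w = ∑ R ∈ S.powerset, (-1 : ℝ) ^ (S.card - R.card) * rr π X ν R w := rfl
    calc hoef π X ν S w ^ 2 = hoef π X ν S w * hoef π X ν S w := sq _
      _ = (∑ R ∈ S.powerset, (-1 : ℝ) ^ (S.card - R.card) * rr π X ν R w) * hoef π X ν S w := by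
          rw [← h0]
      _ = _ := by
          rw [Finset.sum_mul]
          refine Finset.sum_congr rfl fun R _ => ?_
          ring
  rw [h1, Ex_sum']
  simp_rw [Ex_const_mul']
  rw [Finset.sum_eq_single S]
  · simp only [Nat.sub_self, pow_zero, one_mul]
    rw [← transfer_id π X S (hoef π X ν S) (fun w w' h => hoef_congr π X ν S h), ← Ex_const_mul']
    congr 1
    funext w
    unfold rr
    field_simp
  · intro R hR hne
    rw [Ex_rr_mul_hoef π X ν (Finset.mem_powerset.mp hR) hne, mul_zero]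
  · intro h
    exact absurd (Finset.mem_powerset.mpr (Finset.Subset.refl S)) h

/-! ### Sub-systems -/

/-- The fibre of a set over `y` on the coordinates `Z`. -/
def subF (π : α → Om G) (Y : Finset α) (Z : Finset (Fin n)) (y : Om G) : Finset α :=
  Y.filter (fun x => ∀ i ∈ Z, π x i = y i)

lemma subF_subset (π : α → Om G) (Y : Finset α) (Z : Finset (Fin n)) (y : Om G) : subF π Y Z y ⊆ Y :=
  Finset.filter_subset _ _

lemma cnt_subF (π : α → Om G) (Y : Finset α) {Z U : Finset (Fin n)} (hd : Disjoint Z U) (y w : Om G) :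
    cnt π (subF π Y Z y) U w = cnt π Y (Z ∪ U) (merge Z y w) := by
  classical
  unfold cnt subF
  rw [Finset.filter_filter]
  congr 2
  refine Finset.filter_congr fun x _ => ?_
  constructor
  · rintro ⟨h1, h2⟩ i hi
    rcases Finset.mem_union.mp hi with hi | hi
    · simp [merge, hi, h1 i hi]
    · have : i ∉ Z := fun h => Finset.disjoint_left.mp hd h hi
      simp [merge, this, h2 i hi]
  · intro h
    refine ⟨fun i hi => ?_, fun i hi => ?_⟩
    · have := h i (Finset.mem_union_left _ hi)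
      simpa [merge, hi] using this
    · have hz : i ∉ Z := fun h => Finset.disjoint_left.mp hd h hi
      have := h i (Finset.mem_union_right _ hi)
      simpa [merge, hz] using this

lemma rr_subF (π : α → Om G) (X : Finset α) {ν : ℝ} {Z U : Finset (Fin n)} (hd : Disjoint Z U)
    (y w : Om G) :
    rr π (subF π X Z y) (ν / cardU G Z) U w = rr π X ν (Z ∪ U) (merge Z y w) := by
  unfold rr
  rw [cnt_subF π X hd, cardU_union hd]
  have := cardU_pos' (G := G) Z
  by_cases hν : ν = 0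
  · simp [hν]
  · field_simp

lemma hoef_merge (π : α → Om G) (X : Finset α) {ν : ℝ} {T S : Finset (Fin n)} (hTS : T ⊆ S)
    (y w : Om G) :
    hoef π X ν S (merge T y w) = ∑ Z ∈ T.powerset, (-1 : ℝ) ^ (T.card - Z.card) *
      hoef π (subF π X Z y) (ν / cardU G Z) (S \ T) w := by
  classical
  unfold hoef
  simp_rw [Finset.mul_sum]
  rw [← Finset.sum_product' T.powerset (S \ T).powerset (fun Z R' => (-1 : ℝ) ^ (T.card - Z.card) *
    ((-1 : ℝ) ^ ((S \ T).card - R'.card) * rr π (subF π X Z y) (ν / cardU G Z) R' w))]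
  refine Finset.sum_nbij' (fun R => (R ∩ T, R \ T)) (fun p => p.1 ∪ p.2) ?_ ?_ ?_ ?_ ?_
  · intro R hR
    have hR' := Finset.mem_powerset.mp hR
    simp only [Finset.mem_product, Finset.mem_powerset]
    exact ⟨Finset.inter_subset_right, Finset.sdiff_subset_sdiff hR' (Finset.Subset.refl _)⟩
  · rintro ⟨Z, R'⟩ hp
    simp only [Finset.mem_product, Finset.mem_powerset] at hp
    simp only [Finset.mem_powerset]
    exact Finset.union_subset (hp.1.trans hTS) (hp.2.trans Finset.sdiff_subset)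
  · intro R _
    ext i
    simp only [Finset.mem_union, Finset.mem_inter, Finset.mem_sdiff]
    tauto
  · rintro ⟨Z, R'⟩ hp
    simp only [Finset.mem_product, Finset.mem_powerset] at hp
    have h1 : ∀ i ∈ R', i ∉ T := fun i hi => (Finset.mem_sdiff.mp (hp.2 hi)).2
    ext i
    · simp only [Finset.mem_union, Finset.mem_inter]
      constructor
      · rintro ⟨h | h, h'⟩
        · exact h
        · exact absurd h' (h1 i h)
      · intro h; exact ⟨Or.inl h, hp.1 h⟩
    · simp only [Finset.mem_sdiff, Finset.mem_union]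
      constructor
      · rintro ⟨h | h, h'⟩
        · exact absurd (hp.1 h) h'
        · exact h
      · intro h; exact ⟨Or.inr h, h1 i h⟩
  · intro R hR
    have hR' := Finset.mem_powerset.mp hR
    have hd : Disjoint (R ∩ T) (R \ T) := by
      rw [Finset.disjoint_left]
      intro i h1 h2
      exact (Finset.mem_sdiff.mp h2).2 (Finset.mem_inter.mp h1).2
    have hU : R ∩ T ∪ R \ T = R := by
      ext i
      simp only [Finset.mem_union, Finset.mem_inter, Finset.mem_sdiff]
      tauto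
    simp only
    rw [rr_subF π X hd, hU]
    have h2 : rr π X ν R (merge T y w) = rr π X ν R (merge (R ∩ T) y w) := by
      refine rr_congr π X ν R fun i hi => ?_
      by_cases hiT : i ∈ T
      · have : i ∈ R ∩ T := Finset.mem_inter.mpr ⟨hi, hiT⟩
        simp [merge, hiT, this]
      · have : i ∉ R ∩ T := fun h => hiT (Finset.mem_inter.mp h).2
        simp [merge, hiT, this]
    rw [h2, ← mul_assoc, ← pow_add]
    have hc1 : (R ∩ T).card + (R \ T).card = R.card := by
      rw [← Finset.card_union_of_disjoint hd, hU]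
    have hc2 : T.card + (S \ T).card = S.card := by
      rw [Finset.card_sdiff_add_card_eq_card hTS |>.symm]; omega
    have hc3 : (R ∩ T).card ≤ T.card := Finset.card_le_card Finset.inter_subset_right
    have hc4 : (R \ T).card ≤ (S \ T).card :=
      Finset.card_le_card (Finset.sdiff_subset_sdiff hR' (Finset.Subset.refl _))
    have : S.card - R.card = T.card - (R ∩ T).card + ((S \ T).card - (R \ T).card) := by omega
    rw [this]

/-- Hypotheses of the level lemma. `I'` active coordinates, `X ⊆ P`, `P` near-uniform to order `2 u Lm`. -/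
structure SysHyp (π : α → Om G) (X P : Finset α) (I' : Finset (Fin n)) (nP ν : ℝ) (Lm u : ℕ) (Qm : ℝ) : Prop where
  sub : X ⊆ P
  νpos : 0 < ν
  reg : ∀ S ⊆ I', S.card ≤ Lm → ∀ w, rr π X ν S w ≤ 2
  unif : ∀ U ⊆ I', U.card ≤ 2 * u * Lm → ∀ w, |cnt π P U w - nP / cardU G U| ≤ 1
  dens : nP ≤ ν * Real.exp (2 * u)
  size : (2 * Qm) ^ (4 * u * (Lm + 1)) ≤ nP
  Qcard : ∀ i, (Fintype.card (G i) : ℝ) ≤ Qm
  Qn : (n : ℝ) ≤ Qm
  Q1 : 1 ≤ Qm

lemma cardU_le {Qm : ℝ} (hQ : ∀ i, (Fintype.card (G i) : ℝ) ≤ Qm) (U : Finset (Fin n)) :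
    cardU G U ≤ Qm ^ U.card := by
  unfold cardU
  calc ∏ i ∈ U, (Fintype.card (G i) : ℝ) ≤ ∏ _i ∈ U, Qm :=
        Finset.prod_le_prod (fun i _ => (lc_card_G_pos i).le) (fun i _ => hQ i)
    _ = Qm ^ U.card := by simp

theorem SysHyp.subsys {π : α → Om G} {X P : Finset α} {I' : Finset (Fin n)} {nP ν : ℝ} {Lm u : ℕ} {Qm : ℝ}
    (h : SysHyp π X P I' nP ν Lm u Qm) (hu : 1 ≤ u) {Z : Finset (Fin n)} (hZ : Z ⊆ I')
    (hZL : Z.card ≤ Lm) (y : Om G) :
    SysHyp π (subF π X Z y) (subF π P Z y) (I' \ Z) (nP / cardU G Z) (ν / cardU G Z)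
      (Lm - Z.card) u Qm := by
  classical
  have hc := cardU_pos' (G := G) Z
  have hdisj : ∀ U : Finset (Fin n), U ⊆ I' \ Z → Disjoint Z U := fun U hU => by
    rw [Finset.disjoint_right]
    intro i hi
    exact (Finset.mem_sdiff.mp (hU hi)).2
  have hsub : ∀ U : Finset (Fin n), U ⊆ I' \ Z → Z ∪ U ⊆ I' := fun U hU =>
    Finset.union_subset hZ (hU.trans Finset.sdiff_subset)
  obtain ⟨b, hb⟩ := Nat.exists_eq_add_of_le hZL
  have hb' : Lm - Z.card = b := by omega
  have hQ0 : 0 < Qm := lt_of_lt_of_le one_pos h.Q1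
  refine ⟨?_, div_pos h.νpos hc, ?_, ?_, ?_, ?_, h.Qcard, h.Qn, h.Q1⟩
  · intro x hx
    simp only [subF, Finset.mem_filter] at hx ⊢
    exact ⟨h.sub hx.1, hx.2⟩
  · intro S hS hSc w
    rw [rr_subF π X (hdisj S hS)]
    refine h.reg _ (hsub S hS) ?_ _
    have := Finset.card_union_le Z S
    omega
  · intro U hU hUc w
    rw [cnt_subF π P (hdisj U hU), div_div, ← cardU_union (hdisj U hU)]
    refine h.unif _ (hsub U hU) ?_ _
    have h1 := Finset.card_union_le Z U
    rw [hb'] at hUc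
    have h2 : Z.card ≤ 2 * u * Z.card := by nlinarith
    have h3 : 2 * u * Lm = 2 * u * Z.card + 2 * u * b := by rw [hb]; ring
    omega
  · have h1 : ν / cardU G Z * Real.exp (2 * u) * cardU G Z = ν * Real.exp (2 * u) := by field_simp
    rw [div_le_iff₀ hc, h1]
    exact h.dens
  · rw [le_div_iff₀ hc, hb']
    have h1 : cardU G Z ≤ (2 * Qm) ^ (4 * u * Z.card) := by
      calc cardU G Z ≤ Qm ^ Z.card := cardU_le h.Qcard Z
        _ ≤ (2 * Qm) ^ Z.card := by
            refine pow_le_pow_left₀ hQ0.le ?_ _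
            linarith
        _ ≤ (2 * Qm) ^ (4 * u * Z.card) := by
            refine pow_le_pow_right₀ (by linarith [h.Q1]) ?_
            nlinarith
    calc (2 * Qm) ^ (4 * u * (b + 1)) * cardU G Z
        ≤ (2 * Qm) ^ (4 * u * (b + 1)) * (2 * Qm) ^ (4 * u * Z.card) := by gcongr
      _ = (2 * Qm) ^ (4 * u * (Lm + 1)) := by
          rw [← pow_add, hb]; congr 1; ring
      _ ≤ nP := h.size

/-! ### Transfer to the uniform measure -/

lemma abs_hoef_le {π : α → Om G} {X P : Finset α} {I' : Finset (Fin n)} {nP ν : ℝ} {Lm u : ℕ} {Qm : ℝ}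
    (h : SysHyp π X P I' nP ν Lm u Qm) {S : Finset (Fin n)} (hS : S ⊆ I') (hc : S.card ≤ Lm)
    (w : Om G) : |hoef π X ν S w| ≤ 2 ^ (S.card + 1) := by
  unfold hoef
  calc |∑ R ∈ S.powerset, (-1 : ℝ) ^ (S.card - R.card) * rr π X ν R w|
      ≤ ∑ R ∈ S.powerset, |(-1 : ℝ) ^ (S.card - R.card) * rr π X ν R w| :=
        Finset.abs_sum_le_sum_abs _ _
    _ ≤ ∑ _R ∈ S.powerset, (2 : ℝ) := by
        refine Finset.sum_le_sum fun R hR => ?_
        have hR' := Finset.mem_powerset.mp hR
        rw [abs_mul, abs_pow, abs_neg, abs_one, one_pow, one_mul,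
          abs_of_nonneg (rr_nonneg π X h.νpos R w)]
        exact h.reg R (hR'.trans hS) ((Finset.card_le_card hR').trans hc) w
    _ = 2 ^ (S.card + 1) := by
        simp [Finset.card_powerset, pow_succ]

lemma tuple_bound {π : α → Om G} {X P : Finset α} {I' : Finset (Fin n)} {nP ν : ℝ} {Lm u : ℕ} {Qm : ℝ}
    (h : SysHyp π X P I' nP ν Lm u Qm) {l : ℕ} (hl : l ≤ Lm)
    (p : Fin (2 * u) → Finset (Fin n)) (hp : ∀ j, p j ∈ I'.powersetCard l) :
    ∑ x ∈ P, ∏ j, hoef π X ν (p j) (π x) ≤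
      nP * Ex (fun w => ∏ j, hoef π X ν (p j) w) + Qm ^ (2 * u * l) * (2 ^ (l + 1)) ^ (2 * u) := by
  classical
  set U : Finset (Fin n) := univ.biUnion p with hUdef
  have hpU : ∀ j, p j ⊆ U := fun j => Finset.subset_biUnion_of_mem p (Finset.mem_univ j)
  have hpI : ∀ j, p j ⊆ I' := fun j => (Finset.mem_powersetCard.mp (hp j)).1
  have hpc : ∀ j, (p j).card = l := fun j => (Finset.mem_powersetCard.mp (hp j)).2
  have hUI : U ⊆ I' := Finset.biUnion_subset.mpr fun j _ => hpI j
  have hUc : U.card ≤ 2 * u * l := by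
    calc U.card ≤ ∑ j : Fin (2 * u), (p j).card := Finset.card_biUnion_le
      _ = 2 * u * l := by simp [hpc]
  have hQ0 : 0 ≤ Qm := by linarith [h.Q1]
  set Φ : Om G → ℝ := fun w => ∏ j, hoef π X ν (p j) w with hΦ
  have hdep : ∀ w w', (∀ i ∈ U, w i = w' i) → Φ w = Φ w' := by
    intro w w' hw
    refine Finset.prod_congr rfl fun j _ => ?_
    exact hoef_congr π X ν (p j) fun i hi => hw i (hpU j hi)
  have hbd : ∀ w, |Φ w| ≤ (2 ^ (l + 1)) ^ (2 * u) := by
    intro w
    rw [hΦ, Finset.abs_prod]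
    calc ∏ j, |hoef π X ν (p j) w| ≤ ∏ _j : Fin (2 * u), ((2 : ℝ) ^ (l + 1)) := by
          refine Finset.prod_le_prod (fun j _ => abs_nonneg _) fun j _ => ?_
          have := abs_hoef_le h (hpI j) (by rw [hpc j]; exact hl) w
          rwa [hpc j] at this
      _ = (2 ^ (l + 1)) ^ (2 * u) := by simp
  have hcU := cardU_pos' (G := G) U
  have hcU2 : cardU G U ≤ Qm ^ (2 * u * l) :=
    (cardU_le h.Qcard U).trans (pow_le_pow_right₀ h.Q1 hUc)
  rw [← transfer_id π P U Φ hdep]
  have hunif : ∀ w, |cnt π P U w - nP / cardU G U| ≤ 1 := h.unif U hUI (by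
    calc U.card ≤ 2 * u * l := hUc
      _ ≤ 2 * u * Lm := Nat.mul_le_mul_left _ hl)
  have hpt : ∀ w, cardU G U * cnt π P U w * Φ w ≤
      nP * Φ w + Qm ^ (2 * u * l) * (2 ^ (l + 1)) ^ (2 * u) := by
    intro w
    have h1 : cardU G U * cnt π P U w * Φ w =
        nP * Φ w + cardU G U * ((cnt π P U w - nP / cardU G U) * Φ w) := by
      field_simp
      ring
    rw [h1]
    have h2 : (cnt π P U w - nP / cardU G U) * Φ w ≤ (2 ^ (l + 1)) ^ (2 * u) := by
      calc (cnt π P U w - nP / cardU G U) * Φ w ≤ |(cnt π P U w - nP / cardU G U) * Φ w| :=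
            le_abs_self _
        _ = |cnt π P U w - nP / cardU G U| * |Φ w| := abs_mul _ _
        _ ≤ 1 * (2 ^ (l + 1)) ^ (2 * u) :=
            mul_le_mul (hunif w) (hbd w) (abs_nonneg _) zero_le_one
        _ = _ := one_mul _
    have h3 : cardU G U * ((cnt π P U w - nP / cardU G U) * Φ w) ≤
        Qm ^ (2 * u * l) * (2 ^ (l + 1)) ^ (2 * u) := by
      calc cardU G U * ((cnt π P U w - nP / cardU G U) * Φ w)
          ≤ cardU G U * (2 ^ (l + 1)) ^ (2 * u) := mul_le_mul_of_nonneg_left h2 hcU.le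
        _ ≤ _ := mul_le_mul_of_nonneg_right hcU2 (by positivity)
    linarith
  calc Ex (fun w => cardU G U * cnt π P U w * Φ w)
      ≤ Ex (fun w => nP * Φ w + Qm ^ (2 * u * l) * (2 ^ (l + 1)) ^ (2 * u)) := Ex_mono' hpt
    _ = nP * Ex Φ + Qm ^ (2 * u * l) * (2 ^ (l + 1)) ^ (2 * u) := by
        rw [Ex_add', Ex_const_mul', Ex_const']

theorem transfer_bound {π : α → Om G} {X P : Finset α} {I' : Finset (Fin n)} {nP ν : ℝ} {Lm u : ℕ} {Qm : ℝ}
    (h : SysHyp π X P I' nP ν Lm u Qm) {l : ℕ} (hl : l ≤ Lm) :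
    ∑ x ∈ P, (∑ S ∈ I'.powersetCard l, hoef π X ν S (π x)) ^ (2 * u) ≤
      nP * (Ex (fun w => (∑ S ∈ I'.powersetCard l, hoef π X ν S w) ^ (2 * u)) + 1) := by
  classical
  set T := I'.powersetCard l with hT
  set Tup := Fintype.piFinset (fun _ : Fin (2 * u) => T) with hTup
  have hexp : ∀ w, (∑ S ∈ T, hoef π X ν S w) ^ (2 * u) =
      ∑ p ∈ Tup, ∏ j, hoef π X ν (p j) w := by
    intro w
    have := Finset.prod_univ_sum (fun _ : Fin (2 * u) => T) (fun _ S => hoef π X ν S w)
    rw [← this]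
    simp
  have hcardTup : (Tup.card : ℝ) ≤ (Qm ^ l) ^ (2 * u) := by
    have h0 : (Tup.card : ℝ) = (T.card : ℝ) ^ (2 * u) := by
      rw [hTup, Fintype.card_piFinset]
      simp
    have h1 : (T.card : ℝ) ≤ Qm ^ l := by
      rw [hT, Finset.card_powersetCard]
      have h2 : (I'.card : ℝ) ≤ Qm := by
        refine le_trans ?_ h.Qn
        have := Finset.card_le_univ I'
        rw [Fintype.card_fin] at this
        exact_mod_cast this
      have h3 : ((I'.card.choose l : ℕ) : ℝ) ≤ (I'.card : ℝ) ^ l := by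
        exact_mod_cast Nat.choose_le_pow _ _
      exact h3.trans (pow_le_pow_left₀ (by positivity) h2 _)
    rw [h0]
    exact pow_le_pow_left₀ (by positivity) h1 _
  have hsum : ∑ x ∈ P, ∑ p ∈ Tup, ∏ j, hoef π X ν (p j) (π x) ≤
      ∑ p ∈ Tup, (nP * Ex (fun w => ∏ j, hoef π X ν (p j) w) +
        Qm ^ (2 * u * l) * (2 ^ (l + 1)) ^ (2 * u)) := by
    rw [Finset.sum_comm]
    refine Finset.sum_le_sum fun p hp => ?_
    refine tuple_bound h hl p fun j => ?_
    exact Fintype.mem_piFinset.mp hp j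
  have hQ1 := h.Q1
  have hQ0 : 0 ≤ Qm := by linarith
  have herr : (Tup.card : ℝ) * (Qm ^ (2 * u * l) * (2 ^ (l + 1)) ^ (2 * u)) ≤ nP := by
    refine le_trans ?_ h.size
    calc (Tup.card : ℝ) * (Qm ^ (2 * u * l) * (2 ^ (l + 1)) ^ (2 * u))
        ≤ (Qm ^ l) ^ (2 * u) * (Qm ^ (2 * u * l) * (2 ^ (l + 1)) ^ (2 * u)) := by
          gcongr
      _ = Qm ^ (4 * u * l) * 2 ^ (2 * u * (l + 1)) := by
          rw [← pow_mul, ← pow_mul, ← mul_assoc, ← pow_add]
          congr 2
          · ring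
          · ring
      _ ≤ Qm ^ (4 * u * (Lm + 1)) * 2 ^ (4 * u * (Lm + 1)) := by
          have e1 : 4 * u * l ≤ 4 * u * (Lm + 1) := Nat.mul_le_mul_left _ (by omega)
          have e2 : 2 * u * (l + 1) ≤ 4 * u * (Lm + 1) := by
            calc 2 * u * (l + 1) ≤ 2 * u * (Lm + 1) := Nat.mul_le_mul_left _ (by omega)
              _ ≤ 4 * u * (Lm + 1) := Nat.mul_le_mul_right _ (by omega)
          exact mul_le_mul (pow_le_pow_right₀ hQ1 e1) (pow_le_pow_right₀ (by norm_num) e2)
            (by positivity) (by positivity)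
      _ = (2 * Qm) ^ (4 * u * (Lm + 1)) := by rw [mul_pow]; ring
  calc ∑ x ∈ P, (∑ S ∈ T, hoef π X ν S (π x)) ^ (2 * u)
      = ∑ x ∈ P, ∑ p ∈ Tup, ∏ j, hoef π X ν (p j) (π x) :=
        Finset.sum_congr rfl fun x _ => hexp (π x)
    _ ≤ ∑ p ∈ Tup, (nP * Ex (fun w => ∏ j, hoef π X ν (p j) w) +
        Qm ^ (2 * u * l) * (2 ^ (l + 1)) ^ (2 * u)) := hsum
    _ = nP * Ex (fun w => (∑ S ∈ T, hoef π X ν S w) ^ (2 * u)) +
        (Tup.card : ℝ) * (Qm ^ (2 * u * l) * (2 ^ (l + 1)) ^ (2 * u)) := by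
        rw [Finset.sum_add_distrib, ← Finset.mul_sum, ← Ex_sum']
        simp only [hexp, Finset.sum_const, nsmul_eq_mul]
    _ ≤ nP * (Ex (fun w => (∑ S ∈ T, hoef π X ν S w) ^ (2 * u)) + 1) := by
        rw [mul_add, mul_one]
        linarith

/-! ### The recursion on sub-systems -/

lemma merge_bound (π : α → Om G) (X : Finset α) (ν : ℝ) (I' : Finset (Fin n)) (l : ℕ)
    (T : Finset (Fin n)) (y : Om G) :
    ∑ S ∈ (I'.powersetCard l).filter (fun S => T ⊆ S), Ex (fun x => hoef π X ν S (merge T y x) ^ 2) ≤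
      2 ^ T.card * ∑ Z ∈ T.powerset, Mlev π (subF π X Z y) (ν / cardU G Z) (I' \ Z) (l - T.card) := by
  classical
  have h1 : ∀ S ∈ (I'.powersetCard l).filter (fun S => T ⊆ S),
      Ex (fun x => hoef π X ν S (merge T y x) ^ 2) ≤
      2 ^ T.card * ∑ Z ∈ T.powerset,
        Ex (fun x => hoef π (subF π X Z y) (ν / cardU G Z) (S \ T) x ^ 2) := by
    intro S hS
    have hTS : T ⊆ S := (Finset.mem_filter.mp hS).2
    rw [← Ex_sum', ← Ex_const_mul']
    refine Ex_mono' fun x => ?_
    rw [hoef_merge π X hTS]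
    have h2 := sq_sum_le_card_mul_sum_sq (s := T.powerset) (f := fun Z =>
      (-1 : ℝ) ^ (T.card - Z.card) * hoef π (subF π X Z y) (ν / cardU G Z) (S \ T) x)
    rw [Finset.card_powerset] at h2
    push_cast at h2
    refine h2.trans (le_of_eq ?_)
    congr 1
    refine Finset.sum_congr rfl fun Z _ => ?_
    rw [mul_pow, ← pow_mul, mul_comm _ 2, pow_mul]
    simp
  refine (Finset.sum_le_sum h1).trans ?_
  rw [← Finset.mul_sum, Finset.sum_comm]
  refine mul_le_mul_of_nonneg_left ?_ (by positivity)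
  refine Finset.sum_le_sum fun Z hZ => ?_
  have hZT : Z ⊆ T := Finset.mem_powerset.mp hZ
  unfold Mlev
  set f : Finset (Fin n) → ℝ :=
    fun S' => Ex (fun x => hoef π (subF π X Z y) (ν / cardU G Z) S' x ^ 2) with hf
  have hinj : Set.InjOn (fun S : Finset (Fin n) => S \ T)
      ((I'.powersetCard l).filter (fun S => T ⊆ S) : Finset (Finset (Fin n))) := by
    intro S hS S' hS' hEq
    have h3 : T ⊆ S := (Finset.mem_filter.mp (Finset.mem_coe.mp hS)).2
    have h4 : T ⊆ S' := (Finset.mem_filter.mp (Finset.mem_coe.mp hS')).2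
    have h5 : S \ T = S' \ T := hEq
    rw [← Finset.sdiff_union_of_subset h3, ← Finset.sdiff_union_of_subset h4, h5]
  calc ∑ S ∈ (I'.powersetCard l).filter (fun S => T ⊆ S), f (S \ T)
      = ∑ S' ∈ ((I'.powersetCard l).filter (fun S => T ⊆ S)).image (fun S => S \ T), f S' :=
        (Finset.sum_image hinj).symm
    _ ≤ ∑ S' ∈ (I' \ Z).powersetCard (l - T.card), f S' := by
        refine Finset.sum_le_sum_of_subset_of_nonneg ?_ ?_
        · intro S' hS'
          obtain ⟨S, hS, rfl⟩ := Finset.mem_image.mp hS'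
          obtain ⟨hS1, hS2⟩ := Finset.mem_filter.mp hS
          obtain ⟨hS3, hS4⟩ := Finset.mem_powersetCard.mp hS1
          refine Finset.mem_powersetCard.mpr ⟨?_, ?_⟩
          · intro i hi
            obtain ⟨hi1, hi2⟩ := Finset.mem_sdiff.mp hi
            exact Finset.mem_sdiff.mpr ⟨hS3 hi1, fun h => hi2 (hZT h)⟩
          · rw [Finset.card_sdiff_of_subset hS2, hS4]
        · intro S' _ _
          exact Ex_nonneg' fun x => sq_nonneg _

/-! ### The moment bound from the chaos lemma -/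

lemma moment_bound {π : α → Om G} (X : Finset α) (ν : ℝ) (I' : Finset (Fin n)) (l u : ℕ) (hu : 1 ≤ u)
    (D : ℝ) (hD0 : 0 ≤ D) (hD1 : 10 * (u : ℝ) ^ 2 ≤ D ^ 2)
    (hD2 : 2 * (2 * (u : ℝ) + 1) ^ (2 * u) * n ≤ D ^ (2 * u))
    (A : ℕ → ℝ) (hA0 : ∀ j, 0 ≤ A j)
    (hA : ∀ j ≤ l, ∀ T : Finset (Fin n), T.card = l - j → ∀ y : Om G,
      ∑ S ∈ (I'.powersetCard l).filter (fun S => T ⊆ S),
        Ex (fun x => hoef π X ν S (merge T y x) ^ 2) ≤ A j ^ 2) :
    Ex (fun w => (∑ S ∈ I'.powersetCard l, hoef π X ν S w) ^ (2 * u)) ≤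
      (D ^ l * ∑ j ∈ range (l + 1), (l.choose j : ℝ) * A j) ^ (2 * u) := by
  classical
  set Ψ : Finset (Fin n) → Om G → Unit → ℝ :=
    fun S x _ => if S ⊆ I' then hoef π X ν S x else 0 with hΨ
  have hsubset : I'.powersetCard l ⊆ powersetCard l (univ : Finset (Fin n)) := by
    intro S hS
    obtain ⟨_, h2⟩ := Finset.mem_powersetCard.mp hS
    exact Finset.mem_powersetCard.mpr ⟨Finset.subset_univ _, h2⟩
  have hnotin : ∀ S, S ∈ powersetCard l (univ : Finset (Fin n)) → S ∉ I'.powersetCard l → ¬ S ⊆ I' := by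
    intro S hS hS' h3
    exact hS' (Finset.mem_powersetCard.mpr ⟨h3, (Finset.mem_powersetCard.mp hS).2⟩)
  have key := chaos_moment (Λ := Unit) l u hu D hD0 hD1 hD2 Ψ
    (by
      intro S x x' hxx
      funext _
      by_cases hS : S ⊆ I'
      · simp only [hΨ, if_pos hS]
        exact hoef_congr π X ν S hxx
      · simp [hΨ, hS])
    (by
      intro S i hi x _
      by_cases hS : S ⊆ I'
      · simp only [hΨ, if_pos hS]
        exact hoef_mean π X ν hi x
      · simp [hΨ, hS])
    A hA0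
    (by
      intro j hj T hT y
      refine le_trans (le_of_eq ?_) (hA j hj T hT y)
      symm
      refine Finset.sum_subset_zero_on_sdiff ?_ ?_ ?_
      · intro S hS
        obtain ⟨h1, h2⟩ := Finset.mem_filter.mp hS
        exact Finset.mem_filter.mpr ⟨hsubset h1, h2⟩
      · intro S hS
        obtain ⟨h1, h2⟩ := Finset.mem_sdiff.mp hS
        obtain ⟨h3, h4⟩ := Finset.mem_filter.mp h1
        have h5 : S ∉ I'.powersetCard l := fun h => h2 (Finset.mem_filter.mpr ⟨h, h4⟩)
        have h6 := hnotin S h3 h5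
        simp [hΨ, h6, nsq, Ex]
      · intro S hS
        obtain ⟨h1, _⟩ := Finset.mem_filter.mp hS
        have h3 : S ⊆ I' := (Finset.mem_powersetCard.mp h1).1
        simp [hΨ, h3, nsq])
  refine le_trans (le_of_eq ?_) key
  congr 1
  funext x
  have h2 : ∑ S ∈ powersetCard l (univ : Finset (Fin n)), Ψ S x =
      fun _ => ∑ S ∈ I'.powersetCard l, hoef π X ν S x := by
    funext t
    rw [Finset.sum_apply]
    symm
    have : ∀ S ∈ I'.powersetCard l, hoef π X ν S x = Ψ S x t := by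
      intro S hS
      have h3 : S ⊆ I' := (Finset.mem_powersetCard.mp hS).1
      simp [hΨ, h3]
    rw [Finset.sum_congr rfl this]
    refine Finset.sum_subset hsubset ?_
    intro S hS hS'
    have := hnotin S hS hS'
    simp [hΨ, this]
  rw [h2]
  simp only [nsq]
  simp [pow_mul]

/-! ### Numerics -/

lemma level_numerics {M D : ℝ} {l : ℕ} (hl : 1 ≤ l) (hD : 1 ≤ D) (hM : 0 ≤ M)
    (h : M ≤ 2 * Real.exp 1 * (D ^ l * (√M + 2 * (100 * D + 2) ^ l) + 1)) :
    M ≤ 4 * ((100 * D) ^ 2) ^ l := by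
  by_contra hcon
  push Not at hcon
  set b : ℝ := (100 * D) ^ l with hb
  have hb2 : ((100 * D) ^ 2) ^ l = b ^ 2 := by
    rw [hb, ← pow_mul, ← pow_mul, mul_comm 2 l]
  rw [hb2] at hcon
  have hDl1 : 1 ≤ D ^ l := one_le_pow₀ hD
  have hD0 : 0 ≤ D := by linarith
  have hbD : 100 * D ^ l ≤ b := by
    rw [hb, mul_pow]
    have : (100 : ℝ) ≤ 100 ^ l := by
      calc (100 : ℝ) = 100 ^ 1 := by norm_num
        _ ≤ 100 ^ l := pow_le_pow_right₀ (by norm_num) hl
    exact mul_le_mul_of_nonneg_right this (by positivity)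
  have hb100 : 100 ≤ b := by linarith
  have hsq : 2 * b < √M := by
    refine (Real.lt_sqrt (by positivity)).mpr ?_
    nlinarith
  have hsM : √M * √M = M := Real.mul_self_sqrt hM
  have h1 : D ^ l * √M ≤ M / 200 := by
    have h2 : 200 * D ^ l ≤ √M := by linarith
    nlinarith [Real.sqrt_nonneg M]
  have h3 : D ^ l * (100 * D + 2) ^ l ≤ M / 392 := by
    have h4 : D ^ l * (100 * D + 2) ^ l ≤ (102 * D ^ 2) ^ l := by
      rw [← mul_pow]
      refine pow_le_pow_left₀ (by positivity) ?_ _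
      nlinarith
    have h5 : 98 * (102 * D ^ 2) ^ l ≤ b ^ 2 := by
      have h6 : b ^ 2 = (10000 * D ^ 2) ^ l := by
        rw [← hb2]
        congr 1
        ring
      rw [h6]
      have h7 : (98 : ℝ) ≤ 98 ^ l := by
        calc (98 : ℝ) = 98 ^ 1 := by norm_num
          _ ≤ 98 ^ l := pow_le_pow_right₀ (by norm_num) hl
      calc 98 * (102 * D ^ 2) ^ l ≤ 98 ^ l * (102 * D ^ 2) ^ l :=
            mul_le_mul_of_nonneg_right h7 (by positivity)
        _ = (9996 * D ^ 2) ^ l := by rw [← mul_pow]; congr 1; ring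
        _ ≤ (10000 * D ^ 2) ^ l := by
            refine pow_le_pow_left₀ (by positivity) ?_ _
            nlinarith [sq_nonneg D]
    nlinarith
  have h8 : 1 ≤ M / 40000 := by
    rw [le_div_iff₀ (by norm_num)]
    nlinarith
  have he : Real.exp 1 < 2.7182818286 := Real.exp_one_lt_d9
  have he0 : 0 < Real.exp 1 := Real.exp_pos 1
  have h9 : D ^ l * (√M + 2 * (100 * D + 2) ^ l) + 1 ≤ M / 200 + 2 * (M / 392) + M / 40000 := by
    have : D ^ l * (√M + 2 * (100 * D + 2) ^ l) =
        D ^ l * √M + 2 * (D ^ l * (100 * D + 2) ^ l) := by ring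
    rw [this]
    linarith
  have hM40 : 0 < M := by nlinarith
  have h10 : M ≤ 2 * Real.exp 1 * (M / 200 + 2 * (M / 392) + M / 40000) :=
    h.trans (mul_le_mul_of_nonneg_left h9 (by positivity))
  have h11 : M / 200 + 2 * (M / 392) + M / 40000 ≤ M / 9 := by linarith
  have h12 : 2 * Real.exp 1 * (M / 9) < M := by nlinarith
  have h13 := mul_le_mul_of_nonneg_left h11 (by positivity : 0 ≤ 2 * Real.exp 1)
  linarith

/-! ### The level lemma -/

/-- One step of the induction. -/
theorem level_step {π : α → Om G} {X P : Finset α} {I' : Finset (Fin n)} {nP ν : ℝ} {Lm u : ℕ} {Qm : ℝ}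
    (h : SysHyp π X P I' nP ν Lm u Qm) (hu : 1 ≤ u) (D : ℝ) (hD0 : 1 ≤ D)
    (hD1 : 10 * (u : ℝ) ^ 2 ≤ D ^ 2) (hD2 : 2 * (2 * (u : ℝ) + 1) ^ (2 * u) * n ≤ D ^ (2 * u))
    {l : ℕ} (hl1 : 1 ≤ l) (hl : l ≤ Lm)
    (IH : ∀ j < l, ∀ (X' P' : Finset α) (I'' : Finset (Fin n)) (nP' ν' : ℝ) (Lm' : ℕ),
      SysHyp π X' P' I'' nP' ν' Lm' u Qm → j ≤ Lm' → Mlev π X' ν' I'' j ≤ 4 * ((100 * D) ^ 2) ^ j) :
    Mlev π X ν I' l ≤ 4 * ((100 * D) ^ 2) ^ l := by
  classical
  have hν := h.νpos
  set M := Mlev π X ν I' l with hMdef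
  have hM0 : 0 ≤ M := Finset.sum_nonneg fun S _ => Ex_nonneg' fun w => sq_nonneg _
  set b : ℝ := 100 * D with hb
  have hb0 : 0 ≤ b := by rw [hb]; linarith
  set A : ℕ → ℝ := fun j => if j < l then 2 ^ (l - j) * 2 * b ^ j else √M with hA
  have hA0 : ∀ j, 0 ≤ A j := by
    intro j
    simp only [hA]
    split_ifs
    · positivity
    · exact Real.sqrt_nonneg _
  have hAb : ∀ j ≤ l, ∀ T : Finset (Fin n), T.card = l - j → ∀ y : Om G,
      ∑ S ∈ (I'.powersetCard l).filter (fun S => T ⊆ S),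
        Ex (fun x => hoef π X ν S (merge T y x) ^ 2) ≤ A j ^ 2 := by
    intro j hj T hT y
    by_cases hjl : j < l
    · have hAj : A j = 2 ^ (l - j) * 2 * b ^ j := by simp only [hA, if_pos hjl]
      rw [hAj]
      by_cases hTI : T ⊆ I'
      · refine (merge_bound π X ν I' l T y).trans ?_
        have hlT : l - T.card = j := by omega
        rw [hlT, hT]
        have hZ : ∀ Z ∈ T.powerset, Mlev π (subF π X Z y) (ν / cardU G Z) (I' \ Z) j ≤ 4 * (b ^ 2) ^ j := by
          intro Z hZ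
          have hZT := Finset.mem_powerset.mp hZ
          have hZc := Finset.card_le_card hZT
          have hZL : Z.card ≤ Lm := by omega
          have hsys := h.subsys hu (hZT.trans hTI) hZL y
          exact IH j hjl _ _ _ _ _ _ hsys (by omega)
        have hsum := Finset.sum_le_sum hZ
        rw [Finset.sum_const, Finset.card_powerset, hT, nsmul_eq_mul] at hsum
        push_cast at hsum
        calc (2 : ℝ) ^ (l - j) * ∑ Z ∈ T.powerset, Mlev π (subF π X Z y) (ν / cardU G Z) (I' \ Z) j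
            ≤ 2 ^ (l - j) * (2 ^ (l - j) * (4 * (b ^ 2) ^ j)) :=
              mul_le_mul_of_nonneg_left hsum (by positivity)
          _ = (2 ^ (l - j) * 2 * b ^ j) ^ 2 := by
              rw [← pow_mul, mul_comm 2 j, pow_mul]
              ring
      · have : (I'.powersetCard l).filter (fun S => T ⊆ S) = ∅ := by
          refine Finset.filter_eq_empty_iff.mpr fun S hS hTS => hTI ?_
          exact hTS.trans (Finset.mem_powersetCard.mp hS).1
        rw [this, Finset.sum_empty]
        positivity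
    · have hjl' : j = l := by omega
      have hAj : A j = √M := by simp only [hA, if_neg hjl]
      rw [hAj, Real.sq_sqrt hM0]
      have hT0 : T = ∅ := by
        apply Finset.card_eq_zero.mp
        omega
      subst hT0
      have hmerge : ∀ x : Om G, merge (∅ : Finset (Fin n)) y x = x := by
        intro x
        funext i
        simp [merge]
      simp only [hmerge, Finset.empty_subset, Finset.filter_true]
      exact le_refl _
  have hmom := moment_bound (π := π) X ν I' l u hu D (by linarith) hD1 hD2 A hA0 hAb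
  -- Reduction to a bound for the sum defining `R`
  set Gf : Om G → ℝ := fun w => ∑ S ∈ I'.powersetCard l, hoef π X ν S w with hGf
  set R : ℝ := D ^ l * ∑ j ∈ range (l + 1), (l.choose j : ℝ) * A j with hR
  have hR0 : 0 ≤ R := by
    refine mul_nonneg (by positivity) (Finset.sum_nonneg fun j _ => ?_)
    exact mul_nonneg (by positivity) (hA0 j)
  have hMeq : M = ν⁻¹ * ∑ x ∈ X, Gf (π x) := by
    rw [hMdef, Mlev, Finset.sum_congr rfl (fun S _ => Ex_hoef_sq π X hν.ne' S), ← Finset.mul_sum,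
      Finset.sum_comm]
  -- `|X| ≤ 2 ν`
  have hXc : (X.card : ℝ) ≤ 2 * ν := by
    have h1 := h.reg ∅ (Finset.empty_subset _) (Nat.zero_le _) (Classical.arbitrary _)
    simp only [rr, cardU, cnt, Finset.prod_empty, one_mul] at h1
    have h2 : X.filter (fun x => ∀ i ∈ (∅ : Finset (Fin n)), π x i = (Classical.arbitrary (Om G)) i) = X := by
      simp
    rw [h2, div_le_iff₀ hν] at h1
    exact h1
  have hnP : 0 ≤ nP := by
    refine le_trans ?_ h.size
    have := h.Q1
    positivity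
  have hQ0 : 0 ≤ Qm := by linarith [h.Q1]
  have hpow : (∑ x ∈ X, Gf (π x)) ^ (2 * u) ≤
      (X.card : ℝ) ^ (2 * u - 1) * ∑ x ∈ X, Gf (π x) ^ (2 * u) := by
    have h1 : (∑ x ∈ X, |Gf (π x)|) ^ (2 * u - 1 + 1) ≤
        (X.card : ℝ) ^ (2 * u - 1) * ∑ x ∈ X, |Gf (π x)| ^ (2 * u - 1 + 1) :=
      pow_sum_le_card_mul_sum_pow (fun x _ => abs_nonneg _) _
    have e : 2 * u - 1 + 1 = 2 * u := by omega
    rw [e] at h1
    have h2 : ∀ x ∈ X, |Gf (π x)| ^ (2 * u) = Gf (π x) ^ (2 * u) := by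
      intro x _
      rw [pow_mul, sq_abs, ← pow_mul]
    rw [Finset.sum_congr rfl h2] at h1
    refine le_trans ?_ h1
    rw [pow_mul, pow_mul]
    refine pow_le_pow_left₀ (sq_nonneg _) ?_ _
    rw [← sq_abs]
    exact pow_le_pow_left₀ (abs_nonneg _) (Finset.abs_sum_le_sum_abs _ _) 2
  have hPX : ∑ x ∈ X, Gf (π x) ^ (2 * u) ≤ ∑ x ∈ P, Gf (π x) ^ (2 * u) :=
    Finset.sum_le_sum_of_subset_of_nonneg h.sub fun x _ _ => by
      rw [pow_mul]; positivity
  have htr := transfer_bound h (l := l) hl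
  have hexp1 : Real.exp (2 * u) = Real.exp 1 ^ (2 * u) := by
    rw [← Real.exp_nat_mul]
    push_cast
    ring_nf
  have hMpow : M ^ (2 * u) ≤ (2 * Real.exp 1 * (R + 1)) ^ (2 * u) := by
    have hX : (X.card : ℝ) ^ (2 * u - 1) ≤ (2 * ν) ^ (2 * u - 1) :=
      pow_le_pow_left₀ (by positivity) hXc _
    have hstep : (∑ x ∈ X, Gf (π x)) ^ (2 * u) ≤ (2 * ν) ^ (2 * u - 1) * (nP * (R ^ (2 * u) + 1)) := by
      refine hpow.trans ?_
      refine mul_le_mul hX ?_ ?_ (by positivity)
      · refine hPX.trans (htr.trans ?_)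
        refine mul_le_mul_of_nonneg_left ?_ hnP
        linarith
      · refine Finset.sum_nonneg fun x _ => ?_
        rw [pow_mul]; positivity
    have hRpow : R ^ (2 * u) + 1 ≤ (R + 1) ^ (2 * u) := by
      have h1 : R ^ (2 * u) + 1 ^ (2 * u) ≤ (R + 1) ^ (2 * u) :=
        pow_add_pow_le hR0 zero_le_one (by omega)
      simpa using h1
    have hdens : nP ≤ ν * Real.exp 1 ^ (2 * u) := by
      rw [← hexp1]; exact h.dens
    rw [hMeq, mul_pow]
    have hνpow : (ν⁻¹) ^ (2 * u) * (2 * ν) ^ (2 * u - 1) * ν = 2 ^ (2 * u - 1) := by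
      have e : 2 * u = 2 * u - 1 + 1 := by omega
      rw [mul_pow, e, pow_succ, inv_pow]
      simp only [Nat.add_sub_cancel]
      field_simp
    calc (ν⁻¹) ^ (2 * u) * (∑ x ∈ X, Gf (π x)) ^ (2 * u)
        ≤ (ν⁻¹) ^ (2 * u) * ((2 * ν) ^ (2 * u - 1) * (nP * (R ^ (2 * u) + 1))) :=
          mul_le_mul_of_nonneg_left hstep (by positivity)
      _ ≤ (ν⁻¹) ^ (2 * u) * ((2 * ν) ^ (2 * u - 1) * ((ν * Real.exp 1 ^ (2 * u)) * (R ^ (2 * u) + 1))) := by
          gcongr
      _ = ((ν⁻¹) ^ (2 * u) * (2 * ν) ^ (2 * u - 1) * ν) * (Real.exp 1 ^ (2 * u) * (R ^ (2 * u) + 1)) := by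
          ring
      _ = 2 ^ (2 * u - 1) * (Real.exp 1 ^ (2 * u) * (R ^ (2 * u) + 1)) := by rw [hνpow]
      _ ≤ 2 ^ (2 * u) * (Real.exp 1 ^ (2 * u) * (R + 1) ^ (2 * u)) := by
          have : (2 : ℝ) ^ (2 * u - 1) ≤ 2 ^ (2 * u) := pow_le_pow_right₀ (by norm_num) (by omega)
          gcongr
      _ = (2 * Real.exp 1 * (R + 1)) ^ (2 * u) := by
          rw [mul_pow, mul_pow]
          ring
  have hMle : M ≤ 2 * Real.exp 1 * (R + 1) := by
    refine le_of_pow_le_pow_left₀ (by omega : 2 * u ≠ 0) ?_ hMpow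
    have := Real.exp_pos 1
    positivity
  -- Bound `R`
  have hRle : R ≤ D ^ l * (√M + 2 * (b + 2) ^ l) := by
    rw [hR]
    refine mul_le_mul_of_nonneg_left ?_ (by positivity)
    rw [Finset.sum_range_succ]
    have hAl : A l = √M := by simp only [hA, lt_irrefl, if_false]
    rw [hAl, Nat.choose_self, Nat.cast_one, one_mul, add_comm]
    refine add_le_add_right ?_ _
    have hfull : (b + 2) ^ l = ∑ m ∈ range (l + 1), b ^ m * 2 ^ (l - m) * (l.choose m : ℝ) := add_pow _ _ _
    rw [hfull, Finset.mul_sum, Finset.sum_range_succ _ l]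
    have hlast : 0 ≤ 2 * (b ^ l * 2 ^ (l - l) * (l.choose l : ℝ)) := by positivity
    have : ∑ j ∈ range l, (l.choose j : ℝ) * A j =
        ∑ m ∈ range l, 2 * (b ^ m * 2 ^ (l - m) * (l.choose m : ℝ)) := by
      refine Finset.sum_congr rfl fun j hj => ?_
      have hj' : j < l := Finset.mem_range.mp hj
      simp only [hA, if_pos hj']
      ring
    rw [this]
    linarith
  have hfin : M ≤ 2 * Real.exp 1 * (D ^ l * (√M + 2 * (100 * D + 2) ^ l) + 1) := by
    refine hMle.trans (mul_le_mul_of_nonneg_left ?_ (by have := Real.exp_pos 1; positivity))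
    linarith
  exact level_numerics hl1 hD0 hM0 hfin

/-- LEVEL LEMMA. -/
theorem level_lemma {π : α → Om G} {X P : Finset α} {I' : Finset (Fin n)} {nP ν : ℝ} {Lm u : ℕ} {Qm : ℝ}
    (h : SysHyp π X P I' nP ν Lm u Qm) (hu : 1 ≤ u) (D : ℝ) (hD0 : 1 ≤ D)
    (hD1 : 10 * (u : ℝ) ^ 2 ≤ D ^ 2) (hD2 : 2 * (2 * (u : ℝ) + 1) ^ (2 * u) * n ≤ D ^ (2 * u))
    (l : ℕ) (hl : l ≤ Lm) :
    Mlev π X ν I' l ≤ 4 * ((100 * D) ^ 2) ^ l := by
  induction l using Nat.strong_induction_on generalizing X P I' nP ν Lm with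
  | _ l ih =>
    rcases Nat.eq_zero_or_pos l with rfl | hl1
    · -- `l = 0`
      simp only [Mlev, Finset.powersetCard_zero, Finset.sum_singleton, pow_zero, mul_one]
      have hw : ∀ w, hoef π X ν ∅ w ^ 2 ≤ 4 := by
        intro w
        have h1 : hoef π X ν ∅ w = rr π X ν ∅ w := by
          simp [hoef]
        rw [h1]
        have h2 := h.reg ∅ (Finset.empty_subset _) (Nat.zero_le _) w
        have h3 := rr_nonneg π X h.νpos ∅ w
        nlinarith
      calc Ex (fun w => hoef π X ν ∅ w ^ 2) ≤ Ex (fun _ : Om G => (4 : ℝ)) := Ex_mono' hw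
        _ = 4 := Ex_const' 4
    · exact level_step h hu D hD0 hD1 hD2 hl1 hl
        (fun j hj X' P' I'' nP' ν' Lm' hs hjL => ih j hj hs hjL)

end Vale.Agent.Lib.P042
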