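import Vale.Agent.Lib.P042.Defs

/-! # P042: parameters of the density increment -/

namespace Vale.Agent.Lib.P042

open Finset

/-- All parameters, as natural numbers, given `C3` and `u`. -/
def pQs (C3 u : ℕ) : ℕ := 2 ^ ((2 * u + 6) * C3)
def pv (C3 u : ℕ) : ℕ := (2 * u + 6) * C3 + 1
def pD (C3 u : ℕ) : ℕ := (2 * u + 1) * 2 ^ (4 * C3 + 1)
def pB (C3 u : ℕ) : ℕ := (100 * pD C3 u) ^ 2
def py (C3 u : ℕ) : ℕ := (pB C3 u * 2 ^ 25) ^ (4 * C3)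
def pK (C3 u : ℕ) : ℕ := Nat.factorial (py C3 u) ^ pv C3 u
def pnmin (C3 u : ℕ) : ℕ := (2 * pQs C3 u) ^ (8 * u * (pv C3 u + 2))
def pDmax (C3 u : ℕ) : ℕ := pK C3 u * pQs C3 u ^ pv C3 u
def pLoss (k C3 u : ℕ) : ℕ := 2 ^ (k + 9) * pQs C3 u * pDmax C3 u

lemma pQs_lt (C3 u : ℕ) : pQs C3 u < 2 ^ pv C3 u := by
  unfold pQs pv; exact Nat.pow_lt_pow_right (by norm_num) (Nat.lt_succ_self _)

lemma pQs_pos (C3 u : ℕ) : 1 ≤ pQs C3 u := Nat.one_le_two_pow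

lemma pD_pos (C3 u : ℕ) : 1 ≤ pD C3 u := by
  unfold pD; exact Nat.mul_pos (by omega) (Nat.two_pow_pos _)

lemma py_ge (C3 u : ℕ) (hC3 : 1 ≤ C3) : 2 ≤ py C3 u := by
  unfold py
  have h1 : 1 ≤ pB C3 u := by
    unfold pB; exact Nat.pow_pos (Nat.mul_pos (by norm_num) (pD_pos C3 u))
  have h2 : 2 ≤ pB C3 u * 2 ^ 25 := by nlinarith [Nat.one_le_two_pow (n := 25)]
  calc 2 ≤ pB C3 u * 2 ^ 25 := h2
    _ = (pB C3 u * 2 ^ 25) ^ 1 := (pow_one _).symm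
    _ ≤ _ := Nat.pow_le_pow_right (by omega) (by omega)

lemma pK_pos (C3 u : ℕ) : 1 ≤ pK C3 u := by
  unfold pK; exact Nat.pow_pos (Nat.factorial_pos _)

lemma log_two_pow_le (n : ℕ) : Real.log ((2 : ℝ) ^ n) ≤ n := by
  rw [Real.log_pow]
  have := Real.log_two_lt_d9
  have h0 : (0 : ℝ) ≤ n := Nat.cast_nonneg n
  nlinarith

lemma pQs_log_le (C3 u : ℕ) (hu : 1 ≤ u) : Real.log (pQs C3 u : ℝ) ≤ 8 * C3 * u := by
  unfold pQs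
  push_cast
  refine (log_two_pow_le _).trans ?_
  push_cast
  have hu' : (1 : ℝ) ≤ u := by exact_mod_cast hu
  have hC : (0 : ℝ) ≤ C3 := Nat.cast_nonneg _
  nlinarith [mul_nonneg hC (sub_nonneg.mpr hu')]

lemma pv_le (C3 u : ℕ) (hC3 : 1 ≤ C3) (hu : 1 ≤ u) : (pv C3 u : ℝ) ≤ 9 * C3 * u := by
  unfold pv
  push_cast
  have hu' : (1 : ℝ) ≤ u := by exact_mod_cast hu
  have hC : (1 : ℝ) ≤ C3 := by exact_mod_cast hC3
  nlinarith [mul_nonneg (sub_nonneg.mpr hC) (sub_nonneg.mpr hu'), mul_nonneg (sub_nonneg.mpr hC) (by linarith : (0:ℝ) ≤ u)]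

/-- `Y0` with `py ≤ Y0 u^{8 C3}`. -/
def pY0 (C3 : ℕ) : ℕ := (90000 * (2 ^ (4 * C3 + 1)) ^ 2 * 2 ^ 25) ^ (4 * C3)

lemma py_le (C3 u : ℕ) (hu : 1 ≤ u) : py C3 u ≤ pY0 C3 * u ^ (8 * C3) := by
  unfold py pY0 pB pD
  have h1 : 2 * u + 1 ≤ 3 * u := by omega
  have h2 : (100 * ((2 * u + 1) * 2 ^ (4 * C3 + 1))) ^ 2 * 2 ^ 25 ≤
      (90000 * (2 ^ (4 * C3 + 1)) ^ 2 * 2 ^ 25) * u ^ 2 := by
    have : (2 * u + 1) ^ 2 ≤ (3 * u) ^ 2 := Nat.pow_le_pow_left h1 2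
    have e1 : (100 * ((2 * u + 1) * 2 ^ (4 * C3 + 1))) ^ 2 * 2 ^ 25 =
       10000 * (2 * u + 1) ^ 2 * (2 ^ (4 * C3 + 1)) ^ 2 * 2 ^ 25 := by ring
    have e2 : (90000 * (2 ^ (4 * C3 + 1)) ^ 2 * 2 ^ 25) * u ^ 2 =
       10000 * (3 * u) ^ 2 * (2 ^ (4 * C3 + 1)) ^ 2 * 2 ^ 25 := by ring
    rw [e1, e2]
    gcongr
  calc _ ≤ ((90000 * (2 ^ (4 * C3 + 1)) ^ 2 * 2 ^ 25) * u ^ 2) ^ (4 * C3) := Nat.pow_le_pow_left h2 _
    _ = _ := by rw [mul_pow, ← pow_mul]; ring_nf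

lemma pK_log_le (C3 u : ℕ) (hC3 : 1 ≤ C3) (hu : 1 ≤ u) :
    Real.log (pK C3 u : ℝ) ≤ 9 * C3 * (pY0 C3 : ℝ) ^ 2 * (u : ℝ) ^ (16 * C3 + 1) := by
  have hu' : (1 : ℝ) ≤ u := by exact_mod_cast hu
  have hy1 : 1 ≤ py C3 u := le_trans (by norm_num) (py_ge C3 u hC3)
  have hy : (py C3 u : ℝ) ≤ (pY0 C3 : ℝ) * (u : ℝ) ^ (8 * C3) := by
    exact_mod_cast py_le C3 u hu
  have hy0 : (0 : ℝ) ≤ (py C3 u : ℝ) := Nat.cast_nonneg _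
  have hfac : Real.log (Nat.factorial (py C3 u) : ℝ) ≤ (py C3 u : ℝ) ^ 2 := by
    have h1 : (Nat.factorial (py C3 u) : ℝ) ≤ (py C3 u : ℝ) ^ (py C3 u) := by
      exact_mod_cast Nat.factorial_le_pow _
    have h2 : (0 : ℝ) < (Nat.factorial (py C3 u) : ℝ) := by exact_mod_cast Nat.factorial_pos _
    calc _ ≤ Real.log ((py C3 u : ℝ) ^ (py C3 u)) := Real.log_le_log h2 h1
      _ = (py C3 u : ℝ) * Real.log (py C3 u : ℝ) := Real.log_pow _ _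
      _ ≤ (py C3 u : ℝ) * (py C3 u : ℝ) := by
          exact mul_le_mul_of_nonneg_left (Real.log_le_self hy0) hy0
      _ = _ := by ring
  have hfac0 : 0 ≤ Real.log (Nat.factorial (py C3 u) : ℝ) := by
    apply Real.log_nonneg; exact_mod_cast Nat.factorial_pos _
  unfold pK
  push_cast
  rw [Real.log_pow]
  have hv := pv_le C3 u hC3 hu
  have hyy : (py C3 u : ℝ) ^ 2 ≤ ((pY0 C3 : ℝ) * (u : ℝ) ^ (8 * C3)) ^ 2 :=
    pow_le_pow_left₀ hy0 hy 2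
  have hC0 : (0 : ℝ) ≤ 9 * C3 * u := by positivity
  calc (pv C3 u : ℝ) * Real.log (Nat.factorial (py C3 u) : ℝ)
      ≤ (9 * C3 * u) * ((pY0 C3 : ℝ) * (u : ℝ) ^ (8 * C3)) ^ 2 := by
        apply mul_le_mul hv (hfac.trans hyy) hfac0 hC0
    _ = _ := by
        have : (u : ℝ) ^ (16 * C3 + 1) = ((u : ℝ) ^ (8 * C3)) ^ 2 * u := by
          rw [← pow_mul]; rw [pow_succ]; ring_nf
        rw [this]; ring

lemma pLoss_log_le (k C3 u : ℕ) (hu : 1 ≤ u) : Real.log (pLoss k C3 u : ℝ) ≤ (k + 9) + 2 * (8 * C3 * u)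
      + Real.log (pK C3 u : ℝ) + (pv C3 u : ℝ) * (8 * C3 * u) := by
  have hQ0 : (0 : ℝ) < (pQs C3 u : ℝ) := by exact_mod_cast pQs_pos C3 u
  have hK0 : (0 : ℝ) < (pK C3 u : ℝ) := by exact_mod_cast pK_pos C3 u
  have hlogQ := pQs_log_le C3 u hu
  have hv0 : (0 : ℝ) ≤ (pv C3 u : ℝ) := Nat.cast_nonneg _
  unfold pLoss pDmax
  push_cast
  have h2 : (0 : ℝ) < (2 : ℝ) ^ (k + 9) := by positivity
  have hQv : (0 : ℝ) < (pQs C3 u : ℝ) ^ pv C3 u := by positivity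
  rw [Real.log_mul (by positivity) (by positivity), Real.log_mul (by positivity) (by positivity),
    Real.log_mul (by positivity) (by positivity), Real.log_pow (pQs C3 u : ℝ) (pv C3 u)]
  have h3 := log_two_pow_le (k + 9)
  push_cast at h3
  have h4 : (pv C3 u : ℝ) * Real.log (pQs C3 u : ℝ) ≤ (pv C3 u : ℝ) * (8 * C3 * u) :=
    mul_le_mul_of_nonneg_left hlogQ hv0
  have h5 : (0 : ℝ) ≤ 8 * (C3 : ℝ) * u := by positivity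
  linarith

lemma pnmin_log_le (C3 u : ℕ) (hC3 : 1 ≤ C3) (hu : 1 ≤ u) :
    Real.log (pnmin C3 u : ℝ) ≤ 792 * C3 ^ 2 * (u : ℝ) ^ 3 := by
  have hu' : (1 : ℝ) ≤ u := by exact_mod_cast hu
  have hC3' : (1 : ℝ) ≤ C3 := by exact_mod_cast hC3
  have hQ0 : (0 : ℝ) < (pQs C3 u : ℝ) := by exact_mod_cast pQs_pos C3 u
  have hlogQ := pQs_log_le C3 u hu
  have hv := pv_le C3 u hC3 hu
  have hlog2 : Real.log 2 ≤ 1 := by have := Real.log_two_lt_d9; linarith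
  have hcu : (C3 : ℝ) * u ≥ 1 := by nlinarith
  unfold pnmin
  have hcast : (((2 * pQs C3 u) ^ (8 * u * (pv C3 u + 2)) : ℕ) : ℝ) =
      (2 * (pQs C3 u : ℝ)) ^ (8 * u * (pv C3 u + 2)) := by push_cast; ring
  rw [hcast, Real.log_pow]
  have h2Q : Real.log (2 * (pQs C3 u : ℝ)) ≤ 9 * C3 * u := by
    rw [Real.log_mul (by norm_num) hQ0.ne']
    linarith
  have h2Q0 : 0 ≤ Real.log (2 * (pQs C3 u : ℝ)) := by
    apply Real.log_nonneg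
    have : (1 : ℝ) ≤ (pQs C3 u : ℝ) := by exact_mod_cast pQs_pos C3 u
    linarith
  have hv2 : (pv C3 u : ℝ) + 2 ≤ 11 * C3 * u := by linarith
  have hcast2 : ((8 * u * (pv C3 u + 2) : ℕ) : ℝ) = 8 * (u : ℝ) * ((pv C3 u : ℝ) + 2) := by push_cast; ring
  rw [hcast2]
  calc (8 * (u : ℝ) * ((pv C3 u : ℝ) + 2)) * Real.log (2 * (pQs C3 u : ℝ))
      ≤ (8 * (u : ℝ) * (11 * C3 * u)) * (9 * C3 * u) := by
        apply mul_le_mul _ h2Q h2Q0 (by positivity)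
        exact mul_le_mul_of_nonneg_left hv2 (by positivity)
    _ = _ := by ring

/-- The size of all parameters: `log (Loss · nmin · 4 Qs) ≤ C u^E`. -/
lemma log_params (k C3 : ℕ) (hC3 : 1 ≤ C3) : ∃ C1 : ℝ, 1 ≤ C1 ∧ ∀ u : ℕ, 1 ≤ u →
    Real.log ((pLoss k C3 u : ℝ) * (pnmin C3 u : ℝ) * (4 * (pQs C3 u : ℝ))) ≤ C1 * (u : ℝ) ^ (16 * C3 + 1) := by
  refine ⟨k + 11 + 24 * C3 + 9 * C3 * (pY0 C3 : ℝ) ^ 2 + 864 * C3 ^ 2, ?_, ?_⟩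
  · have : (0 : ℝ) ≤ 9 * C3 * (pY0 C3 : ℝ) ^ 2 := by positivity
    have : (0 : ℝ) ≤ (864 : ℝ) * C3 ^ 2 := by positivity
    have : (0 : ℝ) ≤ (k : ℝ) := Nat.cast_nonneg _
    have : (0 : ℝ) ≤ (C3 : ℝ) := Nat.cast_nonneg _
    linarith
  intro u hu
  have hu' : (1 : ℝ) ≤ u := by exact_mod_cast hu
  have hC3' : (1 : ℝ) ≤ C3 := by exact_mod_cast hC3
  have hQ0 : (0 : ℝ) < (pQs C3 u : ℝ) := by exact_mod_cast pQs_pos C3 u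
  have hK0 : (0 : ℝ) < (pK C3 u : ℝ) := by exact_mod_cast pK_pos C3 u
  have hlogQ := pQs_log_le C3 u hu
  have hlogK := pK_log_le C3 u hC3 hu
  have hv := pv_le C3 u hC3 hu
  have hv0 : (0 : ℝ) ≤ (pv C3 u : ℝ) := Nat.cast_nonneg _
  have hlog2 : Real.log 2 ≤ 1 := by have := Real.log_two_lt_d9; linarith
  have hpow : ∀ a : ℕ, a ≤ 16 * C3 + 1 → (u : ℝ) ^ a ≤ (u : ℝ) ^ (16 * C3 + 1) :=
    fun a ha => pow_le_pow_right₀ hu' ha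
  have hLoss := pLoss_log_le k C3 u hu
  have hnmin := pnmin_log_le C3 u hC3 hu
  have h4Q : Real.log (4 * (pQs C3 u : ℝ)) ≤ 2 + 8 * C3 * u := by
    rw [Real.log_mul (by norm_num) hQ0.ne']
    have : Real.log 4 = 2 * Real.log 2 := by
      rw [show (4 : ℝ) = 2 ^ 2 by norm_num, Real.log_pow]; norm_num
    rw [this]; linarith
  have hLossPos : (0 : ℝ) < (pLoss k C3 u : ℝ) := by
    unfold pLoss pDmax; push_cast; positivity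
  have hnminPos : (0 : ℝ) < (pnmin C3 u : ℝ) := by
    unfold pnmin; push_cast; positivity
  rw [Real.log_mul (by positivity) (by positivity), Real.log_mul hLossPos.ne' hnminPos.ne']
  have hvv : (pv C3 u : ℝ) * (8 * C3 * u) ≤ 72 * C3 ^ 2 * (u : ℝ) ^ 2 := by
    calc (pv C3 u : ℝ) * (8 * C3 * u) ≤ (9 * C3 * u) * (8 * C3 * u) :=
          mul_le_mul_of_nonneg_right hv (by positivity)
      _ = _ := by ring
  have e1 := hpow 1 (by omega)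
  have e2 := hpow 2 (by omega)
  have e3 := hpow 3 (by omega)
  have e0 : (1 : ℝ) ≤ (u : ℝ) ^ (16 * C3 + 1) := one_le_pow₀ hu'
  rw [pow_one] at e1
  generalize (u : ℝ) ^ (16 * C3 + 1) = X at *
  have hk0 : (0 : ℝ) ≤ k := Nat.cast_nonneg _
  have hC0 : (0 : ℝ) ≤ C3 := Nat.cast_nonneg _
  have hC20 : (0 : ℝ) ≤ (C3 : ℝ) ^ 2 := by positivity
  have s1 : (k + 11 : ℝ) ≤ (k + 11) * X := by nlinarith
  have s2 : 24 * (C3 : ℝ) * u ≤ 24 * C3 * X := by nlinarith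
  have s3 : 72 * (C3 : ℝ) ^ 2 * (u : ℝ) ^ 2 ≤ 72 * C3 ^ 2 * X := by nlinarith
  have s4 : 792 * (C3 : ℝ) ^ 2 * (u : ℝ) ^ 3 ≤ 792 * C3 ^ 2 * X := by nlinarith
  have e : (k + 11 + 24 * (C3:ℝ) + 9 * C3 * (pY0 C3 : ℝ) ^ 2 + 864 * C3 ^ 2) * X =
      (k + 11) * X + 24 * C3 * X + 9 * C3 * (pY0 C3 : ℝ) ^ 2 * X + 72 * C3 ^ 2 * X + 792 * C3 ^ 2 * X := by ring
  rw [e]
  linarith

end Vale.Agent.Lib.P042
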