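import Mathlib

/-!
Generic digit construction: a set of residues modulo a perfect square `k^2` with no
difference that is a square modulo `k^2` gives large square-difference-free sets of integers.
-/

namespace Vale.Agent.Lib.P042

/-- `NoSquareDiffMod k R`: for distinct `a, b` in `R`, the difference `a - b` is not a square
modulo `k^2`. -/
def NoSquareDiffMod (k : ℕ) (R : Finset ℕ) : Prop :=
  ∀ a ∈ R, ∀ b ∈ R, a ≠ b → ∀ s : ℤ, ¬ ((k : ℤ) ^ 2 ∣ (a : ℤ) - b - s ^ 2)

/-- Digit sets: numbers with `L` base `k^2` digits, all digits from `R`. -/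
def digitSet (k : ℕ) (R : Finset ℕ) : ℕ → Finset ℕ
  | 0 => {0}
  | L + 1 => (R ×ˢ digitSet k R L).image (fun p => p.1 + k ^ 2 * p.2)

lemma mem_digitSet_succ {k : ℕ} {R : Finset ℕ} {L x : ℕ} :
    x ∈ digitSet k R (L + 1) ↔ ∃ r ∈ R, ∃ a ∈ digitSet k R L, r + k ^ 2 * a = x := by
  simp only [digitSet, Finset.mem_image, Finset.mem_product, Prod.exists]
  constructor
  · rintro ⟨r, a, ⟨hr, ha⟩, rfl⟩
    exact ⟨r, hr, a, ha, rfl⟩
  · rintro ⟨r, hr, a, ha, rfl⟩
    exact ⟨r, a, ⟨hr, ha⟩, rfl⟩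

lemma digitSet_lt {k : ℕ} {R : Finset ℕ} (hR : ∀ r ∈ R, r < k ^ 2) (L : ℕ) :
    ∀ x ∈ digitSet k R L, x < (k ^ 2) ^ L := by
  induction L with
  | zero => simp [digitSet]
  | succ L ih =>
    intro x hx
    obtain ⟨r, hr, a, ha, rfl⟩ := mem_digitSet_succ.1 hx
    have h1 := hR r hr
    have h2 := ih a ha
    have h3 : a + 1 ≤ (k ^ 2) ^ L := h2
    calc r + k ^ 2 * a < k ^ 2 + k ^ 2 * a := by omega
      _ = k ^ 2 * (a + 1) := by ring
      _ ≤ k ^ 2 * (k ^ 2) ^ L := Nat.mul_le_mul_left _ h3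
      _ = (k ^ 2) ^ (L + 1) := by ring

lemma digitSet_card {k : ℕ} {R : Finset ℕ} (hR : ∀ r ∈ R, r < k ^ 2) (L : ℕ) :
    (digitSet k R L).card = R.card ^ L := by
  induction L with
  | zero => simp [digitSet]
  | succ L ih =>
    rw [digitSet, Finset.card_image_of_injOn, Finset.card_product, ih, pow_succ, mul_comm]
    rintro ⟨r, a⟩ h1 ⟨r', a'⟩ h2 h
    simp only [Finset.coe_product, Set.mem_prod, Finset.mem_coe] at h1 h2
    simp only at h
    have hr := hR r h1.1
    have hr' := hR r' h2.1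
    have hM : 0 < k ^ 2 := by omega
    have e1 : (r + k ^ 2 * a) % k ^ 2 = r := by
      rw [Nat.add_mul_mod_self_left, Nat.mod_eq_of_lt hr]
    have e2 : (r' + k ^ 2 * a') % k ^ 2 = r' := by
      rw [Nat.add_mul_mod_self_left, Nat.mod_eq_of_lt hr']
    have hrr : r = r' := by rw [← e1, ← e2, h]
    subst hrr
    have : k ^ 2 * a = k ^ 2 * a' := by omega
    have haa : a = a' := Nat.eq_of_mul_eq_mul_left hM this
    rw [haa]

/-- No two distinct elements of a digit set differ by a perfect square. -/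
lemma digitSet_no_square_diff {k : ℕ} {R : Finset ℕ} (hk : 0 < k) (hsq : NoSquareDiffMod k R)
    (L : ℕ) : ∀ x ∈ digitSet k R L, ∀ y ∈ digitSet k R L, x ≠ y →
      ∀ s : ℤ, (x : ℤ) - y ≠ s ^ 2 := by
  induction L with
  | zero =>
    intro x hx y hy hxy
    simp only [digitSet, Finset.mem_singleton] at hx hy
    omega
  | succ L ih =>
    intro x hx y hy hxy s hs
    obtain ⟨r, hr, a, ha, rfl⟩ := mem_digitSet_succ.1 hx
    obtain ⟨r', hr', a', ha', rfl⟩ := mem_digitSet_succ.1 hy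
    push_cast at hs
    by_cases hrr : r = r'
    · subst hrr
      have hne : a ≠ a' := by
        rintro rfl
        exact hxy rfl
      have h1 : ((k : ℤ) ^ 2) * ((a : ℤ) - a') = s ^ 2 := by linarith
      have h2 : (k : ℤ) ^ 2 ∣ s ^ 2 := ⟨_, h1.symm⟩
      have h3 : (k : ℤ) ∣ s := (Int.pow_dvd_pow_iff (by norm_num)).1 h2
      obtain ⟨t, rfl⟩ := h3
      have hk0 : ((k : ℤ) ^ 2) ≠ 0 := by positivity
      have h4 : (a : ℤ) - a' = t ^ 2 := by
        apply mul_left_cancel₀ hk0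
        rw [h1]
        ring
      exact ih a ha a' ha' hne t h4
    · apply hsq r hr r' hr' hrr s
      refine ⟨(a' : ℤ) - a, ?_⟩
      have : (r : ℤ) - r' - s ^ 2 = (r : ℤ) - r' - ((r : ℤ) + (k : ℤ) ^ 2 * a - (r' + (k : ℤ) ^ 2 * a')) := by
        rw [hs]
      rw [this]
      ring

/-- Ruzsa's construction in Lean, for any perfect-square modulus. -/
theorem ruzsa_generic {k : ℕ} (hk : 1 < k) {R : Finset ℕ} (hR : ∀ r ∈ R, r < k ^ 2)
    (hne : 1 < R.card) (hsq : NoSquareDiffMod k R) (N : ℕ) (hN : 1 ≤ N) :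
    ∃ A : Finset ℕ, A ⊆ Finset.Icc 1 N ∧
      (∀ a ∈ A, ∀ b ∈ A, ∀ n : ℕ, 1 ≤ n → (a : ℤ) - b ≠ (n : ℤ) ^ 2) ∧
      (1 / (R.card : ℝ)) * (N : ℝ) ^ (Real.log R.card / Real.log ((k : ℝ) ^ 2)) ≤ (A.card : ℝ) := by
  set M := k ^ 2 with hM
  have hM1 : 1 < M := by
    have : 1 < k ^ 2 := Nat.one_lt_pow (by norm_num) hk
    exact this
  set L := Nat.log M N with hL
  have hpow : M ^ L ≤ N := Nat.pow_log_le_self M (by omega)
  have hlt : N < M ^ (L + 1) := Nat.lt_pow_succ_log_self hM1 N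
  refine ⟨(digitSet k R L).image (· + 1), ?_, ?_, ?_⟩
  · intro x hx
    obtain ⟨y, hy, rfl⟩ := Finset.mem_image.1 hx
    have := digitSet_lt hR L y hy
    simp only [Finset.mem_Icc]
    constructor
    · omega
    · have h2 : (k ^ 2) ^ L ≤ N := hpow
      omega
  · intro a ha b hb n hn h
    obtain ⟨x, hx, rfl⟩ := Finset.mem_image.1 ha
    obtain ⟨y, hy, rfl⟩ := Finset.mem_image.1 hb
    have hxy : x ≠ y := by
      rintro rfl
      simp only [sub_self] at h
      have : (n : ℤ) ^ 2 > 0 := by positivity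
      omega
    apply digitSet_no_square_diff (by omega) hsq L x hx y hy hxy n
    push_cast at h
    linarith
  · rw [Finset.card_image_of_injective _ (fun a b h => by simpa using h), digitSet_card hR L]
    have hcard : (1 : ℝ) < R.card := by exact_mod_cast hne
    have hcard0 : (0 : ℝ) < R.card := by linarith
    have hMr : ((k : ℝ) ^ 2) = (M : ℝ) := by rw [hM]; push_cast; ring
    rw [hMr]
    have hMr1 : (1 : ℝ) < M := by exact_mod_cast hM1
    have hNpos : (0 : ℝ) < N := by exact_mod_cast (by omega : 0 < N)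
    have hlogM : 0 < Real.log M := Real.log_pos hMr1
    have hlogR : 0 < Real.log R.card := Real.log_pos hcard
    have hexp : 0 ≤ Real.log R.card / Real.log M := (div_pos hlogR hlogM).le
    have h1 : (N : ℝ) ^ (Real.log R.card / Real.log M) ≤
        ((M : ℝ) ^ (L + 1)) ^ (Real.log R.card / Real.log M) := by
      apply Real.rpow_le_rpow hNpos.le _ hexp
      exact_mod_cast hlt.le
    have h2 : ((M : ℝ) ^ (L + 1)) ^ (Real.log R.card / Real.log M) = (R.card : ℝ) ^ (L + 1) := by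
      rw [← Real.rpow_natCast, ← Real.rpow_mul (by linarith)]
      rw [show ((L + 1 : ℕ) : ℝ) * (Real.log R.card / Real.log M) =
        (Real.log R.card / Real.log M) * ((L + 1 : ℕ) : ℝ) by ring]
      have hbase : (M : ℝ) ^ (Real.log R.card / Real.log M) = (R.card : ℝ) := by
        rw [Real.rpow_def_of_pos (by linarith), mul_div_cancel₀ _ hlogM.ne', Real.exp_log hcard0]
      rw [Real.rpow_mul (by linarith), hbase]
      exact Real.rpow_natCast _ _
    rw [h2] at h1
    push_cast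
    calc 1 / (R.card : ℝ) * (N : ℝ) ^ (Real.log R.card / Real.log M)
        ≤ 1 / (R.card : ℝ) * (R.card : ℝ) ^ (L + 1) := by
          apply mul_le_mul_of_nonneg_left h1 (by positivity)
      _ = (R.card : ℝ) ^ L := by
          field_simp
          ring

end Vale.Agent.Lib.P042
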