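import Vale.Agent.Lib.P042.Defs

/-! # P042 Tau module, auxiliary lemmas: exponentials, Parseval over `Z_K`, classes in intervals, geometric sums -/

namespace Vale.Agent.Lib.P042

open Finset

lemma tauE_add (s t : ℝ) : e (s + t) = e s * e t := by
  unfold e; push_cast; rw [← Complex.exp_add]; ring_nf

lemma tauE_zero : e 0 = 1 := by simp [e]

lemma tauE_int (z : ℤ) : e (z : ℝ) = 1 := by
  unfold e
  rw [Complex.exp_eq_one_iff]; exact ⟨z, by push_cast; ring⟩

lemma tauE_norm (t : ℝ) : ‖e t‖ = 1 := by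
  unfold e
  have : (2 * (Real.pi : ℂ) * Complex.I * (t : ℂ)) = ((2 * Real.pi * t : ℝ) : ℂ) * Complex.I := by
    push_cast; ring
  rw [this, Complex.norm_exp_ofReal_mul_I]

lemma tauE_eq_one_iff (t : ℝ) : e t = 1 ↔ ∃ z : ℤ, t = z := by
  unfold e
  rw [Complex.exp_eq_one_iff]
  constructor
  · rintro ⟨n, hn⟩
    refine ⟨n, ?_⟩
    have h2 : (2 * (Real.pi : ℂ) * Complex.I) ≠ 0 := by
      simp [Real.pi_ne_zero, Complex.I_ne_zero]
    have : (t : ℂ) = n := by
      apply mul_left_cancel₀ h2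
      rw [hn]; ring
    exact_mod_cast this
  · rintro ⟨z, rfl⟩
    exact ⟨z, by push_cast; ring⟩

lemma tauE_nat_mul (n : ℕ) (t : ℝ) : e ((n : ℝ) * t) = e t ^ n := by
  induction n with
  | zero => simp [tauE_zero]
  | succ k ih =>
    have : ((k + 1 : ℕ) : ℝ) * t = (k : ℝ) * t + t := by push_cast; ring
    rw [this, tauE_add, ih, pow_succ]

lemma tauE_add_int (t : ℝ) (z : ℤ) : e (t + z) = e t := by
  rw [tauE_add, tauE_int, mul_one]

lemma tauE_conj (t : ℝ) : (starRingEnd ℂ) (e t) = e (-t) := by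
  unfold e
  rw [← Complex.exp_conj]
  congr 1
  have h2 : (starRingEnd ℂ) (2 : ℂ) = 2 := map_ofNat _ 2
  simp [Complex.conj_ofReal, h2]

/-- the geometric sum over a full period vanishes -/
lemma tau_geom_zero (t : ℂ) (M : ℕ) (ht : t ^ M = 1) (ht1 : t ≠ 1) :
    ∑ z ∈ range M, t ^ z = 0 := by
  have h := geom_sum_mul t M
  rw [ht, sub_self] at h
  have h2 : t - 1 ≠ 0 := sub_ne_zero.mpr ht1
  exact (mul_eq_zero.mp h).resolve_right h2

/-- bound for an incomplete geometric sum with a root of unity -/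
lemma tau_geom_bound (t : ℂ) (M : ℕ) (hM : 1 ≤ M) (hn : ‖t‖ = 1) (ht : t ^ M = 1) (ht1 : t ≠ 1) (n : ℕ) :
    ‖∑ z ∈ range n, t ^ z‖ ≤ M := by
  induction n using Nat.strong_induction_on with
  | _ n ih =>
    by_cases hnM : n < M
    · calc ‖∑ z ∈ range n, t ^ z‖ ≤ ∑ z ∈ range n, ‖t ^ z‖ := norm_sum_le _ _
        _ = n := by simp [hn]
        _ ≤ M := by exact_mod_cast hnM.le
    · push Not at hnM
      obtain ⟨k, rfl⟩ := Nat.exists_eq_add_of_le hnM
      rw [Finset.sum_range_add, tau_geom_zero t M ht ht1, zero_add]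
      have : ∑ z ∈ range k, t ^ (M + z) = ∑ z ∈ range k, t ^ z := by
        apply Finset.sum_congr rfl
        intro z _
        rw [pow_add, ht, one_mul]
      rw [this]
      exact ih k (by omega)

/-- Orthogonality over `Z_K`. -/
lemma tau_orth (K : ℕ) (hK : 0 < K) (c c' : ℕ) (hc : c < K) (hc' : c' < K) :
    ∑ κ ∈ range K, e ((κ : ℝ) * (((c : ℝ) - c') / K)) = if c = c' then (K : ℂ) else 0 := by
  have hK0 : (K : ℝ) ≠ 0 := by positivity
  split_ifs with h
  · subst h
    simp [tauE_zero]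
  · have h1 : ∀ κ ∈ range K, e ((κ : ℝ) * (((c : ℝ) - c') / K)) = (e (((c : ℝ) - c') / K)) ^ κ := by
      intro κ _; exact tauE_nat_mul κ _
    rw [Finset.sum_congr rfl h1]
    apply tau_geom_zero
    · rw [← tauE_nat_mul]
      have : (K : ℝ) * (((c : ℝ) - c') / K) = (((c : ℤ) - (c' : ℤ) : ℤ) : ℝ) := by
        push_cast; field_simp
      rw [this, tauE_int]
    · intro h2
      rw [tauE_eq_one_iff] at h2
      obtain ⟨z, hz⟩ := h2
      have h3 : (c : ℝ) - c' = z * K := by
        field_simp at hz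
        linarith
      have h4 : (c : ℤ) - c' = z * K := by exact_mod_cast h3
      have hc1 : (c : ℤ) < K := by exact_mod_cast hc
      have hc2 : (c' : ℤ) < K := by exact_mod_cast hc'
      have hK1 : (0 : ℤ) < K := by exact_mod_cast hK
      have hz0 : z = 0 := by
        by_contra hz0
        rcases lt_or_gt_of_ne hz0 with h5 | h5
        · have : z ≤ -1 := by omega
          have : z * K ≤ -1 * K := by
            apply mul_le_mul_of_nonneg_right this hK1.le
          have h6 : (0 : ℤ) ≤ c := by positivity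
          have h7 : (0 : ℤ) ≤ c' := by positivity
          linarith
        · have : 1 ≤ z := by omega
          have : 1 * (K : ℤ) ≤ z * K := by
            apply mul_le_mul_of_nonneg_right this hK1.le
          have h6 : (0 : ℤ) ≤ c := by positivity
          have h7 : (0 : ℤ) ≤ c' := by positivity
          linarith
      rw [hz0] at h4
      apply h
      have : (c : ℤ) = c' := by linarith
      exact_mod_cast this

/-- Parseval on `Z_K`, abstract form. -/
lemma tau_parseval_abstract (K : ℕ) (hK : 0 < K) (s : ℕ → ℂ) :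
    ∑ κ ∈ range K, ‖∑ c ∈ range K, e ((κ : ℝ) * ((c : ℝ) / K)) * s c‖ ^ 2 =
      K * ∑ c ∈ range K, ‖s c‖ ^ 2 := by
  have hconj : ∀ z : ℂ, ((‖z‖ ^ 2 : ℝ) : ℂ) = z * (starRingEnd ℂ) z := by
    intro z
    rw [Complex.mul_conj, Complex.normSq_eq_norm_sq]
  have key : ((∑ κ ∈ range K, ‖∑ c ∈ range K, e ((κ : ℝ) * ((c : ℝ) / K)) * s c‖ ^ 2 : ℝ) : ℂ) =
      ((K * ∑ c ∈ range K, ‖s c‖ ^ 2 : ℝ) : ℂ) := by
    push_cast
    have h1 : ∀ κ ∈ range K, ((‖∑ c ∈ range K, e ((κ : ℝ) * ((c : ℝ) / K)) * s c‖ : ℂ)) ^ 2 =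
        ∑ c ∈ range K, ∑ c' ∈ range K,
          (s c * (starRingEnd ℂ) (s c')) * e ((κ : ℝ) * (((c : ℝ) - c') / K)) := by
      intro κ _
      have := hconj (∑ c ∈ range K, e ((κ : ℝ) * ((c : ℝ) / K)) * s c)
      push_cast at this
      rw [this, map_sum, Finset.sum_mul_sum]
      apply Finset.sum_congr rfl; intro c _
      apply Finset.sum_congr rfl; intro c' _
      rw [map_mul, tauE_conj]
      have : (κ : ℝ) * (((c : ℝ) - c') / K) = (κ : ℝ) * ((c : ℝ) / K) + -((κ : ℝ) * ((c' : ℝ) / K)) := by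
        ring
      rw [this, tauE_add]
      ring
    rw [Finset.sum_congr rfl h1]
    rw [Finset.sum_comm]
    have h2 : ∀ c ∈ range K, ∑ κ ∈ range K, ∑ c' ∈ range K,
          (s c * (starRingEnd ℂ) (s c')) * e ((κ : ℝ) * (((c : ℝ) - c') / K)) =
        K * ((‖s c‖ : ℂ) ^ 2) := by
      intro c hc
      rw [Finset.sum_comm]
      have h3 : ∀ c' ∈ range K, ∑ κ ∈ range K, (s c * (starRingEnd ℂ) (s c')) * e ((κ : ℝ) * (((c : ℝ) - c') / K)) =
          (s c * (starRingEnd ℂ) (s c')) * (if c = c' then (K : ℂ) else 0) := by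
        intro c' hc'
        rw [← Finset.mul_sum, tau_orth K hK c c' (Finset.mem_range.mp hc) (Finset.mem_range.mp hc')]
      rw [Finset.sum_congr rfl h3]
      simp only [mul_ite, mul_zero]
      rw [Finset.sum_ite_eq, if_pos hc]
      have := hconj (s c)
      push_cast at this
      rw [← this]
      ring
    rw [Finset.sum_congr rfl h2, ← Finset.mul_sum]
  exact_mod_cast key

/-- Parseval over `Z_K` for a finite sum over integers. -/
lemma tau_parsevalK (K : ℕ) (hK : 0 < K) (W : Finset ℤ) (a : ℤ → ℂ) :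
    ∑ κ ∈ range K, ‖∑ u ∈ W, a u * e ((κ : ℝ) / K * u)‖ ^ 2 =
      K * ∑ c ∈ range K, ‖∑ u ∈ W.filter (fun u : ℤ => u % (K : ℤ) = (c : ℤ)), a u‖ ^ 2 := by
  rw [← tau_parseval_abstract K hK]
  apply Finset.sum_congr rfl
  intro κ _
  congr 2
  have hK0 : (K : ℝ) ≠ 0 := by positivity
  have hKz : (0 : ℤ) < K := by exact_mod_cast hK
  have hmaps : ∀ u ∈ W, (u % (K : ℤ)).toNat ∈ range K := by
    intro u _
    rw [Finset.mem_range]
    have h1 := Int.emod_nonneg u hKz.ne'
    have h2 := Int.emod_lt_of_pos u hKz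
    omega
  rw [← Finset.sum_fiberwise_of_maps_to hmaps]
  apply Finset.sum_congr rfl
  intro c _
  rw [Finset.mul_sum]
  have hfil : W.filter (fun u : ℤ => (u % (K : ℤ)).toNat = c) = W.filter (fun u : ℤ => u % (K : ℤ) = (c : ℤ)) := by
    apply Finset.filter_congr
    intro u _
    have h1 := Int.emod_nonneg u hKz.ne'
    omega
  rw [hfil]
  apply Finset.sum_congr rfl
  intro u hu
  have hu2 := (Finset.mem_filter.mp hu).2
  have h3 : (u : ℝ) = (c : ℝ) + (K : ℝ) * ((u / K : ℤ) : ℝ) := by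
    have := Int.emod_add_mul_ediv u K
    rw [hu2] at this
    have h4 : ((c : ℤ) + (K : ℤ) * (u / K) : ℤ) = u := this
    have h5 : (((c : ℤ) + (K : ℤ) * (u / K) : ℤ) : ℝ) = (u : ℝ) := by rw [h4]
    push_cast at h5
    linarith
  have h6 : (κ : ℝ) / K * u = (κ : ℝ) * ((c : ℝ) / K) + (((κ : ℤ) * (u / K) : ℤ) : ℝ) := by
    rw [h3]; push_cast; field_simp; 
  rw [h6, tauE_add_int]
  ring

/-- The residue class `c` mod `K` in an interval is a progression of step `K`. -/
lemma tau_class_interval (K : ℕ) (hK : 0 < K) (a b c : ℤ) :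
    ∃ (x0 : ℤ) (n' : ℕ), (Ico a b).filter (fun u => u % K = c % K) =
      (range n').image (fun z : ℕ => x0 + (K : ℤ) * z) := by
  have hKz : (0 : ℤ) < K := by exact_mod_cast hK
  set x0 : ℤ := a + (c - a) % K with hx0
  have h0 := Int.emod_nonneg (c - a) hKz.ne'
  have h1 := Int.emod_lt_of_pos (c - a) hKz
  refine ⟨x0, ((b - x0 + K - 1) / K).toNat, ?_⟩
  have hmod : x0 % K = c % K := by
    rw [hx0, Int.add_emod, Int.emod_emod_of_dvd _ (dvd_refl _), ← Int.add_emod]
    congr 1; ring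
  ext u
  simp only [Finset.mem_filter, Finset.mem_Ico, Finset.mem_image, Finset.mem_range]
  constructor
  · rintro ⟨⟨h2, h3⟩, h4⟩
    have hdvd : (K : ℤ) ∣ u - x0 := by
      apply Int.dvd_of_emod_eq_zero
      rw [Int.sub_emod, h4, hmod, sub_self]; simp
    obtain ⟨z, hz⟩ := hdvd
    have hz0 : 0 ≤ z := by
      by_contra h5
      push Not at h5
      have : z ≤ -1 := by omega
      have h6 : (K : ℤ) * z ≤ K * (-1) := mul_le_mul_of_nonneg_left this hKz.le
      have : u = x0 + K * z := by linarith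
      rw [hx0] at this
      linarith
    refine ⟨z.toNat, ?_, ?_⟩
    · have h7 : z + 1 ≤ (b - x0 + K - 1) / K := by
        rw [Int.le_ediv_iff_mul_le hKz]
        have : u = x0 + K * z := by linarith
        nlinarith
      omega
    · have : ((z.toNat : ℕ) : ℤ) = z := Int.toNat_of_nonneg hz0
      rw [this]; linarith
  · rintro ⟨z, hz, rfl⟩
    have hz1 : (z : ℤ) + 1 ≤ (b - x0 + K - 1) / K := by omega
    rw [Int.le_ediv_iff_mul_le hKz] at hz1
    have hz2 : (0 : ℤ) ≤ (K : ℤ) * z := by positivity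
    refine ⟨⟨by linarith, by nlinarith⟩, ?_⟩
    rw [Int.add_mul_emod_self_left, hmod]

/-- In a window of length `K n` every class is a progression of exactly `n` terms. -/
lemma tau_class_window (K : ℕ) (hK : 0 < K) (a c : ℤ) (n : ℕ) :
    ∃ (x0 : ℤ), (Ico a (a + ((K * n : ℕ) : ℤ))).filter (fun u => u % K = c % K) =
      (range n).image (fun z : ℕ => x0 + (K : ℤ) * z) := by
  have hKz : (0 : ℤ) < K := by exact_mod_cast hK
  set x0 : ℤ := a + (c - a) % K with hx0
  have h0 := Int.emod_nonneg (c - a) hKz.ne'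
  have h1 := Int.emod_lt_of_pos (c - a) hKz
  refine ⟨x0, ?_⟩
  have hmod : x0 % K = c % K := by
    rw [hx0, Int.add_emod, Int.emod_emod_of_dvd _ (dvd_refl _), ← Int.add_emod]
    congr 1; ring
  ext u
  simp only [Finset.mem_filter, Finset.mem_Ico, Finset.mem_image, Finset.mem_range]
  push_cast
  constructor
  · rintro ⟨⟨h2, h3⟩, h4⟩
    have hdvd : (K : ℤ) ∣ u - x0 := by
      apply Int.dvd_of_emod_eq_zero
      rw [Int.sub_emod, h4, hmod, sub_self]; simp
    obtain ⟨z, hz⟩ := hdvd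
    have hu : u = x0 + K * z := by linarith
    have hz0 : 0 ≤ z := by
      by_contra h5
      push Not at h5
      have : z ≤ -1 := by omega
      have h6 : (K : ℤ) * z ≤ K * (-1) := mul_le_mul_of_nonneg_left this hKz.le
      rw [hx0] at hu
      linarith
    refine ⟨z.toNat, ?_, ?_⟩
    · have hz2 : z < n := by
        have : (K : ℤ) * z < K * n := by
          rw [hu, hx0] at h3
          linarith
        exact lt_of_mul_lt_mul_left this hKz.le
      omega
    · have : ((z.toNat : ℕ) : ℤ) = z := Int.toNat_of_nonneg hz0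
      rw [this]; linarith
  · rintro ⟨z, hz, rfl⟩
    have hz2 : (0 : ℤ) ≤ (K : ℤ) * z := by positivity
    have hz3 : (z : ℤ) + 1 ≤ n := by exact_mod_cast hz
    have hz4 : (K : ℤ) * (z + 1) ≤ K * n := mul_le_mul_of_nonneg_left hz3 hKz.le
    refine ⟨⟨by rw [hx0]; linarith, ?_⟩, ?_⟩
    · rw [hx0]; nlinarith
    · rw [Int.add_mul_emod_self_left, hmod]

end Vale.Agent.Lib.P042
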