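import Vale.Agent.Lib.P042.TauAux

/-! # P042 Tau module, auxiliary lemmas: characters of the product group -/

namespace Vale.Agent.Lib.P042

open Finset

section Char

variable {n : ℕ} (m : Fin n → ℕ) [∀ i, NeZero (m i)]

/-- Reduction of an integer modulo all the `m i`. -/
def piZ (u : ℤ) : ∀ i, ZMod (m i) := fun i => ((u : ℤ) : ZMod (m i))

lemma tau_mu_zero : mu m (0 : ∀ i, ZMod (m i)) = 0 := by
  unfold mu
  apply Finset.sum_eq_zero
  intro i _
  simp

/-- The character at `piZ u` is the exponential at `u`. -/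
lemma tau_psi_piZ (b : ∀ i, ZMod (m i)) (u : ℤ) : psi m b (piZ m u) = e (mu m b * u) := by
  unfold psi
  have hz : mu m b * u = (∑ i, ((b i).val : ℝ) * (((piZ m u) i).val : ℝ) / (m i : ℝ)) +
      ((∑ i, ((b i).val : ℤ) * (u / (m i : ℤ)) : ℤ) : ℝ) := by
    unfold mu
    push_cast
    rw [Finset.sum_mul, ← Finset.sum_add_distrib]
    apply Finset.sum_congr rfl
    intro i _
    have hm : (m i : ℝ) ≠ 0 := by exact_mod_cast NeZero.ne (m i)
    have h1 : (((piZ m u) i).val : ℤ) = u % (m i : ℤ) := by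
      unfold piZ
      exact ZMod.val_intCast u
    have h2 : ((((piZ m u) i).val : ℤ) : ℝ) + (m i : ℝ) * ((u / (m i : ℤ) : ℤ) : ℝ) = (u : ℝ) := by
      rw [h1]
      have := Int.emod_add_mul_ediv u (m i : ℤ)
      exact_mod_cast this
    have h3 : (((piZ m u) i).val : ℝ) = (u : ℝ) - (m i : ℝ) * ((u / (m i : ℤ) : ℤ) : ℝ) := by
      have : ((((piZ m u) i).val : ℤ) : ℝ) = (((piZ m u) i).val : ℝ) := by push_cast; rfl
      linarith
    rw [h3]
    field_simp
    ring
  rw [hz, tauE_add_int]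

lemma tau_lam_split (K κ : ℕ) (b : ∀ i, ZMod (m i)) (u : ℤ) :
    e (lam m K κ b * u) = e (mu m b * u) * e ((κ : ℝ) / K * u) := by
  unfold lam
  rw [← tauE_add]
  congr 1
  ring

lemma tau_div_one (b : ∀ i, ZMod (m i)) (T : Finset (Fin n)) (i : Fin n) (h : i ∈ T ∨ b i = 0) :
    ∃ q : ℤ, ((∏ j ∈ T, m j : ℕ) : ℝ) * (((b i).val : ℝ) / (m i : ℝ)) = q := by
  rcases h with h | h
  · refine ⟨(((b i).val * ∏ j ∈ T.erase i, m j : ℕ) : ℤ), ?_⟩
    have hm : (m i : ℝ) ≠ 0 := by exact_mod_cast NeZero.ne (m i)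
    rw [← Finset.mul_prod_erase T m h]
    push_cast
    field_simp
  · exact ⟨0, by simp [h]⟩

lemma tau_div_sum (b : ∀ i, ZMod (m i)) (T : Finset (Fin n)) (I : Finset (Fin n))
    (h : ∀ i ∈ I, i ∈ T ∨ b i = 0) :
    ∃ q : ℤ, ((∏ j ∈ T, m j : ℕ) : ℝ) * ∑ i ∈ I, (((b i).val : ℝ) / (m i : ℝ)) = q := by
  induction I using Finset.induction_on with
  | empty => exact ⟨0, by simp⟩
  | insert a s ha ih =>
    obtain ⟨q1, hq1⟩ := tau_div_one m b T a (h a (Finset.mem_insert_self _ _))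
    obtain ⟨q2, hq2⟩ := ih (fun i hi => h i (Finset.mem_insert_of_mem hi))
    refine ⟨q1 + q2, ?_⟩
    rw [Finset.sum_insert ha, mul_add, hq1, hq2]
    push_cast
    ring

/-- Non-triviality of the character `b ≠ 0` on steps `K`. -/
lemma tau_mu_K_ne (hcop : Pairwise (Function.onFun Nat.Coprime m)) (K : ℕ)
    (hKm : ∀ i, Nat.Coprime K (m i)) (b : ∀ i, ZMod (m i)) (hb : b ≠ 0) :
    e (mu m b * K) ≠ 1 := by
  intro h
  rw [tauE_eq_one_iff] at h
  obtain ⟨z, hz⟩ := h
  obtain ⟨i0, hi0⟩ : ∃ i, b i ≠ 0 := by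
    by_contra hcon
    push Not at hcon
    exact hb (funext hcon)
  set S := (univ : Finset (Fin n)).filter (fun i => b i ≠ 0) with hS
  set T := S.erase i0 with hT
  have hrest : ∀ i ∈ (univ : Finset (Fin n)).erase i0, i ∈ T ∨ b i = 0 := by
    intro i hi
    by_cases h0 : b i = 0
    · exact Or.inr h0
    · left
      rw [hT, Finset.mem_erase]
      exact ⟨(Finset.mem_erase.mp hi).1, by rw [hS]; simpa using h0⟩
  obtain ⟨q, hq⟩ := tau_div_sum m b T _ hrest
  set M' : ℕ := ∏ j ∈ T, m j with hM'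
  have hsplit : mu m b = ((b i0).val : ℝ) / (m i0 : ℝ) +
      ∑ i ∈ (univ : Finset (Fin n)).erase i0, (((b i).val : ℝ) / (m i : ℝ)) := by
    unfold mu
    exact (Finset.add_sum_erase _ (fun i => ((b i).val : ℝ) / (m i : ℝ)) (Finset.mem_univ i0)).symm
  have hm0 : (m i0 : ℝ) ≠ 0 := by exact_mod_cast NeZero.ne (m i0)
  have key : ((K * M' * (b i0).val : ℕ) : ℝ) = (m i0 : ℝ) * ((M' * z - K * q : ℤ) : ℝ) := by
    have h1 : (M' : ℝ) * (mu m b * K) = (M' : ℝ) * z := by rw [hz]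
    rw [hsplit] at h1
    push_cast
    have h2 : (M' : ℝ) * ∑ i ∈ (univ : Finset (Fin n)).erase i0, (((b i).val : ℝ) / (m i : ℝ)) = q := hq
    have h3 : (M' : ℝ) * (((b i0).val : ℝ) / (m i0 : ℝ) + ∑ i ∈ (univ : Finset (Fin n)).erase i0,
        (((b i).val : ℝ) / (m i : ℝ))) * K = (M' : ℝ) * z := by
      rw [← h1]; ring
    have h4 : (M' : ℝ) * (((b i0).val : ℝ) / (m i0 : ℝ)) * K + q * K = (M' : ℝ) * z := by
      rw [← h3, ← h2]; ring
    have h5 : (M' : ℝ) * (((b i0).val : ℝ) / (m i0 : ℝ)) * K = (M' : ℝ) * z - q * K := by linarith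
    have h6 : (K : ℝ) * M' * (b i0).val = (m i0 : ℝ) * ((M' : ℝ) * (((b i0).val : ℝ) / (m i0 : ℝ)) * K) := by
      field_simp
    rw [h6, h5]
    ring
  have hdvd : (m i0 : ℤ) ∣ ((K * M' * (b i0).val : ℕ) : ℤ) := by
    refine ⟨M' * z - K * q, ?_⟩
    exact_mod_cast key
  have hdvd2 : m i0 ∣ K * M' * (b i0).val := by exact_mod_cast hdvd
  have hc1 : Nat.Coprime (m i0) K := (hKm i0).symm
  have hc2 : Nat.Coprime (m i0) M' := by
    rw [hM']
    apply Nat.Coprime.prod_right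
    intro j hj
    have : j ≠ i0 := (Finset.mem_erase.mp hj).1
    exact hcop (Ne.symm this)
  have hc3 : Nat.Coprime (m i0) (K * M') := Nat.Coprime.mul_right hc1 hc2
  have hdvd3 : m i0 ∣ (b i0).val := hc3.dvd_of_dvd_mul_left hdvd2
  have hlt : (b i0).val < m i0 := ZMod.val_lt _
  have h0 : (b i0).val = 0 := Nat.eq_zero_of_dvd_of_lt hdvd3 hlt
  exact hi0 ((ZMod.val_eq_zero _).mp h0)

/-- Sums of a nontrivial character over progressions of step `K` are small. -/
lemma tau_mu_geo (hcop : Pairwise (Function.onFun Nat.Coprime m)) (K : ℕ)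
    (hKm : ∀ i, Nat.Coprime K (m i)) (b : ∀ i, ZMod (m i)) (hb : b ≠ 0) (x0 : ℤ) (n' : ℕ) :
    ‖∑ z ∈ range n', e (mu m b * ((x0 + (K : ℤ) * z : ℤ) : ℝ))‖ ≤
      ((∏ i ∈ (univ : Finset (Fin n)).filter (fun i => b i ≠ 0), m i : ℕ) : ℝ) := by
  set S := (univ : Finset (Fin n)).filter (fun i => b i ≠ 0) with hS
  set t := e (mu m b * K) with ht
  have h1 : ∀ z ∈ range n', e (mu m b * ((x0 + (K : ℤ) * z : ℤ) : ℝ)) = e (mu m b * x0) * t ^ z := by
    intro z _
    have : mu m b * ((x0 + (K : ℤ) * z : ℤ) : ℝ) = mu m b * x0 + (z : ℝ) * (mu m b * K) := by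
      push_cast; ring
    rw [this, tauE_add, tauE_nat_mul]
  rw [Finset.sum_congr rfl h1, ← Finset.mul_sum, norm_mul, tauE_norm, one_mul]
  have hM1 : 1 ≤ ∏ i ∈ S, m i := Nat.succ_le_of_lt (Finset.prod_pos (fun i _ => Nat.pos_of_ne_zero (NeZero.ne (m i))))
  apply tau_geom_bound t _ hM1 (tauE_norm _)
  · rw [ht, ← tauE_nat_mul]
    obtain ⟨q, hq⟩ := tau_div_sum m b S univ (by
      intro i _
      by_cases h0 : b i = 0
      · exact Or.inr h0
      · left; rw [hS]; simpa using h0)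
    have : ((∏ i ∈ S, m i : ℕ) : ℝ) * (mu m b * K) = ((q * K : ℤ) : ℝ) := by
      push_cast
      rw [← mul_assoc]
      unfold mu
      push_cast at hq
      rw [hq]
    rw [this, tauE_int]
  · exact tau_mu_K_ne m hcop K hKm b hb

variable {m}

lemma tau_prod_le {Qm : ℕ} (hm : ∀ i, m i ≤ Qm) (hQm : 1 ≤ Qm) (U : Finset (Fin n)) {L : ℕ} (hU : U.card ≤ L) :
    ∏ i ∈ U, m i ≤ Qm ^ L := by
  calc ∏ i ∈ U, m i ≤ ∏ _i ∈ U, Qm := Finset.prod_le_prod' (fun i _ => hm i)
    _ = Qm ^ U.card := by simp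
    _ ≤ Qm ^ L := Nat.pow_le_pow_right hQm hU

variable (m)

/-- Counting characters of small support. -/
lemma tau_card_supp {Qm : ℕ} (hm : ∀ i, m i ≤ Qm) (hQm : 1 ≤ Qm) (hn : n ≤ Qm) (l0 : ℕ) :
    ((univ : Finset (∀ i, ZMod (m i))).filter (fun b => suppSize b ≤ l0)).card ≤
      Qm ^ l0 * ((l0 + 1) * Qm ^ l0) := by
  set s := (univ : Finset (∀ i, ZMod (m i))).filter (fun b => suppSize b ≤ l0) with hs
  set f : (∀ i, ZMod (m i)) → Finset (Fin n) := fun b => univ.filter (fun i => b i ≠ 0) with hf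
  have h1 : s.card ≤ Qm ^ l0 * (s.image f).card := by
    apply Finset.card_le_mul_card_image
    intro S hS
    obtain ⟨b0, hb0, rfl⟩ := Finset.mem_image.mp hS
    have hcard : (f b0).card ≤ l0 := (Finset.mem_filter.mp hb0).2
    set S := f b0 with hSdef
    have hsub : s.filter (fun b => f b = S) ⊆
        Fintype.piFinset (fun i => if i ∈ S then (univ : Finset (ZMod (m i))) else {0}) := by
      intro b hb
      have hb2 := (Finset.mem_filter.mp hb).2
      rw [Fintype.mem_piFinset]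
      intro i
      by_cases hi : i ∈ S
      · simp [hi]
      · simp only [hi, if_false, Finset.mem_singleton]
        rw [← hb2] at hi
        simpa [hf] using hi
    calc (s.filter (fun b => f b = S)).card
        ≤ (Fintype.piFinset (fun i => if i ∈ S then (univ : Finset (ZMod (m i))) else {0})).card :=
          Finset.card_le_card hsub
      _ = ∏ i, (if i ∈ S then (univ : Finset (ZMod (m i))) else {0}).card := Fintype.card_piFinset _
      _ = ∏ i, (if i ∈ S then m i else 1) := by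
          apply Finset.prod_congr rfl
          intro i _
          by_cases hi : i ∈ S
          · simp [hi, ZMod.card]
          · simp [hi]
      _ = ∏ i ∈ S, m i := by
          rw [Finset.prod_ite_mem]
          simp
      _ ≤ Qm ^ l0 := tau_prod_le hm hQm S hcard
  have h2 : (s.image f).card ≤ (l0 + 1) * Qm ^ l0 := by
    have hsub : s.image f ⊆ (range (l0 + 1)).biUnion (fun l => powersetCard l (univ : Finset (Fin n))) := by
      intro S hS
      obtain ⟨b0, hb0, rfl⟩ := Finset.mem_image.mp hS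
      have hcard : (f b0).card ≤ l0 := (Finset.mem_filter.mp hb0).2
      rw [Finset.mem_biUnion]
      exact ⟨(f b0).card, Finset.mem_range.mpr (by omega), Finset.mem_powersetCard.mpr ⟨Finset.subset_univ _, rfl⟩⟩
    calc (s.image f).card ≤ _ := Finset.card_le_card hsub
      _ ≤ ∑ l ∈ range (l0 + 1), (powersetCard l (univ : Finset (Fin n))).card := Finset.card_biUnion_le
      _ ≤ ∑ _l ∈ range (l0 + 1), Qm ^ l0 := by
          apply Finset.sum_le_sum
          intro l hl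
          rw [Finset.card_powersetCard, Finset.card_univ, Fintype.card_fin]
          calc n.choose l ≤ n ^ l := Nat.choose_le_pow _ _
            _ ≤ Qm ^ l := Nat.pow_le_pow_left hn l
            _ ≤ Qm ^ l0 := Nat.pow_le_pow_right hQm (by have := Finset.mem_range.mp hl; omega)
      _ = (l0 + 1) * Qm ^ l0 := by simp
  calc s.card ≤ Qm ^ l0 * (s.image f).card := h1
    _ ≤ Qm ^ l0 * ((l0 + 1) * Qm ^ l0) := Nat.mul_le_mul_left _ h2

end Char

end Vale.Agent.Lib.P042
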