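import Vale.Agent.Lib.P042.TauAux2
import Vale.Agent.Lib.P042.Level
import Vale.Agent.Lib.P042.Arith

/-! # P042 Tau module: one window -/

namespace Vale.Agent.Lib.P042

open Finset

section Window

variable {n : ℕ} (m : Fin n → ℕ) [∀ i, NeZero (m i)]

lemma tau_cardU (U : Finset (Fin n)) :
    cardU (fun i => ZMod (m i)) U = ((∏ i ∈ U, m i : ℕ) : ℝ) := by
  unfold cardU
  push_cast
  apply Finset.prod_congr rfl
  intro i _
  rw [ZMod.card]

/-- The system attached to a progression of step `K` inside `[1,N]`. -/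
lemma tau_sys {N K nP : ℕ} {A : Finset ℤ} {δ ε0 : ℝ} (hδ0 : 0 < δ) (hK1 : 1 ≤ K)
    (hε : 0 < ε0) (hε1 : ε0 ≤ 1 / 4)
    (hcop : Pairwise (Function.onFun Nat.Coprime m))
    (hKm : ∀ i, Nat.Coprime K (m i)) {Qm Lm u : ℕ} (hm : ∀ i, m i ≤ Qm) (hn : n ≤ Qm) (hQm : 1 ≤ Qm)
    (hu : 1 ≤ u) (hδu : δ⁻¹ ≤ Real.exp (2 * u))
    (hreg : Reg A N δ ε0 (K * Qm ^ Lm) (K * nP))
    (hsize : (2 * (Qm : ℝ)) ^ (8 * u * (Lm + 2)) ≤ nP)
    (x0 : ℤ) (hbox : InBox N x0 K nP)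
    (X : Finset ℤ) (hX1 : X ⊆ (range nP).image (fun z : ℕ => x0 + (K : ℤ) * z)) (hX2 : X ⊆ A) :
    SysHyp (G := fun i => ZMod (m i)) (piZ m) X ((range nP).image (fun z : ℕ => x0 + (K : ℤ) * z))
      univ (nP : ℝ) (δ * nP) Lm u (Qm : ℝ) := by
  have hQ1 : (1 : ℝ) ≤ Qm := by exact_mod_cast hQm
  have h2Q : (1 : ℝ) ≤ 2 * (Qm : ℝ) := by linarith
  have hnP1 : (1 : ℝ) ≤ nP := le_trans (one_le_pow₀ h2Q) hsize
  have hnP0 : (0 : ℝ) < nP := by linarith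
  have hνpos : 0 < δ * nP := mul_pos hδ0 hnP0
  have hM2 : 2 * ((Qm : ℝ) ^ Lm) ≤ nP := by
    have h1 : (2 * (Qm : ℝ)) ^ (Lm + 1) ≤ (2 * (Qm : ℝ)) ^ (8 * u * (Lm + 2)) := by
      apply pow_le_pow_right₀ h2Q
      nlinarith
    have h2 : 2 * ((Qm : ℝ) ^ Lm) ≤ (2 * (Qm : ℝ)) ^ (Lm + 1) := by
      rw [pow_succ, mul_pow]
      have h3 : (1 : ℝ) ≤ 2 ^ Lm := one_le_pow₀ (by norm_num)
      have h4 : (0 : ℝ) ≤ (Qm : ℝ) ^ Lm := by positivity
      nlinarith [mul_le_mul h3 hQ1 (by norm_num) (by positivity : (0 : ℝ) ≤ 2 ^ Lm)]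
    linarith
  refine
    { sub := hX1
      νpos := hνpos
      reg := ?_
      unif := ?_
      dens := ?_
      size := ?_
      Qcard := ?_
      Qn := by exact_mod_cast hn
      Q1 := hQ1 }
  · -- regularity
    intro S _ hS w
    obtain ⟨x1, c', himg, hc'⟩ := class_ap m hcop K hKm hK1 x0 nP S w
    set M := ∏ i ∈ S, m i with hMdef
    have hM1 : 1 ≤ M := Nat.succ_le_of_lt (Finset.prod_pos (fun i _ => Nat.pos_of_ne_zero (NeZero.ne (m i))))
    have hMle : M ≤ Qm ^ Lm := tau_prod_le hm hQm S hS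
    have hM1r : (1 : ℝ) ≤ M := by exact_mod_cast hM1
    have hMr : (M : ℝ) ≤ (Qm : ℝ) ^ Lm := by exact_mod_cast hMle
    have hM0r : (0 : ℝ) < M := by linarith
    have h2M : 2 * (M : ℝ) ≤ nP := by linarith
    obtain ⟨hc1, hc2⟩ := abs_le.mp hc'
    have hMc1 : (nP : ℝ) - M ≤ M * c' := by
      have : (M : ℝ) * ((c' : ℝ) - (nP : ℝ) / (M : ℝ)) ≥ (M : ℝ) * (-1) :=
        mul_le_mul_of_nonneg_left hc1 hM0r.le
      have h3 : (M : ℝ) * ((c' : ℝ) - (nP : ℝ) / (M : ℝ)) = M * c' - nP := by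
        field_simp
      linarith
    have hMc2 : (M : ℝ) * c' ≤ nP + M := by
      have : (M : ℝ) * ((c' : ℝ) - (nP : ℝ) / (M : ℝ)) ≤ (M : ℝ) * 1 :=
        mul_le_mul_of_nonneg_left hc2 hM0r.le
      have h3 : (M : ℝ) * ((c' : ℝ) - (nP : ℝ) / (M : ℝ)) = M * c' - nP := by
        field_simp
      linarith
    have hL : K * nP ≤ 2 * (K * M) * c' := by
      have h4 : (nP : ℝ) ≤ 2 * M * c' := by linarith
      have h5 : nP ≤ 2 * M * c' := by exact_mod_cast h4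
      calc K * nP ≤ K * (2 * M * c') := Nat.mul_le_mul_left _ h5
        _ = 2 * (K * M) * c' := by ring
    have hbox2 : InBox N x1 (K * M) c' := by
      intro z hz
      have hmem : x1 + ((K * M : ℕ) : ℤ) * z ∈ (range c').image (fun z : ℕ => x1 + ((K * M : ℕ) : ℤ) * z) :=
        Finset.mem_image.mpr ⟨z, Finset.mem_range.mpr hz, rfl⟩
      rw [← himg] at hmem
      obtain ⟨z2, hz2, hz3⟩ := Finset.mem_image.mp (Finset.mem_filter.mp hmem).1
      have := hbox z2 (Finset.mem_range.mp hz2)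
      rw [hz3] at this
      exact this
    have hKM1 : 1 ≤ K * M := Nat.mul_pos hK1 hM1
    have happ := hreg (K * M) c' x1 hKM1 (Nat.mul_le_mul_left _ hMle) hL hbox2
    -- the count of X
    have hcnt : cnt (G := fun i => ZMod (m i)) (piZ m) X S w ≤ (apCount A x1 (K * M) c' : ℝ) := by
      unfold cnt apCount
      have hsub : X.filter (fun x => ∀ i ∈ S, piZ m x i = w i) ⊆
          ((range c').filter (fun z : ℕ => x1 + ((K * M : ℕ) : ℤ) * z ∈ A)).image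
            (fun z : ℕ => x1 + ((K * M : ℕ) : ℤ) * z) := by
        intro v hv
        obtain ⟨hv1, hv2⟩ := Finset.mem_filter.mp hv
        have hv3 : v ∈ ((range nP).image (fun z : ℕ => x0 + (K : ℤ) * z)).filter
            (fun u => ∀ i ∈ S, ((u : ℤ) : ZMod (m i)) = w i) :=
          Finset.mem_filter.mpr ⟨hX1 hv1, hv2⟩
        rw [himg] at hv3
        obtain ⟨z, hz, rfl⟩ := Finset.mem_image.mp hv3
        exact Finset.mem_image.mpr ⟨z, Finset.mem_filter.mpr ⟨hz, hX2 hv1⟩, rfl⟩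
      have := (Finset.card_le_card hsub).trans Finset.card_image_le
      exact_mod_cast this
    unfold rr
    rw [tau_cardU, div_le_iff₀ hνpos]
    have hcnt2 : cnt (G := fun i => ZMod (m i)) (piZ m) X S w ≤ (1 + ε0) * δ * c' := le_trans hcnt happ
    have hc0 : (0 : ℝ) ≤ c' := by positivity
    have hfin : (M : ℝ) * ((1 + ε0) * δ * c') ≤ 2 * (δ * nP) := by
      have h6 : (M : ℝ) * c' ≤ 3 / 2 * nP := by linarith
      have h7 : (1 + ε0) * δ ≤ 5 / 4 * δ := by nlinarith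
      calc (M : ℝ) * ((1 + ε0) * δ * c') = ((1 + ε0) * δ) * ((M : ℝ) * c') := by ring
        _ ≤ (5 / 4 * δ) * (3 / 2 * nP) := by
            apply mul_le_mul h7 h6 (by positivity) (by positivity)
        _ ≤ 2 * (δ * nP) := by nlinarith [mul_pos hδ0 hnP0]
    calc (M : ℝ) * cnt (G := fun i => ZMod (m i)) (piZ m) X S w
        ≤ (M : ℝ) * ((1 + ε0) * δ * c') := mul_le_mul_of_nonneg_left hcnt2 hM0r.le
      _ ≤ 2 * (δ * nP) := hfin
  · -- uniformity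
    intro U _ _ w
    obtain ⟨x1, c', himg, hc'⟩ := class_ap m hcop K hKm hK1 x0 nP U w
    have hM1 : 1 ≤ ∏ i ∈ U, m i := Nat.succ_le_of_lt (Finset.prod_pos (fun i _ => Nat.pos_of_ne_zero (NeZero.ne (m i))))
    have hcnt : cnt (G := fun i => ZMod (m i)) (piZ m) ((range nP).image (fun z : ℕ => x0 + (K : ℤ) * z)) U w = c' := by
      unfold cnt
      have h1 : ((range nP).image (fun z : ℕ => x0 + (K : ℤ) * z)).filter (fun x => ∀ i ∈ U, piZ m x i = w i) =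
          (range c').image (fun z : ℕ => x1 + ((K * ∏ i ∈ U, m i : ℕ) : ℤ) * z) := himg
      rw [h1, Finset.card_image_of_injective, Finset.card_range]
      intro z1 z2 hz
      have hKM : ((K * ∏ i ∈ U, m i : ℕ) : ℤ) ≠ 0 := by
        have : 0 < K * ∏ i ∈ U, m i := Nat.mul_pos hK1 hM1
        exact_mod_cast this.ne'
      have h2 : ((K * ∏ i ∈ U, m i : ℕ) : ℤ) * (z1 : ℤ) = ((K * ∏ i ∈ U, m i : ℕ) : ℤ) * (z2 : ℤ) := by
        simpa using hz
      have h3 : (z1 : ℤ) = z2 := mul_left_cancel₀ hKM h2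
      exact_mod_cast h3
    rw [hcnt, tau_cardU]
    exact hc'
  · -- density
    have h1 : δ * Real.exp (2 * u) ≥ 1 := by
      have := mul_le_mul_of_nonneg_left hδu hδ0.le
      rw [mul_inv_cancel₀ hδ0.ne'] at this
      exact this
    calc (nP : ℝ) = 1 * nP := by ring
      _ ≤ (δ * Real.exp (2 * u)) * nP := mul_le_mul_of_nonneg_right h1 hnP0.le
      _ = δ * nP * Real.exp (2 * u) := by ring
  · -- size
    have h1 : (2 * (Qm : ℝ)) ^ (4 * u * (Lm + 1)) ≤ (2 * (Qm : ℝ)) ^ (8 * u * (Lm + 2)) := by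
      apply pow_le_pow_right₀ h2Q
      nlinarith
    exact le_trans h1 hsize
  · intro i
    rw [ZMod.card]
    exact_mod_cast hm i

/-- The characters of small nonzero support. -/
noncomputable def tauBp (l0 : ℕ) : Finset (∀ i, ZMod (m i)) :=
  (univ : Finset (∀ i, ZMod (m i))).filter (fun b => suppSize b ≤ l0 ∧ b ≠ 0)

/-- Grouping the nonzero characters by support: Bessel at each support. -/
lemma tau_first (X : Finset ℤ) (ν : ℝ) (hν : 0 < ν) (l0 : ℕ) :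
    ∑ b ∈ tauBp m l0, ‖(ν⁻¹ : ℂ) * ∑ u ∈ X, psi m b (piZ m u)‖ ^ 2 ≤
      ∑ l ∈ Icc 1 l0, Mlev (G := fun i => ZMod (m i)) (piZ m) X ν univ l := by
  set T := (Icc 1 l0).biUnion (fun l => powersetCard l (univ : Finset (Fin n))) with hT
  have hmaps : ∀ b ∈ tauBp m l0, ((univ : Finset (Fin n)).filter (fun i => b i ≠ 0)) ∈ T := by
    intro b hb
    obtain ⟨_, hb1, hb2⟩ := Finset.mem_filter.mp hb
    rw [hT, Finset.mem_biUnion]
    refine ⟨_, ?_, Finset.mem_powersetCard.mpr ⟨Finset.subset_univ _, rfl⟩⟩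
    rw [Finset.mem_Icc]
    refine ⟨?_, hb1⟩
    obtain ⟨i0, hi0⟩ : ∃ i, b i ≠ 0 := by
      by_contra hcon
      push Not at hcon
      exact hb2 (funext hcon)
    exact Finset.card_pos.mpr ⟨i0, by simpa using hi0⟩
  rw [← Finset.sum_fiberwise_of_maps_to hmaps]
  unfold Mlev
  have hdisj : (↑(Icc 1 l0) : Set ℕ).PairwiseDisjoint (fun l => powersetCard l (univ : Finset (Fin n))) :=
    fun a _ b _ hab => Finset.pairwise_disjoint_powersetCard _ hab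
  rw [← Finset.sum_biUnion hdisj]
  apply Finset.sum_le_sum
  intro S _
  calc _ ≤ ∑ b ∈ (univ : Finset (∀ i, ZMod (m i))).filter (fun b => univ.filter (fun i => b i ≠ 0) = S),
        ‖(ν⁻¹ : ℂ) * ∑ x ∈ X, psi m b (piZ m x)‖ ^ 2 := by
        apply Finset.sum_le_sum_of_subset_of_nonneg
        · intro b hb
          exact Finset.mem_filter.mpr ⟨Finset.mem_univ _, (Finset.mem_filter.mp hb).2⟩
        · intro _ _ _
          positivity
    _ ≤ _ := bessel_level (piZ m) X ν hν S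

/-- The total contribution of the progression term is at most `1`. -/
lemma tau_tiny (hcop : Pairwise (Function.onFun Nat.Coprime m)) {K : ℕ}
    (hKm : ∀ i, Nat.Coprime K (m i)) {Qm : ℕ} (hm : ∀ i, m i ≤ Qm) (hn : n ≤ Qm) (hQm : 1 ≤ Qm)
    {l0 nP : ℕ} {a : ℕ} (ha1 : 4 * l0 ≤ a) (hsize : (2 * (Qm : ℝ)) ^ a ≤ nP) (x1 : ℤ) (n' : ℕ) :
    ∑ b ∈ tauBp m l0, ‖((nP : ℂ))⁻¹ * ∑ z ∈ range n', e (mu m b * ((x1 + (K : ℤ) * z : ℤ) : ℝ))‖ ^ 2 ≤ 1 := by
  have hQ1 : (1 : ℝ) ≤ Qm := by exact_mod_cast hQm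
  have h2Q : (1 : ℝ) ≤ 2 * (Qm : ℝ) := by linarith
  have hnP1 : (1 : ℝ) ≤ nP := le_trans (one_le_pow₀ h2Q) hsize
  have hnP0 : (0 : ℝ) < nP := by linarith
  have hP : (0 : ℝ) < (Qm : ℝ) ^ l0 := by positivity
  have hbound : ∀ b ∈ tauBp m l0, ‖((nP : ℂ))⁻¹ * ∑ z ∈ range n', e (mu m b * ((x1 + (K : ℤ) * z : ℤ) : ℝ))‖ ^ 2 ≤
      ((Qm : ℝ) ^ l0 / nP) ^ 2 := by
    intro b hb
    obtain ⟨_, hb1, hb2⟩ := Finset.mem_filter.mp hb
    have h1 := tau_mu_geo m hcop K hKm b hb2 x1 n'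
    have h2 : (∏ i ∈ (univ : Finset (Fin n)).filter (fun i => b i ≠ 0), m i) ≤ Qm ^ l0 :=
      tau_prod_le hm hQm _ hb1
    have h3 : ((∏ i ∈ (univ : Finset (Fin n)).filter (fun i => b i ≠ 0), m i : ℕ) : ℝ) ≤ (Qm : ℝ) ^ l0 := by
      exact_mod_cast h2
    apply pow_le_pow_left₀ (norm_nonneg _)
    rw [norm_mul, norm_inv, Complex.norm_natCast, div_eq_inv_mul]
    apply mul_le_mul_of_nonneg_left (le_trans h1 h3) (by positivity)
  have hcard : ((tauBp m l0).card : ℝ) ≤ (Qm : ℝ) ^ l0 * ((l0 + 1) * (Qm : ℝ) ^ l0) := by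
    have h1 : tauBp m l0 ⊆ (univ : Finset (∀ i, ZMod (m i))).filter (fun b => suppSize b ≤ l0) := by
      intro b hb
      obtain ⟨_, hb1, _⟩ := Finset.mem_filter.mp hb
      exact Finset.mem_filter.mpr ⟨Finset.mem_univ _, hb1⟩
    have h2 := (Finset.card_le_card h1).trans (tau_card_supp m hm hQm hn l0)
    exact_mod_cast h2
  have hl2 : ((l0 : ℝ) + 1) ≤ 2 ^ l0 := by
    have : l0 + 1 ≤ 2 ^ l0 := Nat.lt_two_pow_self
    exact_mod_cast this
  have hmain : ((Qm : ℝ) ^ l0 * ((l0 + 1) * (Qm : ℝ) ^ l0)) * ((Qm : ℝ) ^ l0 / nP) ^ 2 ≤ 1 := by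
    have h1 : (2 * (Qm : ℝ)) ^ (4 * l0) ≤ nP := le_trans (pow_le_pow_right₀ h2Q ha1) hsize
    have h2 : (2 : ℝ) ^ l0 * (Qm : ℝ) ^ (4 * l0) ≤ (2 * (Qm : ℝ)) ^ (4 * l0) := by
      rw [mul_pow]
      apply mul_le_mul_of_nonneg_right _ (by positivity)
      exact pow_le_pow_right₀ (by norm_num) (by omega)
    have h3 : ((l0 : ℝ) + 1) * (Qm : ℝ) ^ (4 * l0) ≤ nP := by
      refine le_trans ?_ (le_trans h2 h1)
      exact mul_le_mul_of_nonneg_right hl2 (by positivity)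
    have h4 : ((Qm : ℝ) ^ l0 * ((l0 + 1) * (Qm : ℝ) ^ l0)) * ((Qm : ℝ) ^ l0 / nP) ^ 2 =
        (((l0 : ℝ) + 1) * (Qm : ℝ) ^ (4 * l0)) / (nP : ℝ) ^ 2 := by
      rw [div_pow]
      have : (Qm : ℝ) ^ (4 * l0) = ((Qm : ℝ) ^ l0) ^ 4 := by rw [← pow_mul]; ring_nf
      rw [this]
      field_simp
    rw [h4, div_le_one (by positivity)]
    nlinarith
  calc ∑ b ∈ tauBp m l0, ‖((nP : ℂ))⁻¹ * ∑ z ∈ range n', e (mu m b * ((x1 + (K : ℤ) * z : ℤ) : ℝ))‖ ^ 2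
      ≤ ((tauBp m l0).card : ℝ) * ((Qm : ℝ) ^ l0 / nP) ^ 2 := by
        rw [← nsmul_eq_mul]
        exact Finset.sum_le_card_nsmul _ _ _ hbound
    _ ≤ ((Qm : ℝ) ^ l0 * ((l0 + 1) * (Qm : ℝ) ^ l0)) * ((Qm : ℝ) ^ l0 / nP) ^ 2 :=
        mul_le_mul_of_nonneg_right hcard (by positivity)
    _ ≤ 1 := hmain

end Window

end Vale.Agent.Lib.P042
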