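import Vale.Agent.Lib.P042.TauAux3

/-! # P042 Tau module: the windows and their average -/

namespace Vale.Agent.Lib.P042

open Finset

/-- The class `c` mod `K` in the window `[x, x+L)`. -/
noncomputable def tauY (K L : ℕ) (x : ℤ) (c : ℕ) : Finset ℤ :=
  (Ico x (x + (L : ℤ))).filter (fun u : ℤ => u % (K : ℤ) = (c : ℤ))

lemma tau_emod_c {K c : ℕ} (hc : c < K) : (c : ℤ) % (K : ℤ) = (c : ℤ) :=
  Int.emod_eq_of_lt (by positivity) (by exact_mod_cast hc)

/-- The window `Y` is a progression of exactly `nP` terms. -/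
lemma tau_Y_ap {K nP : ℕ} (hK : 0 < K) (x : ℤ) {c : ℕ} (hc : c < K) :
    ∃ x0 : ℤ, tauY K (K * nP) x c = (range nP).image (fun z : ℕ => x0 + (K : ℤ) * z) := by
  obtain ⟨x0, h⟩ := tau_class_window K hK x (c : ℤ) nP
  refine ⟨x0, ?_⟩
  rw [← h]
  unfold tauY
  apply Finset.filter_congr
  intro u _
  rw [tau_emod_c hc]

/-- Cardinality of the image of a progression. -/
lemma tau_ap_card {K : ℕ} (hK : 0 < K) (x0 : ℤ) (n' : ℕ) :
    ((range n').image (fun z : ℕ => x0 + (K : ℤ) * z)).card = n' := by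
  rw [Finset.card_image_of_injective, Finset.card_range]
  intro z1 z2 hz
  have hKz : (K : ℤ) ≠ 0 := by exact_mod_cast hK.ne'
  have h2 : (K : ℤ) * (z1 : ℤ) = (K : ℤ) * (z2 : ℤ) := by simpa using hz
  have h3 : (z1 : ℤ) = z2 := mul_left_cancel₀ hKz h2
  exact_mod_cast h3

/-- Clamping: the part of a window inside `[1,N]` lies in a full window inside `[1,N]`. -/
lemma tau_clamp {N K nP : ℕ} (hK : 0 < K) (hLN : 2 * (K * nP) ≤ N) (hnP : 0 < nP)
    {x : ℤ} (hx : x ∈ Ioc (1 - ((K * nP : ℕ) : ℤ)) (N : ℤ)) {c : ℕ} (hc : c < K) :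
    ∃ x0 : ℤ, InBox N x0 K nP ∧
      (tauY K (K * nP) x c).filter (fun u => u ∈ Icc (1 : ℤ) N) ⊆
        (range nP).image (fun z : ℕ => x0 + (K : ℤ) * z) := by
  obtain ⟨hx1, hx2⟩ := Finset.mem_Ioc.mp hx
  set L : ℤ := ((K * nP : ℕ) : ℤ) with hL
  have hL2 : 2 * L ≤ (N : ℤ) := by
    rw [hL]; exact_mod_cast hLN
  have hL0 : 0 < L := by
    rw [hL]; exact_mod_cast Nat.mul_pos hK hnP
  set x' : ℤ := max 1 (min x ((N : ℤ) - L + 1)) with hx'
  obtain ⟨x0, hx0⟩ := tau_Y_ap (nP := nP) hK x' hc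
  have hmem : ∀ z < nP, x0 + (K : ℤ) * z ∈ tauY K (K * nP) x' c := by
    intro z hz
    rw [hx0]
    exact Finset.mem_image.mpr ⟨z, Finset.mem_range.mpr hz, rfl⟩
  refine ⟨x0, ?_, ?_⟩
  · intro z hz
    have h1 := (Finset.mem_filter.mp (hmem z hz)).1
    obtain ⟨h2, h3⟩ := Finset.mem_Ico.mp h1
    rw [Finset.mem_Icc]
    have h4 : 1 ≤ x' := le_max_left _ _
    have h5 : x' ≤ (N : ℤ) - L + 1 := by
      rw [hx']
      apply max_le
      · omega
      · exact min_le_right _ _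
    rw [← hL] at h3
    constructor <;> omega
  · intro v hv
    rw [← hx0]
    obtain ⟨hv1, hv2⟩ := Finset.mem_filter.mp hv
    obtain ⟨hv3, hv4⟩ := Finset.mem_filter.mp hv1
    obtain ⟨hv5, hv6⟩ := Finset.mem_Ico.mp hv3
    obtain ⟨hv7, hv8⟩ := Finset.mem_Icc.mp hv2
    refine Finset.mem_filter.mpr ⟨Finset.mem_Ico.mpr ⟨?_, ?_⟩, hv4⟩
    · rw [hx']
      apply max_le hv7
      exact le_trans (min_le_left _ _) hv5
    · rw [← hL] at hv6 ⊢
      rw [hx']
      rcases le_total x ((N : ℤ) - L + 1) with h | h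
      · have : min x ((N : ℤ) - L + 1) = x := min_eq_left h
        rw [this]
        have : x ≤ max 1 x := le_max_right _ _
        omega
      · have : min x ((N : ℤ) - L + 1) = (N : ℤ) - L + 1 := min_eq_right h
        rw [this]
        have : (N : ℤ) - L + 1 ≤ max 1 ((N : ℤ) - L + 1) := le_max_right _ _
        omega

/-- The number of points of `A` in all windows and classes. -/
lemma tau_sum_count {N L K : ℕ} (hK : 0 < K) {A : Finset ℤ} (hA : A ⊆ Icc (1 : ℤ) N) :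
    ∑ x ∈ Ioc (1 - (L : ℤ)) (N : ℤ), ∑ c ∈ range K, (((tauY K L x c).filter (fun u => u ∈ A)).card : ℝ) =
      (A.card : ℝ) * L := by
  have hKz : (0 : ℤ) < K := by exact_mod_cast hK
  have h1 : ∀ x ∈ Ioc (1 - (L : ℤ)) (N : ℤ),
      ∑ c ∈ range K, (((tauY K L x c).filter (fun u => u ∈ A)).card : ℝ) =
        (((Ico x (x + (L : ℤ))).filter (fun u => u ∈ A)).card : ℝ) := by
    intro x _
    have hmaps : ∀ u ∈ (Ico x (x + (L : ℤ))).filter (fun u => u ∈ A), (u % (K : ℤ)).toNat ∈ range K := by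
      intro u _
      rw [Finset.mem_range]
      have h1 := Int.emod_nonneg u hKz.ne'
      have h2 := Int.emod_lt_of_pos u hKz
      omega
    rw [Finset.card_eq_sum_card_fiberwise hmaps]
    push_cast
    apply Finset.sum_congr rfl
    intro c _
    congr 2
    unfold tauY
    rw [Finset.filter_comm]
    apply Finset.filter_congr
    intro u _
    have h1 := Int.emod_nonneg u hKz.ne'
    omega
  rw [Finset.sum_congr rfl h1]
  have h2 : ∀ x ∈ Ioc (1 - (L : ℤ)) (N : ℤ),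
      (((Ico x (x + (L : ℤ))).filter (fun u => u ∈ A)).card : ℝ) =
        ∑ a ∈ A, (if x ≤ a ∧ a < x + (L : ℤ) then (1 : ℝ) else 0) := by
    intro x _
    have : (Ico x (x + (L : ℤ))).filter (fun u => u ∈ A) = A.filter (fun a => x ≤ a ∧ a < x + (L : ℤ)) := by
      ext a
      simp [and_comm]
    rw [this, Finset.card_filter]
    push_cast
    rfl
  rw [Finset.sum_congr rfl h2, Finset.sum_comm]
  have h3 : ∀ a ∈ A, ∑ x ∈ Ioc (1 - (L : ℤ)) (N : ℤ), (if x ≤ a ∧ a < x + (L : ℤ) then (1 : ℝ) else 0) = L := by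
    intro a ha
    obtain ⟨ha1, ha2⟩ := Finset.mem_Icc.mp (hA ha)
    rw [← Finset.sum_filter, Finset.sum_const, nsmul_eq_mul, mul_one]
    have : (Ioc (1 - (L : ℤ)) (N : ℤ)).filter (fun x => x ≤ a ∧ a < x + (L : ℤ)) = Ioc (a - L) a := by
      ext x
      simp only [Finset.mem_filter, Finset.mem_Ioc]
      constructor
      · rintro ⟨_, h4, h5⟩
        constructor <;> omega
      · rintro ⟨h4, h5⟩
        refine ⟨⟨?_, ?_⟩, h5, ?_⟩ <;> omega
    rw [this, Int.card_Ioc]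
    have : (a - (a - (L : ℤ))).toNat = L := by
      have : a - (a - (L : ℤ)) = L := by ring
      rw [this]; simp
    rw [this]
  rw [Finset.sum_congr rfl h3]
  simp

/-- The averaging bound for the main term. -/
lemma tau_avg {N K nP : ℕ} {A : Finset ℤ} {δ ε0 : ℝ}
    (hA : A ⊆ Icc (1 : ℤ) N) (hδ : δ = (A.card : ℝ) / N) (hδ0 : 0 < δ) (hK1 : 1 ≤ K)
    (hε : 0 < ε0) (hε1 : ε0 ≤ 1 / 4) (hLN : 2 * (K * nP) ≤ N) (hnP : 0 < nP)
    (hregK : ∀ x0 : ℤ, InBox N x0 K nP → (apCount A x0 K nP : ℝ) ≤ (1 + ε0) * δ * nP) :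
    ∑ x ∈ Ioc (1 - ((K * nP : ℕ) : ℤ)) (N : ℤ), ∑ c ∈ range K,
      ((((tauY K (K * nP) x c).filter (fun u => u ∈ A)).card : ℝ) / (δ * nP) -
        (((tauY K (K * nP) x c).filter (fun u => u ∈ Icc (1 : ℤ) N)).card : ℝ) / nP) ^ 2 ≤
      (K : ℝ) * (ε0 * N + 5 * (K * nP : ℕ)) := by
  have hK : 0 < K := hK1
  have hnP0 : (0 : ℝ) < nP := by exact_mod_cast hnP
  have hν : 0 < δ * nP := mul_pos hδ0 hnP0
  have hN0 : (0 : ℝ) < N := by
    by_contra h
    have hN : (N : ℝ) = 0 := le_antisymm (not_lt.mp h) (by positivity)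
    rw [hN] at hδ
    simp at hδ
    linarith
  set L := K * nP with hL
  have hL0 : 0 < L := Nat.mul_pos hK hnP
  set I := Ioc (1 - (L : ℤ)) (N : ℤ) with hI
  set r : ℤ → ℕ → ℝ := fun x c => (((tauY K L x c).filter (fun u => u ∈ A)).card : ℝ) / (δ * nP) with hr
  set b0 : ℤ → ℕ → ℝ := fun x c => (((tauY K L x c).filter (fun u => u ∈ Icc (1 : ℤ) N)).card : ℝ) / nP with hb0
  -- bounds on `r`, `b0`
  have hA_filter : ∀ x c, (tauY K L x c).filter (fun u => u ∈ A) ⊆ (tauY K L x c).filter (fun u => u ∈ Icc (1 : ℤ) N) := by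
    intro x c v hv
    obtain ⟨h1, h2⟩ := Finset.mem_filter.mp hv
    exact Finset.mem_filter.mpr ⟨h1, hA h2⟩
  have hr_nonneg : ∀ x c, 0 ≤ r x c := fun x c => by
    simp only [hr]; positivity
  have hb_nonneg : ∀ x c, 0 ≤ b0 x c := fun x c => by
    simp only [hb0]; positivity
  have hr_le : ∀ x ∈ I, ∀ c ∈ range K, r x c ≤ 1 + ε0 := by
    intro x hx c hc
    obtain ⟨x0, hbox, hsub⟩ := tau_clamp hK hLN hnP hx (Finset.mem_range.mp hc)
    have h1 : (((tauY K L x c).filter (fun u => u ∈ A)).card : ℝ) ≤ (apCount A x0 K nP : ℝ) := by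
      unfold apCount
      have hsub2 : (tauY K L x c).filter (fun u => u ∈ A) ⊆
          ((range nP).filter (fun z : ℕ => x0 + (K : ℤ) * z ∈ A)).image (fun z : ℕ => x0 + (K : ℤ) * z) := by
        intro v hv
        have hv1 := hsub (hA_filter x c hv)
        obtain ⟨z, hz, rfl⟩ := Finset.mem_image.mp hv1
        exact Finset.mem_image.mpr ⟨z, Finset.mem_filter.mpr ⟨hz, (Finset.mem_filter.mp hv).2⟩, rfl⟩
      have := (Finset.card_le_card hsub2).trans Finset.card_image_le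
      exact_mod_cast this
    have h2 := hregK x0 hbox
    simp only [hr]
    rw [div_le_iff₀ hν]
    calc _ ≤ (apCount A x0 K nP : ℝ) := h1
      _ ≤ (1 + ε0) * δ * nP := h2
      _ = (1 + ε0) * (δ * nP) := by ring
  have hb_le : ∀ x ∈ I, ∀ c ∈ range K, b0 x c ≤ 1 := by
    intro x hx c hc
    obtain ⟨x0, _, hsub⟩ := tau_clamp hK hLN hnP hx (Finset.mem_range.mp hc)
    simp only [hb0]
    rw [div_le_one hnP0]
    have := (Finset.card_le_card hsub).trans (by rw [tau_ap_card hK])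
    exact_mod_cast this
  -- good windows
  have hgood : ∀ x c, 1 ≤ x → x + (L : ℤ) ≤ (N : ℤ) + 1 → c ∈ range K → b0 x c = 1 := by
    intro x c h1 h2 hc
    obtain ⟨x0, hx0⟩ := tau_Y_ap (nP := nP) hK x (Finset.mem_range.mp hc)
    simp only [hb0]
    have hfil : (tauY K L x c).filter (fun u => u ∈ Icc (1 : ℤ) N) = tauY K L x c := by
      apply Finset.filter_true_of_mem
      intro u hu
      obtain ⟨h3, h4⟩ := Finset.mem_Ico.mp (Finset.mem_filter.mp hu).1
      rw [Finset.mem_Icc]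
      constructor <;> omega
    rw [hfil, hL, hx0, tau_ap_card hK, div_self hnP0.ne']
  -- pointwise inequality
  set G := Icc (1 : ℤ) ((N : ℤ) - L + 1) with hG
  have hL2 : 2 * (L : ℤ) ≤ (N : ℤ) := by exact_mod_cast hLN
  have hL1 : (1 : ℤ) ≤ L := by exact_mod_cast hL0
  have hGI : G ⊆ I := by
    intro x hx
    obtain ⟨h1, h2⟩ := Finset.mem_Icc.mp hx
    rw [hI, Finset.mem_Ioc]
    constructor <;> omega
  have hpt : ∀ x ∈ I, ∀ c ∈ range K, (r x c - b0 x c) ^ 2 ≤
      1 - (1 - ε0) * r x c + (if x ∈ G then 0 else 2) := by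
    intro x hx c hc
    have h1 := hr_nonneg x c
    have h2 := hr_le x hx c hc
    have h3 := hb_nonneg x c
    have h4 := hb_le x hx c hc
    by_cases hxG : x ∈ G
    · rw [if_pos hxG, hgood x c (Finset.mem_Icc.mp hxG).1 (by have := (Finset.mem_Icc.mp hxG).2; omega) hc]
      nlinarith
    · rw [if_neg hxG]
      have h5 : r x c ≤ 5 / 4 := by linarith
      have h6 : (r x c - b0 x c) ^ 2 ≤ 25 / 16 := by nlinarith
      have h7 : (1 - ε0) * r x c ≤ 5 / 4 := by nlinarith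
      linarith
  -- sum it up
  have hsumr : ∑ x ∈ I, ∑ c ∈ range K, r x c = (N : ℝ) * K := by
    have h0 := tau_sum_count (N := N) (L := L) hK hA
    have h1 : ∑ x ∈ I, ∑ c ∈ range K, r x c =
        (∑ x ∈ I, ∑ c ∈ range K, (((tauY K L x c).filter (fun u => u ∈ A)).card : ℝ)) / (δ * nP) := by
      rw [Finset.sum_div]
      apply Finset.sum_congr rfl
      intro x _
      rw [Finset.sum_div]
    rw [h1, h0]
    have hcard : (A.card : ℝ) = δ * N := by
      rw [hδ]; field_simp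
    rw [hcard, hL]
    push_cast
    field_simp
  have hIcard : (I.card : ℝ) = (N : ℝ) + L - 1 := by
    rw [hI, Int.card_Ioc]
    have : ((N : ℤ) - (1 - (L : ℤ))) = ((N + L - 1 : ℕ) : ℤ) := by
      have : 1 ≤ N + L := by omega
      push_cast [Nat.cast_sub this]
      ring
    rw [this, Int.toNat_natCast]
    have : 1 ≤ N + L := by omega
    push_cast [Nat.cast_sub this]
    ring
  have hGcard : (G.card : ℝ) = (N : ℝ) - L + 1 := by
    rw [hG, Int.card_Icc]
    have : ((N : ℤ) - L + 1 + 1 - 1) = ((N - L + 1 : ℕ) : ℤ) := by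
      have : L ≤ N := by omega
      push_cast [Nat.cast_sub this]
      ring
    rw [this, Int.toNat_natCast]
    have : L ≤ N := by omega
    push_cast [Nat.cast_sub this]
    ring
  have hbad : ∑ x ∈ I, (if x ∈ G then (0 : ℝ) else 2) = 2 * ((I.card : ℝ) - G.card) := by
    have h1 : ∑ x ∈ I, (if x ∈ G then (0 : ℝ) else 2) = ∑ x ∈ I \ G, (2 : ℝ) := by
      rw [Finset.sum_ite, Finset.sum_const_zero, zero_add]
      apply Finset.sum_congr _ (fun _ _ => rfl)
      ext x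
      simp [Finset.mem_sdiff]
    rw [h1, Finset.sum_const, nsmul_eq_mul, Finset.card_sdiff_of_subset hGI]
    rw [Nat.cast_sub (Finset.card_le_card hGI)]
    ring
  calc ∑ x ∈ I, ∑ c ∈ range K, (r x c - b0 x c) ^ 2
      ≤ ∑ x ∈ I, ∑ c ∈ range K, (1 - (1 - ε0) * r x c + (if x ∈ G then 0 else 2)) :=
        Finset.sum_le_sum (fun x hx => Finset.sum_le_sum (fun c hc => hpt x hx c hc))
    _ = (I.card : ℝ) * K - (1 - ε0) * (∑ x ∈ I, ∑ c ∈ range K, r x c) +
          (K : ℝ) * ∑ x ∈ I, (if x ∈ G then (0 : ℝ) else 2) := by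
        have h1 : ∀ x ∈ I, ∑ c ∈ range K, (1 - (1 - ε0) * r x c + (if x ∈ G then (0 : ℝ) else 2)) =
            (K : ℝ) - (1 - ε0) * (∑ c ∈ range K, r x c) + (K : ℝ) * (if x ∈ G then (0 : ℝ) else 2) := by
          intro x _
          rw [Finset.sum_add_distrib, Finset.sum_sub_distrib, ← Finset.mul_sum]
          simp
        rw [Finset.sum_congr rfl h1, Finset.sum_add_distrib, Finset.sum_sub_distrib, ← Finset.mul_sum,
          ← Finset.mul_sum]
        simp
    _ ≤ (K : ℝ) * (ε0 * N + 5 * (L : ℕ)) := by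
        rw [hsumr, hbad, hIcard, hGcard]
        have hK0 : (0 : ℝ) < K := by exact_mod_cast hK
        have hL1r : (1 : ℝ) ≤ L := by exact_mod_cast hL0
        nlinarith [mul_le_mul_of_nonneg_left hL1r hK0.le]

end Vale.Agent.Lib.P042
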