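import Vale.Agent.Lib.P042.TauAux4

/-! # P042 Tau module: the estimate for one window and class -/

namespace Vale.Agent.Lib.P042

open Finset

lemma tau_s_decomp (A : Finset ℤ) (N : ℕ) (δ : ℝ) (Y : Finset ℤ) (μ : ℝ) :
    ∑ u ∈ Y, ((gfun A N δ u : ℝ) : ℂ) * e (μ * u) =
      ∑ u ∈ Y.filter (fun u => u ∈ A), e (μ * u) -
        (δ : ℂ) * ∑ u ∈ Y.filter (fun u => u ∈ Icc (1 : ℤ) N), e (μ * u) := by
  unfold gfun
  rw [Finset.sum_filter, Finset.sum_filter, Finset.mul_sum, ← Finset.sum_sub_distrib]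
  apply Finset.sum_congr rfl
  intro u _
  by_cases h1 : u ∈ A <;> by_cases h2 : u ∈ Icc (1 : ℤ) N <;> simp [h1, h2]
  ring

lemma tau_geom_real (B : ℝ) (hB : 2 ≤ B) (l0 : ℕ) : ∑ l ∈ Icc 1 l0, B ^ l ≤ 2 * B ^ l0 := by
  induction l0 with
  | zero => simp
  | succ k ih =>
    rw [Finset.sum_Icc_succ_top (by omega), pow_succ]
    have h0 : 0 ≤ B ^ k := by positivity
    nlinarith

section

variable {n : ℕ} (m : Fin n → ℕ) [∀ i, NeZero (m i)]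

lemma tau_supp_zero : suppSize (0 : ∀ i, ZMod (m i)) = 0 := by
  unfold suppSize
  simp

lemma tau_split_B (l0 : ℕ) :
    (univ : Finset (∀ i, ZMod (m i))).filter (fun b => suppSize b ≤ l0) = insert 0 (tauBp m l0) := by
  ext b
  simp only [Finset.mem_filter, Finset.mem_univ, true_and, Finset.mem_insert, tauBp]
  constructor
  · intro h
    by_cases hb : b = 0
    · exact Or.inl hb
    · exact Or.inr ⟨h, hb⟩
  · rintro (rfl | ⟨h, _⟩)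
    · rw [tau_supp_zero]; omega
    · exact h

lemma tau_zero_notin (l0 : ℕ) : (0 : ∀ i, ZMod (m i)) ∉ tauBp m l0 := by
  simp [tauBp]

lemma tau_Bp_empty : tauBp m 0 = ∅ := by
  ext b
  simp only [tauBp, Finset.mem_filter, Finset.mem_univ, true_and, Finset.notMem_empty, iff_false, not_and, not_not]
  intro h
  funext i
  by_contra hi
  have : 0 < suppSize b := Finset.card_pos.mpr ⟨i, by simpa using hi⟩
  omega

lemma tau_norm_sub_sq (a b : ℂ) : ‖a - b‖ ^ 2 ≤ 2 * ‖a‖ ^ 2 + 2 * ‖b‖ ^ 2 := by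
  have h := norm_sub_le a b
  have h0 := norm_nonneg (a - b)
  have h1 : ‖a - b‖ ^ 2 ≤ (‖a‖ + ‖b‖) ^ 2 := pow_le_pow_left₀ h0 h 2
  nlinarith [sq_nonneg (‖a‖ - ‖b‖)]

/-- The estimate for a fixed window and class. -/
lemma tau_window {N K nP : ℕ} {A : Finset ℤ} {δ ε0 : ℝ}
    (hδ0 : 0 < δ) (hK1 : 1 ≤ K)
    (hε : 0 < ε0) (hε1 : ε0 ≤ 1 / 4) (hLN : 2 * (K * nP) ≤ N)
    (hA : A ⊆ Icc (1 : ℤ) N)
    (hcop : Pairwise (Function.onFun Nat.Coprime m))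
    (hKm : ∀ i, Nat.Coprime K (m i)) {Qm Lm u : ℕ} (hm : ∀ i, m i ≤ Qm) (hn : n ≤ Qm) (hQm : 1 ≤ Qm)
    (hu : 1 ≤ u) (hδu : δ⁻¹ ≤ Real.exp (2 * u))
    (hreg : Reg A N δ ε0 (K * Qm ^ Lm) (K * nP))
    (hsize : (2 * (Qm : ℝ)) ^ (8 * u * (Lm + 2)) ≤ nP)
    (D : ℝ) (hD0 : 1 ≤ D) (hD1 : 10 * (u : ℝ) ^ 2 ≤ D ^ 2)
    (hD2 : 2 * (2 * (u : ℝ) + 1) ^ (2 * u) * n ≤ D ^ (2 * u))
    (l0 : ℕ) (hl0 : l0 ≤ Lm)
    {x : ℤ} (hx : x ∈ Ioc (1 - ((K * nP : ℕ) : ℤ)) (N : ℤ)) {c : ℕ} (hc : c < K) :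
    ∑ b ∈ (univ : Finset (∀ i, ZMod (m i))).filter (fun b => suppSize b ≤ l0),
        ‖∑ v ∈ tauY K (K * nP) x c, ((gfun A N δ v : ℝ) : ℂ) * e (mu m b * v)‖ ^ 2 ≤
      (δ * nP) ^ 2 * ((((((tauY K (K * nP) x c).filter (fun u => u ∈ A)).card : ℝ) / (δ * nP) -
        (((tauY K (K * nP) x c).filter (fun u => u ∈ Icc (1 : ℤ) N)).card : ℝ) / nP) ^ 2) +
          (if 1 ≤ l0 then 18 * ((100 * D) ^ 2) ^ l0 else 0)) := by
  have hK : 0 < K := hK1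
  have hQ1 : (1 : ℝ) ≤ Qm := by exact_mod_cast hQm
  have h2Q : (1 : ℝ) ≤ 2 * (Qm : ℝ) := by linarith
  have hnP1 : (1 : ℝ) ≤ nP := le_trans (one_le_pow₀ h2Q) hsize
  have hnP0 : (0 : ℝ) < nP := by linarith
  have hnP : 0 < nP := by exact_mod_cast hnP0
  have hν : 0 < δ * nP := mul_pos hδ0 hnP0
  obtain ⟨x0, hbox, hsub⟩ := tau_clamp hK hLN hnP hx hc
  set L := K * nP with hL
  set Y := tauY K L x c with hY
  set X := Y.filter (fun u => u ∈ A) with hX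
  set P' := Y.filter (fun u => u ∈ Icc (1 : ℤ) N) with hP'
  have hX1 : X ⊆ (range nP).image (fun z : ℕ => x0 + (K : ℤ) * z) := by
    intro v hv
    obtain ⟨h1, h2⟩ := Finset.mem_filter.mp hv
    exact hsub (Finset.mem_filter.mpr ⟨h1, hA h2⟩)
  have hX2 : X ⊆ A := fun v hv => (Finset.mem_filter.mp hv).2
  have hsys := tau_sys m hδ0 hK1 hε hε1 hcop hKm hm hn hQm hu hδu hreg hsize x0 hbox X hX1 hX2
  have hMlev : ∀ l ≤ l0, Mlev (G := fun i => ZMod (m i)) (piZ m) X (δ * nP) univ l ≤ 4 * ((100 * D) ^ 2) ^ l :=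
    fun l hl => level_lemma hsys hu D hD0 hD1 hD2 l (le_trans hl hl0)
  -- the progression form of `P'`
  obtain ⟨x1, n', hP'2⟩ : ∃ (x1 : ℤ) (n' : ℕ), P' = (range n').image (fun z : ℕ => x1 + (K : ℤ) * z) := by
    obtain ⟨x1, n', h⟩ := tau_class_interval K hK (max x 1) (min (x + (L : ℤ)) ((N : ℤ) + 1)) (c : ℤ)
    refine ⟨x1, n', ?_⟩
    rw [← h]
    ext v
    simp only [hP', hY, tauY, Finset.mem_filter, Finset.mem_Ico, Finset.mem_Icc, max_le_iff, lt_min_iff,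
      tau_emod_c hc]
    constructor
    · rintro ⟨⟨⟨h1, h2⟩, h3⟩, h4, h5⟩
      exact ⟨⟨⟨h1, h4⟩, h2, by omega⟩, h3⟩
    · rintro ⟨⟨⟨h1, h4⟩, h2, h5⟩, h3⟩
      exact ⟨⟨⟨h1, h2⟩, h3⟩, h4, by omega⟩
  have hBB : (2 : ℝ) ≤ (100 * D) ^ 2 := by nlinarith
  set BB := (100 * D) ^ 2 with hBBdef
  have hBBpos : (0 : ℝ) < BB := by linarith
  -- decomposition for every character
  have hdec : ∀ b : ∀ i, ZMod (m i), ∑ v ∈ Y, ((gfun A N δ v : ℝ) : ℂ) * e (mu m b * v) =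
      ∑ v ∈ X, e (mu m b * v) - (δ : ℂ) * ∑ v ∈ P', e (mu m b * v) := fun b => tau_s_decomp A N δ Y _
  -- the zero character
  have hzero : ‖∑ v ∈ Y, ((gfun A N δ v : ℝ) : ℂ) * e (mu m (0 : ∀ i, ZMod (m i)) * v)‖ ^ 2 =
      (δ * nP) ^ 2 * ((X.card : ℝ) / (δ * nP) - (P'.card : ℝ) / nP) ^ 2 := by
    rw [hdec, tau_mu_zero]
    simp only [zero_mul, tauE_zero, Finset.sum_const, nsmul_eq_mul, mul_one]
    have h1 : ((X.card : ℂ) - (δ : ℂ) * (P'.card : ℂ)) = (((X.card : ℝ) - δ * (P'.card : ℝ) : ℝ) : ℂ) := by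
      push_cast; ring
    rw [h1, Complex.norm_real, Real.norm_eq_abs, sq_abs]
    have h2 : (X.card : ℝ) - δ * (P'.card : ℝ) = (δ * nP) * ((X.card : ℝ) / (δ * nP) - (P'.card : ℝ) / nP) := by
      field_simp
    rw [h2, mul_pow]
  -- the nonzero characters
  have hnz : ∑ b ∈ tauBp m l0, ‖∑ v ∈ Y, ((gfun A N δ v : ℝ) : ℂ) * e (mu m b * v)‖ ^ 2 ≤
      (δ * nP) ^ 2 * (if 1 ≤ l0 then 18 * BB ^ l0 else 0) := by
    by_cases hl1 : 1 ≤ l0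
    · rw [if_pos hl1]
      have hfirst := tau_first m X (δ * nP) hν l0
      have hfirst2 : ∑ l ∈ Icc 1 l0, Mlev (G := fun i => ZMod (m i)) (piZ m) X (δ * nP) univ l ≤ 8 * BB ^ l0 := by
        calc _ ≤ ∑ l ∈ Icc 1 l0, 4 * BB ^ l :=
              Finset.sum_le_sum (fun l hl => hMlev l (Finset.mem_Icc.mp hl).2)
          _ = 4 * ∑ l ∈ Icc 1 l0, BB ^ l := by rw [Finset.mul_sum]
          _ ≤ 4 * (2 * BB ^ l0) := by
              apply mul_le_mul_of_nonneg_left (tau_geom_real BB hBB l0) (by norm_num)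
          _ = 8 * BB ^ l0 := by ring
      have htiny := tau_tiny m hcop (K := K) hKm hm hn hQm (l0 := l0) (nP := nP) (a := 8 * u * (Lm + 2))
        (by nlinarith) hsize x1 n'
      have hterm : ∀ b ∈ tauBp m l0, ‖∑ v ∈ Y, ((gfun A N δ v : ℝ) : ℂ) * e (mu m b * v)‖ ^ 2 ≤
          (δ * nP) ^ 2 * (2 * ‖(((δ * nP : ℝ) : ℂ)⁻¹) * ∑ v ∈ X, psi m b (piZ m v)‖ ^ 2 +
            2 * ‖((nP : ℂ))⁻¹ * ∑ z ∈ range n', e (mu m b * ((x1 + (K : ℤ) * z : ℤ) : ℝ))‖ ^ 2) := by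
        intro b _
        rw [hdec]
        set Sa := ∑ v ∈ X, e (mu m b * v) with hSa
        set Sb := ∑ v ∈ P', e (mu m b * v) with hSb
        have h1 : ∑ v ∈ X, psi m b (piZ m v) = Sa := by
          apply Finset.sum_congr rfl
          intro v _
          exact tau_psi_piZ m b v
        have h2 : ∑ z ∈ range n', e (mu m b * ((x1 + (K : ℤ) * z : ℤ) : ℝ)) = Sb := by
          rw [hSb, hP'2, Finset.sum_image]
          intro z1 _ z2 _ hz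
          have hKz : (K : ℤ) ≠ 0 := by exact_mod_cast hK.ne'
          have h2 : (K : ℤ) * (z1 : ℤ) = (K : ℤ) * (z2 : ℤ) := by simpa using hz
          have h3 : (z1 : ℤ) = z2 := mul_left_cancel₀ hKz h2
          exact_mod_cast h3
        rw [h1, h2]
        have hνc : ((δ * nP : ℝ) : ℂ) ≠ 0 := by exact_mod_cast hν.ne'
        have hnPc : (nP : ℂ) ≠ 0 := by exact_mod_cast hnP.ne'
        have hδc : (δ : ℂ) ≠ 0 := by exact_mod_cast hδ0.ne'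
        have h3 : Sa - (δ : ℂ) * Sb = ((δ * nP : ℝ) : ℂ) *
            ((((δ * nP : ℝ) : ℂ)⁻¹) * Sa - ((nP : ℂ))⁻¹ * Sb) := by
          push_cast at hνc ⊢
          field_simp
        rw [h3, norm_mul, mul_pow, Complex.norm_real, Real.norm_eq_abs, sq_abs]
        apply mul_le_mul_of_nonneg_left (tau_norm_sub_sq _ _) (by positivity)
      calc ∑ b ∈ tauBp m l0, ‖∑ v ∈ Y, ((gfun A N δ v : ℝ) : ℂ) * e (mu m b * v)‖ ^ 2
          ≤ ∑ b ∈ tauBp m l0, (δ * nP) ^ 2 * (2 * ‖(((δ * nP : ℝ) : ℂ)⁻¹) * ∑ v ∈ X, psi m b (piZ m v)‖ ^ 2 +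
            2 * ‖((nP : ℂ))⁻¹ * ∑ z ∈ range n', e (mu m b * ((x1 + (K : ℤ) * z : ℤ) : ℝ))‖ ^ 2) :=
            Finset.sum_le_sum hterm
        _ = (δ * nP) ^ 2 * (2 * ∑ b ∈ tauBp m l0, ‖(((δ * nP : ℝ) : ℂ)⁻¹) * ∑ v ∈ X, psi m b (piZ m v)‖ ^ 2 +
            2 * ∑ b ∈ tauBp m l0, ‖((nP : ℂ))⁻¹ * ∑ z ∈ range n', e (mu m b * ((x1 + (K : ℤ) * z : ℤ) : ℝ))‖ ^ 2) := by
            rw [← Finset.mul_sum, Finset.sum_add_distrib, ← Finset.mul_sum, ← Finset.mul_sum]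
        _ ≤ (δ * nP) ^ 2 * (18 * BB ^ l0) := by
            apply mul_le_mul_of_nonneg_left _ (by positivity)
            have h1 : (1 : ℝ) ≤ BB ^ l0 := one_le_pow₀ (by linarith)
            have h2 := le_trans hfirst hfirst2
            nlinarith
    · rw [if_neg hl1]
      have : l0 = 0 := by omega
      rw [this, tau_Bp_empty]
      simp
  rw [tau_split_B, Finset.sum_insert (tau_zero_notin m l0), hzero, mul_add]
  exact add_le_add_right hnz _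

end

end Vale.Agent.Lib.P042
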