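import Vale.Agent.Lib.P042.Defs

/-! # P042 TASK W: Weyl with polynomial dependence (Green-Tao Prop 4.3), blueprint Section 2 -/

namespace Vale.Agent.Lib.P042

open Finset Polynomial


lemma nint_le_sub_int (t : ℝ) (z : ℤ) : nint t ≤ |t - z| := round_le t z

lemma nint_nonneg (t : ℝ) : 0 ≤ nint t := abs_nonneg _

lemma nint_le_half (t : ℝ) : nint t ≤ 1 / 2 := abs_sub_round t

lemma nint_le_abs (t : ℝ) : nint t ≤ |t| := by
  have := nint_le_sub_int t 0
  simpa using this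

lemma nint_add_le (s t : ℝ) : nint (s + t) ≤ nint s + nint t := by
  have h := nint_le_sub_int (s + t) (round s + round t)
  refine h.trans ?_
  have : s + t - ((round s + round t : ℤ) : ℝ) = (s - round s) + (t - round t) := by
    push_cast; ring
  rw [this]
  exact abs_add_le _ _

lemma nint_neg (t : ℝ) : nint (-t) = nint t := by
  apply le_antisymm
  · have h := nint_le_sub_int (-t) (-round t)
    refine h.trans (le_of_eq ?_)
    unfold nint
    rw [← abs_neg]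
    congr 1
    push_cast; ring
  · have h := nint_le_sub_int t (-round (-t))
    refine h.trans (le_of_eq ?_)
    unfold nint
    rw [← abs_neg]
    congr 1
    push_cast; ring

lemma nint_sub_le (s t : ℝ) : nint (s - t) ≤ nint s + nint t := by
  have := nint_add_le s (-t)
  rwa [nint_neg, ← sub_eq_add_neg] at this

lemma nint_add_int (t : ℝ) (z : ℤ) : nint (t + z) = nint t := by
  apply le_antisymm
  · have h := nint_le_sub_int (t + z) (round t + z)
    refine h.trans (le_of_eq ?_)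
    unfold nint
    congr 1
    push_cast; ring
  · have h := nint_le_sub_int t (round (t + z) - z)
    refine h.trans (le_of_eq ?_)
    unfold nint
    congr 1
    push_cast; ring

lemma nint_int (z : ℤ) : nint (z : ℝ) = 0 := by
  have := nint_add_int 0 z
  simp only [zero_add] at this
  rw [this]; simp [nint]

lemma nint_nat_mul_le (n : ℕ) (t : ℝ) : nint ((n : ℝ) * t) ≤ n * nint t := by
  induction n with
  | zero => simp [nint]
  | succ n ih =>
    push_cast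
    have : ((n : ℝ) + 1) * t = n * t + t := by ring
    rw [this]
    have := nint_add_le ((n : ℝ) * t) t
    linarith

lemma nint_int_mul_le (n : ℤ) (t : ℝ) : nint ((n : ℝ) * t) ≤ |(n : ℝ)| * nint t := by
  obtain ⟨m, rfl | rfl⟩ := Int.eq_nat_or_neg n
  · have := nint_nat_mul_le m t
    simpa using this
  · have := nint_nat_mul_le m t
    have h2 : nint ((-(m : ℤ) : ℤ) * t) = nint ((m : ℝ) * t) := by
      rw [← nint_neg]; congr 1; push_cast; ring
    rw [h2]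
    simpa using this

lemma nint_eq_abs {t : ℝ} (h : |t| ≤ 1 / 2) : nint t = |t| := by
  apply le_antisymm (nint_le_abs t)
  by_contra hlt
  push Not at hlt
  -- round t ≠ 0 would give distance > 1/2
  unfold nint at hlt
  set z := round t with hz
  have hz0 : z ≠ 0 := by
    intro h0
    rw [h0] at hlt
    simp at hlt
  have h1 : (1 : ℝ) ≤ |(z : ℝ)| := by
    have : (1 : ℤ) ≤ |z| := Int.one_le_abs hz0
    exact_mod_cast this
  have h2 : |(z : ℝ)| ≤ |t - z| + |t| := by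
    have : (z : ℝ) = t - (t - z) := by ring
    calc |(z : ℝ)| = |t - (t - z)| := by rw [← this]
      _ ≤ |t| + |t - z| := abs_sub _ _
      _ = _ := add_comm _ _
  linarith

/-! ### The exponential -/

lemma e_add (s t : ℝ) : e (s + t) = e s * e t := by
  unfold e
  rw [← Complex.exp_add]
  congr 1
  push_cast; ring

lemma e_int (z : ℤ) : e (z : ℝ) = 1 := by
  unfold e
  have := Complex.exp_int_mul_two_pi_mul_I z
  rw [← this]
  congr 1
  push_cast; ring

lemma weyl_norm_e (t : ℝ) : ‖e t‖ = 1 := by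
  unfold e
  have : (2 * Real.pi * Complex.I * t : ℂ) = ((2 * Real.pi * t : ℝ) : ℂ) * Complex.I := by
    push_cast; ring
  rw [this, Complex.norm_exp_ofReal_mul_I]

lemma e_zero : e 0 = 1 := by simp [e]

lemma conj_e (t : ℝ) : (starRingEnd ℂ) (e t) = e (-t) := by
  have h1 : e t * e (-t) = 1 := by rw [← e_add]; simp [e_zero]
  have h2 : e t * (starRingEnd ℂ) (e t) = 1 := by
    rw [Complex.mul_conj, Complex.normSq_eq_norm_sq, weyl_norm_e]; simp
  have h3 : e t ≠ 0 := by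
    intro h; rw [h] at h2; simp at h2
  exact mul_left_cancel₀ h3 (h2.trans h1.symm)

lemma norm_e_sub_one_le (t : ℝ) : ‖e t - 1‖ ≤ 2 * Real.pi * |t| := by
  unfold e
  have : (2 * Real.pi * Complex.I * t : ℂ) = Complex.I * ((2 * Real.pi * t : ℝ) : ℂ) := by
    push_cast; ring
  rw [this, Complex.norm_exp_I_mul_ofReal_sub_one]
  have h := Real.abs_sin_le_abs (x := 2 * Real.pi * t / 2)
  have h2 : |2 * Real.pi * t / 2| = Real.pi * |t| := by
    rw [show 2 * Real.pi * t / 2 = Real.pi * t by ring, abs_mul, abs_of_pos Real.pi_pos]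
  rw [h2] at h
  rw [Real.norm_eq_abs, abs_mul]
  simp only [abs_two]
  nlinarith

lemma four_nint_le_norm_e_sub_one (t : ℝ) : 4 * nint t ≤ ‖e t - 1‖ := by
  -- reduce to t - round t
  set s := t - round t with hs
  have hst : t = s + round t := by rw [hs]; ring
  have h1 : e t = e s := by rw [hst, e_add, e_int, mul_one]
  have hs' : |s| ≤ 1 / 2 := abs_sub_round t
  have hn : nint t = |s| := rfl
  rw [h1, hn]
  unfold e
  have : (2 * Real.pi * Complex.I * s : ℂ) = Complex.I * ((2 * Real.pi * s : ℝ) : ℂ) := by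
    push_cast; ring
  rw [this, Complex.norm_exp_I_mul_ofReal_sub_one]
  have h3 : |Real.pi * s| ≤ Real.pi / 2 := by
    rw [abs_mul, abs_of_pos Real.pi_pos]
    nlinarith [Real.pi_pos]
  have h4 := Real.mul_abs_le_abs_sin h3
  have h5 : 2 * Real.pi * s / 2 = Real.pi * s := by ring
  rw [h5, Real.norm_eq_abs, abs_mul]
  simp only [abs_two]
  rw [abs_mul, abs_of_pos Real.pi_pos] at h4
  have h6 : 2 / Real.pi * (Real.pi * |s|) = 2 * |s| := by
    field_simp
  rw [h6] at h4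
  linarith



/-! ### Differencing -/

/-- triangle sum -/
noncomputable def triSum (F : ℕ → ℂ) (M : ℕ) : ℂ :=
  ∑ y' ∈ range M, ∑ y ∈ Ico y' M, F y * (starRingEnd ℂ) (F y')

lemma triSum_succ (F : ℕ → ℂ) (M : ℕ) :
    triSum F (M + 1) = triSum F M + F M * (starRingEnd ℂ) (∑ y ∈ range (M + 1), F y) := by
  unfold triSum
  rw [map_sum, Finset.mul_sum, Finset.sum_range_succ, Finset.sum_range_succ (fun y => F M * _)]
  have h1 : ∑ y ∈ Ico M (M + 1), F y * (starRingEnd ℂ) (F M) = F M * (starRingEnd ℂ) (F M) := by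
    simp
  rw [h1, ← add_assoc]
  congr 1
  rw [← Finset.sum_add_distrib]
  apply Finset.sum_congr rfl
  intro y' hy'
  have hy : y' ≤ M := (Finset.mem_range.mp hy').le
  rw [Finset.sum_Ico_succ_top hy]

lemma triSum_identity (F : ℕ → ℂ) (M : ℕ) :
    triSum F M + (starRingEnd ℂ) (triSum F M) =
      (∑ y ∈ range M, F y) * (starRingEnd ℂ) (∑ y ∈ range M, F y) +
        ∑ y ∈ range M, F y * (starRingEnd ℂ) (F y) := by
  induction M with
  | zero => simp [triSum]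
  | succ M ih =>
    rw [triSum_succ, map_add, map_mul, Complex.conj_conj, Finset.sum_range_succ (fun y => F y * _)]
    simp only [Finset.sum_range_succ, map_add]
    linear_combination ih

lemma norm_sq_le_two_triSum (F : ℕ → ℂ) (M : ℕ) :
    ‖∑ y ∈ range M, F y‖ ^ 2 ≤ 2 * ‖triSum F M‖ := by
  have h := triSum_identity F M
  have h2 := congrArg Complex.re h
  rw [Complex.add_re, Complex.conj_re, Complex.add_re, Complex.mul_conj'] at h2
  have h3 : (∑ y ∈ range M, F y * (starRingEnd ℂ) (F y)).re ≥ 0 := by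
    rw [Complex.re_sum]
    apply Finset.sum_nonneg
    intro y _
    rw [Complex.mul_conj']
    norm_cast
    positivity
  have h4 : (triSum F M).re ≤ ‖triSum F M‖ := Complex.re_le_norm _
  have h5 : (((‖∑ y ∈ range M, F y‖ : ℝ) : ℂ) ^ 2).re = ‖∑ y ∈ range M, F y‖ ^ 2 := by
    norm_cast
  rw [h5] at h2
  linarith

lemma triSum_eq (F : ℕ → ℂ) (M : ℕ) :
    triSum F M = ∑ h ∈ range M, ∑ y ∈ range (M - h), F (y + h) * (starRingEnd ℂ) (F y) := by
  unfold triSum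
  have h1 : ∀ y' ∈ range M, ∑ y ∈ Ico y' M, F y * (starRingEnd ℂ) (F y') =
      ∑ h ∈ range (M - y'), F (y' + h) * (starRingEnd ℂ) (F y') := by
    intro y' _
    rw [Finset.sum_Ico_eq_sum_range]
  rw [Finset.sum_congr rfl h1]
  have h2 := Finset.sum_comm' (s := range M) (t := fun y' => range (M - y'))
    (s' := fun h => range (M - h)) (t' := range M)
    (f := fun y' h => F (y' + h) * (starRingEnd ℂ) (F y')) (by
      intro x y
      simp only [Finset.mem_range]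
      omega)
  rw [h2]

/-- Weyl differencing. -/
lemma weyl_diff (F : ℕ → ℂ) (M : ℕ) :
    ‖∑ y ∈ range M, F y‖ ^ 2 ≤
      2 * ∑ h ∈ range M, ‖∑ y ∈ range (M - h), F (y + h) * (starRingEnd ℂ) (F y)‖ := by
  refine (norm_sq_le_two_triSum F M).trans ?_
  rw [triSum_eq]
  have := norm_sum_le (range M) (fun h => ∑ y ∈ range (M - h), F (y + h) * (starRingEnd ℂ) (F y))
  linarith

/-! ### Taylor coefficients -/

open Polynomial in
lemma taylor_coeff_eq {K : ℕ} (R : ℝ[X]) (hR : R.natDegree ≤ K) (s : ℝ) (i : ℕ) :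
    (taylor s R).coeff i = ∑ j ∈ range (K + 1), ((j.choose i : ℕ) : ℝ) * R.coeff j * s ^ (j - i) := by
  rw [taylor_coeff, hasseDeriv_apply, Polynomial.sum_over_range' _ _ (K + 1) (by omega)]
  · rw [Polynomial.eval_finsetSum]
    apply Finset.sum_congr rfl
    intro j _
    rw [Polynomial.eval_monomial]
  · intro n
    simp



/-! ### Vinogradov lemma -/

/-- A finite set of naturals with diameter at most `d` has at most `d + 1` elements. -/
lemma card_le_of_diam (F : Finset ℕ) (d : ℕ) (h : ∀ a ∈ F, ∀ b ∈ F, a ≤ b + d) : F.card ≤ d + 1 := by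
  rcases F.eq_empty_or_nonempty with rfl | hne
  · simp
  · set m := F.min' hne
    have hsub : F ⊆ Icc m (m + d) := by
      intro a ha
      rw [Finset.mem_Icc]
      exact ⟨Finset.min'_le _ _ ha, h a ha m (Finset.min'_mem _ hne)⟩
    have := Finset.card_le_card hsub
    simp only [Nat.card_Icc] at this
    omega

/-- Counting `h` with `hθ` close to an integer, for a small positive `θ`. -/
lemma count_close (H : Finset ℕ) (M : ℕ) (hH : ∀ h ∈ H, h < M) (θ ε1 : ℝ) (hθ : 0 < θ) (hε1 : 0 ≤ ε1)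
    (hgood : ∀ h ∈ H, nint ((h : ℝ) * θ) ≤ ε1) :
    (H.card : ℝ) ≤ (2 * ε1 / θ + 1) * (M * θ + 3 / 2) := by
  set f : ℕ → ℕ := fun h => (round ((h : ℝ) * θ)).toNat with hf
  have hround_nonneg : ∀ h : ℕ, 0 ≤ round ((h : ℝ) * θ) := by
    intro h
    have h0 : 0 ≤ (h : ℝ) * θ := by positivity
    rw [round_eq]
    exact Int.floor_nonneg.mpr (by linarith)
  have hfcast : ∀ h : ℕ, (f h : ℝ) = round ((h : ℝ) * θ) := by
    intro h
    have := Int.toNat_of_nonneg (hround_nonneg h)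
    have h2 : ((f h : ℤ) : ℝ) = ((round ((h : ℝ) * θ) : ℤ) : ℝ) := by
      rw [hf]; exact_mod_cast this
    exact_mod_cast h2
  set T := ⌊(M : ℝ) * θ + 1 / 2⌋₊ with hT
  have hmaps : ∀ h ∈ H, f h ∈ range (T + 1) := by
    intro h hh
    rw [Finset.mem_range, Nat.lt_succ_iff]
    apply Nat.le_floor
    rw [hfcast]
    have h1 : |(h : ℝ) * θ - round ((h : ℝ) * θ)| ≤ 1 / 2 := abs_sub_round _
    have h2 := (abs_le.mp h1).1
    have h3 : (h : ℝ) < M := by exact_mod_cast hH h hh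
    nlinarith
  set n := ⌊2 * ε1 / θ⌋₊ with hn
  have hfib : ∀ b ∈ range (T + 1), (H.filter (fun a => f a = b)).card ≤ n + 1 := by
    intro b _
    apply card_le_of_diam
    intro a ha c hc
    rw [Finset.mem_filter] at ha hc
    have h1 : (a : ℝ) ≤ c + n := by
      have ha' := hgood a ha.1
      have hc' := hgood c hc.1
      have hEq : (round ((a : ℝ) * θ) : ℝ) = round ((c : ℝ) * θ) := by
        rw [← hfcast, ← hfcast, ha.2, hc.2]
      unfold nint at ha' hc'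
      rw [hEq] at ha'
      have h3 := (abs_le.mp ha').2
      have h4 := (abs_le.mp hc').1
      have h5 : ((a : ℝ) - c) * θ ≤ 2 * ε1 := by nlinarith
      have h6 : (a : ℝ) - c ≤ 2 * ε1 / θ := by
        rw [le_div_iff₀ hθ]; exact h5
      by_cases hac : a ≤ c
      · have : (a : ℝ) ≤ c := by exact_mod_cast hac
        have : (0 : ℝ) ≤ n := by positivity
        linarith
      · have h7 : (a : ℝ) - c = ((a - c : ℕ) : ℝ) := by
          rw [Nat.cast_sub (by omega)]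
        have h8 : a - c ≤ n := by
          apply Nat.le_floor
          rw [← h7]; exact h6
        have h9 : ((a - c : ℕ) : ℝ) ≤ n := by exact_mod_cast h8
        linarith
    exact_mod_cast h1
  have hcard := Finset.card_le_mul_card_image_of_maps_to hmaps (n + 1) hfib
  simp only [Finset.card_range] at hcard
  have hcardR : (H.card : ℝ) ≤ ((n : ℝ) + 1) * ((T : ℝ) + 1) := by exact_mod_cast hcard
  refine hcardR.trans ?_
  have hn1 : (n : ℝ) ≤ 2 * ε1 / θ := Nat.floor_le (by positivity)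
  have hT1 : (T : ℝ) ≤ M * θ + 1 / 2 := Nat.floor_le (by positivity)
  have hn0 : (0 : ℝ) ≤ (n : ℝ) + 1 := by positivity
  have hT0 : (0 : ℝ) ≤ (T : ℝ) + 1 := by positivity
  calc ((n : ℝ) + 1) * ((T : ℝ) + 1) ≤ (2 * ε1 / θ + 1) * ((T : ℝ) + 1) := by
        apply mul_le_mul_of_nonneg_right _ hT0; linarith
    _ ≤ (2 * ε1 / θ + 1) * (M * θ + 3 / 2) := by
        apply mul_le_mul_of_nonneg_left _ (by positivity); linarith

/-- Vinogradov's lemma: many `h` with `‖hβ‖` small force a small `q'` with `‖q'β‖` very small. -/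
lemma vinogradov (M g : ℕ) (H : Finset ℕ) (hH : ∀ h ∈ H, 1 ≤ h ∧ h < M) (hg : 1 ≤ g) (β ε : ℝ) (hε : 0 ≤ ε)
    (hgood : ∀ h ∈ H, nint ((h : ℝ) * β) ≤ ε)
    (hcard1 : M / g + 2 ≤ H.card) (hcount : 10 * (g : ℝ) * ε * M + 2 < H.card) :
    ∃ q' : ℕ, 1 ≤ q' ∧ q' ≤ g ∧ nint ((q' : ℝ) * β) * H.card ≤ g * ε := by
  -- pigeonhole for a small gap
  have hmaps : ∀ h ∈ H, h / g ∈ range (M / g + 1) := by
    intro h hh
    rw [Finset.mem_range, Nat.lt_succ_iff]
    exact Nat.div_le_div_right (hH h hh).2.le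
  have hlt : (range (M / g + 1)).card < H.card := by
    rw [Finset.card_range]; omega
  obtain ⟨a, ha, c, hc, hac, hdiv⟩ := Finset.exists_ne_map_eq_of_card_lt_of_maps_to hlt hmaps
  -- wlog a < c
  wlog hlt' : a < c generalizing a c
  · exact this c hc a ha hac.symm hdiv.symm (by omega)
  set q' := c - a with hq'
  have hq1 : 1 ≤ q' := by omega
  have hqg : q' ≤ g := by
    have h1 : c / g = a / g := hdiv.symm
    have h2 : c < g * (c / g) + g := by
      have := Nat.div_add_mod c g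
      have := Nat.mod_lt c (by omega : g > 0)
      omega
    have h3 : g * (a / g) ≤ a := Nat.mul_div_le a g
    rw [h1] at h2
    omega
  refine ⟨q', hq1, hqg, ?_⟩
  have hqcast : (q' : ℝ) = (c : ℝ) - a := by
    rw [hq', Nat.cast_sub hlt'.le]
  set b := round ((q' : ℝ) * β) with hb
  set θ := (q' : ℝ) * β - b with hθdef
  have hnθ : nint ((q' : ℝ) * β) = |θ| := rfl
  have hθsmall : |θ| ≤ 2 * ε := by
    rw [← hnθ, hqcast]
    have : ((c : ℝ) - a) * β = (c : ℝ) * β - (a : ℝ) * β := by ring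
    rw [this]
    have h1 := nint_sub_le ((c : ℝ) * β) ((a : ℝ) * β)
    have h2 := hgood c hc
    have h3 := hgood a ha
    linarith
  have hgcast : (q' : ℝ) ≤ g := by exact_mod_cast hqg
  have hgpos : (1 : ℝ) ≤ g := by exact_mod_cast hg
  have hθgood : ∀ h ∈ H, nint ((h : ℝ) * θ) ≤ g * ε := by
    intro h hh
    have h1 : (h : ℝ) * θ = (q' : ℝ) * ((h : ℝ) * β) + ((-(h : ℤ) * b : ℤ) : ℝ) := by
      rw [hθdef]; push_cast; ring
    rw [h1, nint_add_int]
    have h2 := nint_nat_mul_le q' ((h : ℝ) * β)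
    have h3 := hgood h hh
    have h4 := nint_nonneg ((h : ℝ) * β)
    calc nint ((q' : ℝ) * ((h : ℝ) * β)) ≤ q' * nint ((h : ℝ) * β) := h2
      _ ≤ g * ε := by
        apply mul_le_mul hgcast h3 h4 (by positivity)
  have hMpos : (0 : ℝ) ≤ M := by positivity
  -- case distinction
  by_cases hcase : (M : ℝ) * |θ| ≤ 1 / 2
  · rw [hnθ]
    -- the maximum of H
    have hne : H.Nonempty := Finset.card_pos.mp (by omega)
    set hs := H.max' hne with hhs
    have hsmem : hs ∈ H := Finset.max'_mem _ hne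
    have hcardle : H.card ≤ hs := by
      have hsub : H ⊆ Icc 1 hs := by
        intro x hx
        rw [Finset.mem_Icc]
        exact ⟨(hH x hx).1, Finset.le_max' _ _ hx⟩
      have := Finset.card_le_card hsub
      simpa using this
    have h1 : (hs : ℝ) < M := by exact_mod_cast (hH hs hsmem).2
    have h2 : |(hs : ℝ) * θ| ≤ 1 / 2 := by
      rw [abs_mul, Nat.abs_cast]
      have := abs_nonneg θ
      nlinarith
    have h3 := hθgood hs hsmem
    rw [nint_eq_abs h2, abs_mul, Nat.abs_cast] at h3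
    have h4 : (H.card : ℝ) ≤ hs := by exact_mod_cast hcardle
    have := abs_nonneg θ
    nlinarith
  · exfalso
    push Not at hcase
    have hθne : θ ≠ 0 := by
      intro h0
      rw [h0] at hcase
      simp at hcase
      linarith
    have hθpos : 0 < |θ| := abs_pos.mpr hθne
    have hgood' : ∀ h ∈ H, nint ((h : ℝ) * |θ|) ≤ g * ε := by
      intro h hh
      rcases abs_choice θ with h0 | h0
      · rw [h0]; exact hθgood h hh
      · rw [h0, mul_neg, nint_neg]; exact hθgood h hh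
    have hc := count_close H M (fun h hh => (hH h hh).2) |θ| (g * ε) hθpos (by positivity) hgood'
    set t := |θ| with ht
    have hMt : 1 / (2 * t) < M := by
      rw [div_lt_iff₀ (by positivity)]
      linarith
    have h1 : (2 * (g * ε) / t + 1) * (M * t + 3 / 2) = 2 * (g * ε) * M + M * t + 3 * (g * ε) / t + 3 / 2 := by
      field_simp
      ring
    rw [h1] at hc
    have h2 : 3 * (g * ε) / t ≤ 6 * (g * ε) * M := by
      rw [div_le_iff₀ hθpos]
      have h3 : 1 ≤ 2 * (M * t) := by linarith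
      have h4 : 0 ≤ 3 * ((g : ℝ) * ε) := by positivity
      nlinarith
    have h5 : (M : ℝ) * t ≤ 2 * (g * ε) * M := by
      have : t ≤ 2 * (g * ε) := by
        have : ε ≤ g * ε := by nlinarith
        linarith
      nlinarith
    nlinarith



/-- Weyl statement in terms of `x = η⁻¹`. -/
def WP (k C : ℕ) : Prop :=
  ∀ (M : ℕ) (x : ℝ) (P : ℝ[X]), 1 ≤ M → 2 ≤ x → P.natDegree ≤ k →
    (M : ℝ) ≤ x * ‖∑ y ∈ range M, e (P.eval (y : ℝ))‖ →
    ∃ q : ℕ, 1 ≤ q ∧ (q : ℝ) ≤ x ^ C ∧ ∀ i ∈ Icc 1 k, nint ((q : ℝ) * P.coeff i) * (M : ℝ) ^ i ≤ x ^ C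

lemma e_nat_mul (n : ℕ) (b : ℝ) : e ((n : ℝ) * b) = e b ^ n := by
  induction n with
  | zero => simp [e_zero]
  | succ n ih =>
    push_cast
    rw [add_mul, one_mul, e_add, ih, pow_succ]

lemma wp_one : WP 1 1 := by
  intro M x P hM hx hP hS
  refine ⟨1, le_refl _, ?_, ?_⟩
  · simp; linarith
  intro i hi
  have hi1 : i = 1 := by
    rw [Finset.mem_Icc] at hi; omega
  subst hi1
  have hPe := eq_X_add_C_of_natDegree_le_one hP
  set a := P.coeff 0
  set b := P.coeff 1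
  have hev : ∀ y : ℕ, e (P.eval (y : ℝ)) = e a * e b ^ y := by
    intro y
    rw [hPe]
    simp only [eval_add, eval_mul, eval_C, eval_X]
    rw [← e_nat_mul, ← e_add]
    congr 1
    ring
  have hsum : ∑ y ∈ range M, e (P.eval (y : ℝ)) = e a * ∑ y ∈ range M, e b ^ y := by
    rw [Finset.mul_sum]
    exact Finset.sum_congr rfl (fun y _ => hev y)
  rw [hsum, norm_mul, weyl_norm_e, one_mul] at hS
  have hgeo := geom_sum_mul (e b) M
  have h1 : ‖∑ y ∈ range M, e b ^ y‖ * ‖e b - 1‖ ≤ 2 := by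
    rw [← norm_mul, hgeo]
    calc ‖e b ^ M - 1‖ ≤ ‖e b ^ M‖ + ‖(1 : ℂ)‖ := norm_sub_le _ _
      _ = 2 := by rw [norm_pow, weyl_norm_e]; norm_num
  have h2 := four_nint_le_norm_e_sub_one b
  have h3 := nint_nonneg b
  set S := ‖∑ y ∈ range M, e b ^ y‖
  have hS0 : 0 ≤ S := norm_nonneg _
  have h4 : S * (4 * nint b) ≤ 2 := le_trans (mul_le_mul_of_nonneg_left h2 hS0) h1
  simp only [Nat.cast_one, one_mul, pow_one]
  have hx0 : 0 < x := by linarith
  calc nint b * M ≤ nint b * (x * S) := mul_le_mul_of_nonneg_left hS h3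
    _ = x * (S * nint b) := by ring
    _ ≤ x * (1 / 2) := by
      apply mul_le_mul_of_nonneg_left _ hx0.le
      linarith
    _ ≤ x := by linarith

/-- the difference polynomial -/
noncomputable def Pd (P : ℝ[X]) (h : ℕ) : ℝ[X] := taylor (h : ℝ) P - P

lemma Pd_eval (P : ℝ[X]) (h y : ℕ) : (Pd P h).eval (y : ℝ) = P.eval ((y + h : ℕ) : ℝ) - P.eval (y : ℝ) := by
  unfold Pd
  rw [eval_sub, taylor_eval]
  push_cast
  rfl

lemma Pd_natDegree {K' : ℕ} (P : ℝ[X]) (hP : P.natDegree ≤ K' + 1) (h : ℕ) : (Pd P h).natDegree ≤ K' := by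
  rw [natDegree_le_iff_coeff_eq_zero]
  intro N hN
  unfold Pd
  rw [coeff_sub, taylor_coeff_eq P hP]
  rcases Nat.eq_or_lt_of_le (Nat.succ_le_of_lt hN) with hN2 | hN2
  · subst hN2
    rw [Finset.sum_eq_single (K' + 1)]
    · simp
    · intro j hj hne
      have : j < K' + 1 := by
        rw [Finset.mem_range] at hj; omega
      rw [Nat.choose_eq_zero_of_lt this]; simp
    · intro hh; simp at hh
  · have h1 : ∑ j ∈ range (K' + 1 + 1), ((j.choose N : ℕ) : ℝ) * P.coeff j * (h : ℝ) ^ (j - N) = 0 := by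
      apply Finset.sum_eq_zero
      intro j hj
      have : j < N := by
        rw [Finset.mem_range] at hj; omega
      rw [Nat.choose_eq_zero_of_lt this]; simp
    rw [h1, coeff_eq_zero_of_natDegree_lt (by omega)]
    simp

lemma Pd_coeff {K' : ℕ} (P : ℝ[X]) (hP : P.natDegree ≤ K' + 1) (h : ℕ) :
    (Pd P h).coeff K' = ((K' : ℝ) + 1) * h * P.coeff (K' + 1) := by
  unfold Pd
  rw [coeff_sub, taylor_coeff_eq P hP, Finset.sum_range_succ, Finset.sum_range_succ]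
  have h1 : ∑ j ∈ range K', ((j.choose K' : ℕ) : ℝ) * P.coeff j * (h : ℝ) ^ (j - K') = 0 := by
    apply Finset.sum_eq_zero
    intro j hj
    rw [Nat.choose_eq_zero_of_lt (Finset.mem_range.mp hj)]; simp
  rw [h1]
  simp only [Nat.choose_self, Nat.choose_succ_self_right, Nat.sub_self, pow_zero, Nat.cast_one, one_mul, mul_one]
  have : K' + 1 - K' = 1 := by omega
  rw [this, pow_one]
  push_cast
  ring



lemma const_le_pow {x : ℝ} (hx : 2 ≤ x) (c a : ℕ) (hc : (c : ℝ) ≤ 2 ^ a) : (c : ℝ) ≤ x ^ a :=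
  hc.trans (pow_le_pow_left₀ (by norm_num) hx a)

lemma one_le_pow_x {x : ℝ} (hx : 2 ≤ x) (a : ℕ) : 1 ≤ x ^ a := one_le_pow₀ (by linarith)

lemma pow_mono_x {x : ℝ} (hx : 2 ≤ x) {a b : ℕ} (h : a ≤ b) : x ^ a ≤ x ^ b :=
  pow_le_pow_right₀ (by linarith) h

lemma eight_x_le {x : ℝ} (hx : 2 ≤ x) : 8 * x ^ 2 ≤ x ^ 5 := by
  have h1 : (8 : ℝ) ≤ x ^ 3 := by
    have := pow_le_pow_left₀ (by norm_num : (0 : ℝ) ≤ 2) hx 3
    linarith
  have h2 : (0 : ℝ) ≤ x ^ 2 := by positivity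
  calc 8 * x ^ 2 ≤ x ^ 3 * x ^ 2 := by nlinarith
    _ = x ^ 5 := by ring

/-- Part one: lower bound on the number of large difference sums. -/
lemma many_good (F : ℕ → ℂ) (hF : ∀ y, ‖F y‖ = 1) (M : ℕ) (x : ℝ) (hx : 2 ≤ x)
    (hS : (M : ℝ) ≤ x * ‖∑ y ∈ range M, F y‖) (hbig : 8 * x ^ 2 ≤ (M : ℝ)) :
    let T : ℕ → ℝ := fun h => ‖∑ y ∈ range (M - h), F (y + h) * (starRingEnd ℂ) (F y)‖
    let G := (Ico 1 M).filter (fun h => (M : ℝ) / (8 * x ^ 2) ≤ T h)
    (M : ℝ) ≤ 4 * x ^ 2 * G.card := by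
  intro T G
  have hx0 : 0 < x := by linarith
  have hxx : 0 < x ^ 2 := by positivity
  have hM0 : (0 : ℝ) < M := by
    have : 0 < 8 * x ^ 2 := by positivity
    linarith
  have hTle : ∀ h, T h ≤ M := by
    intro h
    calc T h ≤ ∑ y ∈ range (M - h), ‖F (y + h) * (starRingEnd ℂ) (F y)‖ := norm_sum_le _ _
      _ = ∑ y ∈ range (M - h), (1 : ℝ) := by
        apply Finset.sum_congr rfl
        intro y _
        rw [norm_mul, hF, RCLike.norm_conj, hF, one_mul]
      _ = ((M - h : ℕ) : ℝ) := by simp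
      _ ≤ M := by exact_mod_cast Nat.sub_le _ _
  have h1 : (M : ℝ) ^ 2 ≤ x ^ 2 * ‖∑ y ∈ range M, F y‖ ^ 2 := by
    rw [← mul_pow]
    exact pow_le_pow_left₀ hM0.le hS 2
  have h2 := weyl_diff F M
  have h3 : ∑ h ∈ range M, T h ≤ M + G.card * M + M * (M / (8 * x ^ 2)) := by
    have hpt : ∀ h ∈ range M, T h ≤ (if h = 0 then (M : ℝ) else 0) + (if h ∈ G then (M : ℝ) else 0)
        + M / (8 * x ^ 2) := by
      intro h hh
      have hpos : 0 ≤ (M : ℝ) / (8 * x ^ 2) := by positivity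
      by_cases h0 : h = 0
      · rw [if_pos h0]
        have := hTle h
        have h4 : (0 : ℝ) ≤ (if h ∈ G then (M : ℝ) else 0) := by split_ifs; all_goals positivity
        linarith
      · by_cases hG : h ∈ G
        · rw [if_pos hG]
          have := hTle h
          have h4 : (0 : ℝ) ≤ (if h = 0 then (M : ℝ) else 0) := by split_ifs; all_goals positivity
          linarith
        · rw [if_neg h0, if_neg hG]
          have hmem : h ∈ Ico 1 M := by
            rw [Finset.mem_Ico]; rw [Finset.mem_range] at hh; omega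
          have : ¬ (M : ℝ) / (8 * x ^ 2) ≤ T h := by
            intro hle
            exact hG (Finset.mem_filter.mpr ⟨hmem, hle⟩)
          push Not at this
          linarith
    refine (Finset.sum_le_sum hpt).trans (le_of_eq ?_)
    rw [Finset.sum_add_distrib, Finset.sum_add_distrib]
    have hM1 : 1 ≤ M := by
      by_contra hc
      have : M = 0 := by omega
      rw [this] at hM0
      simp at hM0
    have e1 : ∑ h ∈ range M, (if h = 0 then (M : ℝ) else 0) = M := by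
      rw [Finset.sum_ite_eq' (range M) 0 (fun _ => (M : ℝ)), if_pos (Finset.mem_range.mpr hM1)]
    have e2 : ∑ h ∈ range M, (if h ∈ G then (M : ℝ) else 0) = G.card * M := by
      rw [Finset.sum_ite_mem]
      have : range M ∩ G = G := by
        apply Finset.inter_eq_right.mpr
        intro h hh
        have := (Finset.mem_filter.mp hh).1
        rw [Finset.mem_Ico] at this
        rw [Finset.mem_range]; omega
      rw [this]
      simp
    rw [e1, e2]
    simp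
  have h4 : (M : ℝ) ^ 2 ≤ x ^ 2 * (2 * (M + G.card * M + M * (M / (8 * x ^ 2)))) := by
    refine h1.trans (mul_le_mul_of_nonneg_left ?_ hxx.le)
    exact h2.trans (mul_le_mul_of_nonneg_left h3 (by norm_num))
  have h5 : x ^ 2 * (2 * (M + G.card * M + M * (M / (8 * x ^ 2)))) =
      (M : ℝ) * (2 * x ^ 2 + 2 * x ^ 2 * G.card + M / 4) := by
    field_simp
    ring
  rw [h5, sq] at h4
  have h6 := le_of_mul_le_mul_left h4 hM0
  linarith

/-- Numeric end of the top-coefficient step: from many `h` with `‖hβ‖` small to one small `q'`. -/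
lemma top_finish (M : ℕ) (V Y β : ℝ) (H : Finset ℕ) (hH : ∀ h ∈ H, 1 ≤ h ∧ h < M) (hV1 : 1 ≤ V) (hY : 1 ≤ Y)
    (hM1 : 1 ≤ M) (K' : ℕ) (hK : 1 ≤ K') (hMV : (M : ℝ) ≤ V * H.card)
    (hgood : ∀ h ∈ H, nint ((h : ℝ) * β) * (M : ℝ) ^ K' ≤ Y) (hbig : V * V * Y * 64 ≤ (M : ℝ)) :
    ∃ q' : ℕ, 1 ≤ q' ∧ (q' : ℝ) ≤ 5 * V ∧ nint ((q' : ℝ) * β) * (M : ℝ) ^ (K' + 1) ≤ 5 * V * V * Y := by
  have hM0 : (0 : ℝ) < M := by exact_mod_cast hM1
  have hM1' : (1 : ℝ) ≤ M := by exact_mod_cast hM1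
  have hVpos : 0 < V := by linarith
  have hYpos : 0 < Y := by linarith
  set ε := Y / (M : ℝ) ^ K' with hε
  have hMK : 0 < (M : ℝ) ^ K' := by positivity
  have hε0 : 0 ≤ ε := by positivity
  have hMKM : (M : ℝ) ≤ (M : ℝ) ^ K' := by
    calc (M : ℝ) = (M : ℝ) ^ 1 := (pow_one _).symm
      _ ≤ (M : ℝ) ^ K' := pow_le_pow_right₀ hM1' hK
  have hεM : ε * M ≤ Y := by
    rw [hε, div_mul_eq_mul_div, div_le_iff₀ hMK]
    exact mul_le_mul_of_nonneg_left hMKM hYpos.le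
  have hgood' : ∀ h ∈ H, nint ((h : ℝ) * β) ≤ ε := by
    intro h hh
    rw [hε, le_div_iff₀ hMK]
    exact hgood h hh
  set g := ⌈4 * V⌉₊ with hg
  have hg4 : 4 * V ≤ g := Nat.le_ceil _
  have hg5 : (g : ℝ) ≤ 5 * V := by
    have := Nat.ceil_lt_add_one (a := 4 * V) (by positivity)
    rw [← hg] at this
    linarith
  have hg1 : 1 ≤ g := by
    have : (1 : ℝ) ≤ g := by linarith
    exact_mod_cast this
  have hVV : 1 ≤ V * V := by nlinarith
  have hVY : V ≤ V * Y := by nlinarith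
  have hHreal : (50 * V * Y + 2) * V < (M : ℝ) := by
    have h2 : 2 * V ≤ 2 * (V * V * Y) := by
      have : V ≤ V * V * Y := by nlinarith
      linarith
    have h3 : (50 * V * Y + 2) * V = 50 * (V * V * Y) + 2 * V := by ring
    have h4 : 0 < V * V * Y := by positivity
    rw [h3]
    linarith
  have hHlow : 50 * V * Y + 2 < (H.card : ℝ) := by
    have : (50 * V * Y + 2) * V < H.card * V := by
      calc _ < (M : ℝ) := hHreal
        _ ≤ V * H.card := hMV
        _ = _ := by ring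
    exact lt_of_mul_lt_mul_right this hVpos.le
  have hcard1 : M / g + 2 ≤ H.card := by
    have h1 : ((M / g : ℕ) : ℝ) ≤ (M : ℝ) / g := Nat.cast_div_le
    have hgpos : (0 : ℝ) < g := by linarith
    have hc4 : (4 : ℝ) ≤ H.card := by
      have : 50 * V * Y ≥ 2 := by nlinarith
      linarith
    have h2 : (M : ℝ) / g ≤ (H.card : ℝ) - 2 := by
      rw [div_le_iff₀ hgpos]
      have h3 : (0 : ℝ) ≤ H.card := by positivity
      have h5 : (H.card : ℝ) * (4 * V) ≤ (H.card : ℝ) * g := mul_le_mul_of_nonneg_left hg4 h3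
      have h6 : ((H.card : ℝ) - 2) * g ≥ ((H.card : ℝ) - 2) * (4 * V) :=
        mul_le_mul_of_nonneg_left hg4 (by linarith)
      have h7 : V * (H.card : ℝ) ≤ ((H.card : ℝ) - 2) * (4 * V) := by
        have : (H.card : ℝ) ≤ ((H.card : ℝ) - 2) * 4 := by linarith
        nlinarith
      linarith
    have h5 : ((M / g : ℕ) : ℝ) + 2 ≤ H.card := by linarith
    exact_mod_cast h5
  have hcount : 10 * (g : ℝ) * ε * M + 2 < H.card := by
    have h1 : 10 * (g : ℝ) * ε * M = 10 * g * (ε * M) := by ring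
    have h2 : 10 * (g : ℝ) * (ε * M) ≤ 10 * (5 * V) * Y := by
      apply mul_le_mul _ hεM (by positivity) (by positivity)
      linarith
    rw [h1]
    have h3 : 10 * (5 * V) * Y = 50 * V * Y := by ring
    linarith
  obtain ⟨q', hq'1, hq'g, hq'⟩ := vinogradov M g H hH hg1 β ε hε0 hgood' hcard1 hcount
  refine ⟨q', hq'1, ?_, ?_⟩
  · have : (q' : ℝ) ≤ g := by exact_mod_cast hq'g
    linarith
  · set w := nint ((q' : ℝ) * β) with hw
    have hw0 : 0 ≤ w := nint_nonneg _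
    have h2 : w * M ≤ V * (g * ε) := by
      calc w * M ≤ w * (V * H.card) := mul_le_mul_of_nonneg_left hMV hw0
        _ = V * (w * H.card) := by ring
        _ ≤ V * (g * ε) := mul_le_mul_of_nonneg_left hq' hVpos.le
    have h3 : w * (M : ℝ) ^ (K' + 1) = (w * M) * (M : ℝ) ^ K' := by
      rw [pow_succ]; ring
    rw [h3]
    calc (w * M) * (M : ℝ) ^ K' ≤ (V * (g * ε)) * (M : ℝ) ^ K' := mul_le_mul_of_nonneg_right h2 hMK.le
      _ = V * g * Y := by
          rw [hε]; field_simp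
      _ ≤ V * (5 * V) * Y := by
          apply mul_le_mul_of_nonneg_right _ hYpos.le
          apply mul_le_mul_of_nonneg_left hg5 hVpos.le
      _ = 5 * V * V * Y := by ring

/-- The pigeonhole part of the top-coefficient step. -/
lemma top_pigeon (K' C' : ℕ) (hK : 1 ≤ K') (hW : WP K' C') (M : ℕ) (x : ℝ) (P : ℝ[X]) (hM : 1 ≤ M) (hx : 2 ≤ x)
    (hP : P.natDegree ≤ K' + 1) (hS : (M : ℝ) ≤ x * ‖∑ y ∈ range M, e (P.eval (y : ℝ))‖)
    (hbig : 8 * x ^ 2 ≤ (M : ℝ)) :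
    ∃ (q : ℕ) (H : Finset ℕ), 1 ≤ q ∧ (q : ℝ) ≤ x ^ (5 * C') ∧ (∀ h ∈ H, 1 ≤ h ∧ h < M) ∧
      (M : ℝ) ≤ x ^ (5 * C' + 4) * H.card ∧
      ∀ h ∈ H, nint ((h : ℝ) * ((q : ℝ) * (((K' : ℝ) + 1) * P.coeff (K' + 1)))) * (M : ℝ) ^ K'
        ≤ x ^ (5 * (K' + C')) := by
  have hx0 : 0 < x := by linarith
  have hx1 : 1 ≤ x := by linarith
  have hM0 : (0 : ℝ) < M := by exact_mod_cast hM
  set F : ℕ → ℂ := fun y => e (P.eval (y : ℝ)) with hF
  have hFn : ∀ y, ‖F y‖ = 1 := fun y => weyl_norm_e _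
  have hT : ∀ h y : ℕ, F (y + h) * (starRingEnd ℂ) (F y) = e ((Pd P h).eval (y : ℝ)) := by
    intro h y
    rw [Pd_eval, hF]
    simp only
    rw [conj_e, ← e_add]
    congr 1
  set X8 := 8 * x ^ 2 with hX8
  have hX8x : X8 ≤ x ^ 5 := eight_x_le hx
  have hX82 : 2 ≤ X8 := by
    have : (4 : ℝ) ≤ x ^ 2 := by nlinarith
    rw [hX8]; linarith
  have hX80 : 0 < X8 := by linarith
  have hgoodcard := many_good F hFn M x hx hS hbig
  simp only at hgoodcard
  set T : ℕ → ℝ := fun h => ‖∑ y ∈ range (M - h), F (y + h) * (starRingEnd ℂ) (F y)‖ with hTdef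
  set G := (Ico 1 M).filter (fun h => (M : ℝ) / X8 ≤ T h) with hG
  have hex : ∀ h ∈ G, ∃ q : ℕ, 1 ≤ q ∧ (q : ℝ) ≤ X8 ^ C' ∧
      nint ((q : ℝ) * (((K' : ℝ) + 1) * h * P.coeff (K' + 1))) * (M : ℝ) ^ K' ≤ X8 ^ (K' + C') := by
    intro h hh
    have hh' := Finset.mem_filter.mp hh
    have hhI := Finset.mem_Ico.mp hh'.1
    have hMh : 1 ≤ M - h := by omega
    have hsum : ∑ y ∈ range (M - h), e ((Pd P h).eval (y : ℝ)) =
        ∑ y ∈ range (M - h), F (y + h) * (starRingEnd ℂ) (F y) :=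
      Finset.sum_congr rfl (fun y _ => (hT h y).symm)
    have hTle : T h ≤ ((M - h : ℕ) : ℝ) := by
      calc T h ≤ ∑ y ∈ range (M - h), ‖F (y + h) * (starRingEnd ℂ) (F y)‖ := norm_sum_le _ _
        _ = ∑ y ∈ range (M - h), (1 : ℝ) := by
          apply Finset.sum_congr rfl
          intro y _
          rw [norm_mul, hFn, RCLike.norm_conj, hFn, one_mul]
        _ = ((M - h : ℕ) : ℝ) := by simp
    have hlow : (M : ℝ) ≤ X8 * T h := by
      have := hh'.2
      rw [div_le_iff₀ hX80] at this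
      linarith
    have hMhM : ((M - h : ℕ) : ℝ) ≤ M := by exact_mod_cast Nat.sub_le _ _
    obtain ⟨q, hq1, hq2, hq3⟩ := hW (M - h) X8 (Pd P h) hMh hX82 (Pd_natDegree P hP h) (by
      rw [hsum]
      exact hMhM.trans hlow)
    refine ⟨q, hq1, hq2, ?_⟩
    have h3 := hq3 K' (Finset.mem_Icc.mpr ⟨hK, le_rfl⟩)
    rw [Pd_coeff P hP h] at h3
    have h4 : (M : ℝ) ≤ X8 * ((M - h : ℕ) : ℝ) :=
      hlow.trans (mul_le_mul_of_nonneg_left hTle hX80.le)
    have h5 : (M : ℝ) ^ K' ≤ X8 ^ K' * ((M - h : ℕ) : ℝ) ^ K' := by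
      rw [← mul_pow]
      exact pow_le_pow_left₀ hM0.le h4 _
    have h6 := nint_nonneg ((q : ℝ) * (((K' : ℝ) + 1) * h * P.coeff (K' + 1)))
    calc _ ≤ nint ((q : ℝ) * (((K' : ℝ) + 1) * h * P.coeff (K' + 1))) * (X8 ^ K' * ((M - h : ℕ) : ℝ) ^ K') :=
          mul_le_mul_of_nonneg_left h5 h6
      _ = X8 ^ K' * (nint ((q : ℝ) * (((K' : ℝ) + 1) * h * P.coeff (K' + 1))) * ((M - h : ℕ) : ℝ) ^ K') := by ring
      _ ≤ X8 ^ K' * X8 ^ C' := mul_le_mul_of_nonneg_left h3 (by positivity)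
      _ = X8 ^ (K' + C') := by rw [pow_add]
  choose! q_ hq1 hq2 hq3 using hex
  -- pigeonhole on the `q_h`
  set Qn := ⌊X8 ^ C'⌋₊ with hQn
  have hX8C : 1 ≤ X8 ^ C' := one_le_pow₀ (by linarith)
  have hQn1 : 1 ≤ Qn := by
    apply Nat.le_floor
    simpa using hX8C
  have hQnle : (Qn : ℝ) ≤ x ^ (5 * C') := by
    have h1 : (Qn : ℝ) ≤ X8 ^ C' := Nat.floor_le (by positivity)
    refine h1.trans ?_
    rw [pow_mul]
    exact pow_le_pow_left₀ hX80.le hX8x _
  have hmaps : ∀ h ∈ G, q_ h ∈ Icc 1 Qn := by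
    intro h hh
    rw [Finset.mem_Icc]
    exact ⟨hq1 h hh, Nat.le_floor (hq2 h hh)⟩
  have htne : (Icc 1 Qn).Nonempty := ⟨1, Finset.mem_Icc.mpr ⟨le_rfl, hQn1⟩⟩
  have hQnpos : (0 : ℝ) < Qn := by exact_mod_cast hQn1
  obtain ⟨q, hqt, hqH⟩ := Finset.exists_le_card_fiber_of_nsmul_le_card_of_maps_to (b := (G.card : ℝ) / Qn) hmaps htne (by
    simp only [Nat.card_Icc, Nat.add_sub_cancel, nsmul_eq_mul]
    field_simp
    rfl)
  set H := G.filter (fun h => q_ h = q) with hH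
  have hqt' := Finset.mem_Icc.mp hqt
  have hqle : (q : ℝ) ≤ x ^ (5 * C') := by
    have : (q : ℝ) ≤ Qn := by exact_mod_cast hqt'.2
    linarith
  have hGH : (G.card : ℝ) ≤ Qn * H.card := by
    rw [div_le_iff₀ hQnpos] at hqH
    linarith
  have h4x : 4 * x ^ 2 * x ^ (5 * C') ≤ x ^ (5 * C' + 4) := by
    rw [pow_add, mul_comm (x ^ (5 * C'))]
    apply mul_le_mul_of_nonneg_right _ (by positivity)
    have : (4 : ℝ) ≤ x ^ 2 := by nlinarith
    have h2 : (0 : ℝ) ≤ x ^ 2 := by positivity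
    calc 4 * x ^ 2 ≤ x ^ 2 * x ^ 2 := by nlinarith
      _ = x ^ 4 := by ring
  refine ⟨q, H, hqt'.1, hqle, ?_, ?_, ?_⟩
  · intro h hh
    have := Finset.mem_Ico.mp (Finset.mem_filter.mp (Finset.mem_filter.mp hh).1).1
    exact this
  · have hHnn : (0 : ℝ) ≤ H.card := by positivity
    calc (M : ℝ) ≤ 4 * x ^ 2 * G.card := hgoodcard
      _ ≤ 4 * x ^ 2 * (Qn * H.card) := by
        apply mul_le_mul_of_nonneg_left hGH (by positivity)
      _ ≤ 4 * x ^ 2 * (x ^ (5 * C') * H.card) := by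
        apply mul_le_mul_of_nonneg_left _ (by positivity)
        exact mul_le_mul_of_nonneg_right hQnle hHnn
      _ = (4 * x ^ 2 * x ^ (5 * C')) * H.card := by ring
      _ ≤ x ^ (5 * C' + 4) * H.card := mul_le_mul_of_nonneg_right h4x hHnn
  · intro h hh
    have hh' := Finset.mem_filter.mp hh
    have h3 := hq3 h hh'.1
    rw [hh'.2] at h3
    have h5 : X8 ^ (K' + C') ≤ x ^ (5 * (K' + C')) := by
      rw [pow_mul]
      exact pow_le_pow_left₀ hX80.le hX8x _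
    have h6 : (h : ℝ) * ((q : ℝ) * (((K' : ℝ) + 1) * P.coeff (K' + 1))) =
        (q : ℝ) * (((K' : ℝ) + 1) * h * P.coeff (K' + 1)) := by ring
    rw [h6]
    exact h3.trans h5

lemma top_step (K' C' : ℕ) (hK : 1 ≤ K') (hW : WP K' C') :
    ∃ C1 : ℕ, ∀ (M : ℕ) (x : ℝ) (P : ℝ[X]), 1 ≤ M → 2 ≤ x → P.natDegree ≤ K' + 1 →
      (M : ℝ) ≤ x * ‖∑ y ∈ range M, e (P.eval (y : ℝ))‖ →
      ∃ q : ℕ, 1 ≤ q ∧ (q : ℝ) ≤ x ^ C1 ∧
        nint ((q : ℝ) * P.coeff (K' + 1)) * (M : ℝ) ^ (K' + 1) ≤ x ^ C1 := by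
  set E0 := 5 * (K' + C') with hE0
  set Aν := 5 * C' + 4 with hAν
  set A0 := 2 * Aν + E0 + 6 with hA0
  refine ⟨A0 * (K' + 1) + Aν + 5 * C' + K' + 4, ?_⟩
  intro M x P hM hx hP hS
  set C1 := A0 * (K' + 1) + Aν + 5 * C' + K' + 4 with hC1
  have hx0 : 0 < x := by linarith
  have hx1 : 1 ≤ x := by linarith
  have hM0 : (0 : ℝ) < M := by exact_mod_cast hM
  by_cases hbig : (M : ℝ) ≤ x ^ A0
  · refine ⟨1, le_rfl, ?_, ?_⟩
    · simpa using one_le_pow_x hx C1
    · simp only [Nat.cast_one, one_mul]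
      have h1 := nint_le_half (P.coeff (K' + 1))
      have h2 : (M : ℝ) ^ (K' + 1) ≤ x ^ (A0 * (K' + 1)) := by
        rw [pow_mul]; exact pow_le_pow_left₀ hM0.le hbig _
      have h3 : x ^ (A0 * (K' + 1)) ≤ x ^ C1 := pow_mono_x hx (by omega)
      have h4 : (0 : ℝ) ≤ (M : ℝ) ^ (K' + 1) := by positivity
      have h5 := nint_nonneg (P.coeff (K' + 1))
      nlinarith
  push Not at hbig
  have hX8V : 8 * x ^ 2 ≤ x ^ A0 := (eight_x_le hx).trans (pow_mono_x hx (by omega))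
  obtain ⟨q, H, hq1, hqle, hHmem, hMV, hgood⟩ := top_pigeon K' C' hK hW M x P hM hx hP hS (hX8V.trans hbig.le)
  rw [← hAν] at hMV
  set V := x ^ Aν with hV
  have hV1 : 1 ≤ V := one_le_pow_x hx _
  have hVpos : 0 < V := by linarith
  have hxE : 1 ≤ x ^ E0 := one_le_pow_x hx _
  have hA0V : x ^ A0 = V * V * x ^ E0 * x ^ 6 := by
    rw [hA0, hV, pow_add, pow_add, two_mul, pow_add]
  have hx6 : (64 : ℝ) ≤ x ^ 6 := by
    have := pow_le_pow_left₀ (by norm_num : (0 : ℝ) ≤ 2) hx 6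
    linarith
  have hVV : V * V * x ^ E0 * 64 ≤ (M : ℝ) := by
    refine le_trans ?_ hbig.le
    rw [hA0V]
    apply mul_le_mul_of_nonneg_left hx6 (by positivity)
  set α := P.coeff (K' + 1) with hα
  set β := (q : ℝ) * (((K' : ℝ) + 1) * α) with hβ
  obtain ⟨q', hq'1, hq'le, hq'⟩ := top_finish M V (x ^ E0) β H hHmem hV1 hxE hM K' hK hMV hgood hVV
  refine ⟨q' * (q * (K' + 1)), ?_, ?_, ?_⟩
  · have : 1 ≤ q * (K' + 1) := Nat.mul_pos hq1 (by omega)
    exact Nat.mul_pos hq'1 this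
  · push_cast
    have h2 : (K' : ℝ) + 1 ≤ x ^ (K' + 1) := by
      have h3 : ((K' + 1 : ℕ) : ℝ) ≤ 2 ^ (K' + 1) := by
        exact_mod_cast (Nat.lt_two_pow_self).le
      have := const_le_pow hx (K' + 1) (K' + 1) h3
      push_cast at this
      exact this
    have h3 : (5 : ℝ) ≤ x ^ 3 := by
      have := pow_le_pow_left₀ (by norm_num : (0 : ℝ) ≤ 2) hx 3
      linarith
    have hq0 : (0 : ℝ) ≤ q := by positivity
    calc (q' : ℝ) * ((q : ℝ) * ((K' : ℝ) + 1)) ≤ (5 * V) * (x ^ (5 * C') * x ^ (K' + 1)) := by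
          apply mul_le_mul hq'le _ (by positivity) (by positivity)
          apply mul_le_mul hqle h2 (by positivity) (by positivity)
      _ ≤ (x ^ 3 * V) * (x ^ (5 * C') * x ^ (K' + 1)) := by
          apply mul_le_mul_of_nonneg_right _ (by positivity)
          apply mul_le_mul_of_nonneg_right h3 hVpos.le
      _ = x ^ (3 + Aν + (5 * C' + (K' + 1))) := by
          rw [hV, pow_add, pow_add, pow_add]; ring
      _ ≤ x ^ C1 := pow_mono_x hx (by omega)
  · have h1 : ((q' * (q * (K' + 1)) : ℕ) : ℝ) * α = (q' : ℝ) * β := by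
      rw [hβ]; push_cast; ring
    rw [h1]
    have h5 : 5 * V * V * x ^ E0 ≤ x ^ A0 := by
      rw [hA0V]
      have h6 : 0 ≤ V * V * x ^ E0 := by positivity
      nlinarith
    calc _ ≤ 5 * V * V * x ^ E0 := hq'
      _ ≤ x ^ A0 := h5
      _ ≤ x ^ C1 := pow_mono_x hx (by
          have : A0 ≤ A0 * (K' + 1) := Nat.le_mul_of_pos_right _ (by omega)
          omega)



/-! ### Averaging over translates -/

lemma avg_shift (F : ℕ → ℂ) (hF : ∀ y, ‖F y‖ ≤ 1) (L L' s : ℕ) (hs : s ≤ L') :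
    ‖∑ y ∈ range L, F (y + s) - ∑ y ∈ range (L + L'), F y‖ ≤ L' := by
  have h1 : L + L' = s + (L + (L' - s)) := by omega
  rw [h1, Finset.sum_range_add, Finset.sum_range_add]
  have h2 : ∑ y ∈ range L, F (y + s) = ∑ y ∈ range L, F (s + y) :=
    Finset.sum_congr rfl (fun y _ => by rw [add_comm])
  rw [h2]
  have h3 : ∑ y ∈ range L, F (s + y) -
      (∑ y ∈ range s, F y + (∑ y ∈ range L, F (s + y) + ∑ y ∈ range (L' - s), F (s + (L + y)))) =
      -(∑ y ∈ range s, F y + ∑ y ∈ range (L' - s), F (s + (L + y))) := by ring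
  rw [h3, norm_neg]
  have h4 : ‖∑ y ∈ range s, F y‖ ≤ s := by
    calc _ ≤ ∑ y ∈ range s, ‖F y‖ := norm_sum_le _ _
      _ ≤ ∑ y ∈ range s, (1 : ℝ) := Finset.sum_le_sum (fun y _ => hF y)
      _ = s := by simp
  have h5 : ‖∑ y ∈ range (L' - s), F (s + (L + y))‖ ≤ ((L' - s : ℕ) : ℝ) := by
    calc _ ≤ ∑ y ∈ range (L' - s), ‖F (s + (L + y))‖ := norm_sum_le _ _
      _ ≤ ∑ y ∈ range (L' - s), (1 : ℝ) := Finset.sum_le_sum (fun y _ => hF _)
      _ = _ := by simp
  have h6 : ((L' - s : ℕ) : ℝ) = (L' : ℝ) - s := by rw [Nat.cast_sub hs]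
  calc _ ≤ ‖∑ y ∈ range s, F y‖ + ‖∑ y ∈ range (L' - s), F (s + (L + y))‖ := norm_add_le _ _
    _ ≤ L' := by linarith

lemma avg_exists (F : ℕ → ℂ) (hF : ∀ y, ‖F y‖ ≤ 1) (M D Z : ℕ) (hDZ : D * Z < M) :
    ∃ y0 : ℕ, y0 + D * Z < M ∧
      (Z : ℝ) * (‖∑ y ∈ range M, F y‖ - (D * Z : ℕ)) ≤ ‖∑ z ∈ range Z, F (y0 + D * z)‖ * M := by
  set L := M - D * Z with hL
  set L' := D * Z with hL'
  have hML : L + L' = M := by omega
  have hLne : (range L).Nonempty := ⟨0, Finset.mem_range.mpr (by omega)⟩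
  obtain ⟨y0, hy0, hmax⟩ := Finset.exists_max_image (range L)
    (fun y0 => ‖∑ z ∈ range Z, F (y0 + D * z)‖) hLne
  refine ⟨y0, ?_, ?_⟩
  · have := Finset.mem_range.mp hy0
    omega
  set S := ∑ y ∈ range M, F y with hS
  set A := ∑ y0 ∈ range L, ∑ z ∈ range Z, F (y0 + D * z) with hA
  have hA2 : A = ∑ z ∈ range Z, ∑ y0 ∈ range L, F (y0 + D * z) := Finset.sum_comm
  have hz : ∀ z ∈ range Z, ‖∑ y0 ∈ range L, F (y0 + D * z) - S‖ ≤ L' := by
    intro z hz
    have hzZ : D * z ≤ L' := Nat.mul_le_mul_left _ (Finset.mem_range.mp hz).le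
    have := avg_shift F hF L L' (D * z) hzZ
    rwa [hML] at this
  have h1 : ‖A - (Z : ℂ) * S‖ ≤ Z * L' := by
    have : A - (Z : ℂ) * S = ∑ z ∈ range Z, (∑ y0 ∈ range L, F (y0 + D * z) - S) := by
      rw [hA2, Finset.sum_sub_distrib]
      simp
    rw [this]
    calc _ ≤ ∑ z ∈ range Z, ‖∑ y0 ∈ range L, F (y0 + D * z) - S‖ := norm_sum_le _ _
      _ ≤ ∑ z ∈ range Z, (L' : ℝ) := Finset.sum_le_sum hz
      _ = _ := by simp
  have h2 : (Z : ℝ) * ‖S‖ - Z * L' ≤ ‖A‖ := by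
    have h3 : ‖(Z : ℂ) * S‖ = Z * ‖S‖ := by simp
    have h4 : ‖(Z : ℂ) * S‖ ≤ ‖A‖ + ‖A - (Z : ℂ) * S‖ := by
      have : (Z : ℂ) * S = A - (A - (Z : ℂ) * S) := by ring
      calc ‖(Z : ℂ) * S‖ = ‖A - (A - (Z : ℂ) * S)‖ := by rw [← this]
        _ ≤ _ := norm_sub_le _ _
    linarith
  have h5 : ‖A‖ ≤ L * ‖∑ z ∈ range Z, F (y0 + D * z)‖ := by
    calc _ ≤ ∑ y ∈ range L, ‖∑ z ∈ range Z, F (y + D * z)‖ := norm_sum_le _ _
      _ ≤ ∑ y ∈ range L, ‖∑ z ∈ range Z, F (y0 + D * z)‖ := Finset.sum_le_sum hmax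
      _ = _ := by simp
  have h6 : (L : ℝ) ≤ M := by exact_mod_cast Nat.sub_le _ _
  have h7 : (L : ℝ) * ‖∑ z ∈ range Z, F (y0 + D * z)‖ ≤ ‖∑ z ∈ range Z, F (y0 + D * z)‖ * M := by
    rw [mul_comm]
    exact mul_le_mul_of_nonneg_left h6 (norm_nonneg _)
  have h8 : (Z : ℝ) * (‖S‖ - (L' : ℕ)) = Z * ‖S‖ - Z * L' := by ring
  rw [h8]
  linarith

/-! ### Removing the top term -/

lemma pow_expand (y0 D z K M : ℕ) (h1 : y0 + D * z ≤ M) :
    ∃ n : ℕ, (y0 + D * z) ^ K = y0 ^ K + D * n ∧ n ≤ K * M ^ (K - 1) * z := by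
  set y := y0 + D * z with hy
  refine ⟨z * ∑ i ∈ range K, y ^ i * y0 ^ (K - 1 - i), ?_, ?_⟩
  · have h2 := geom_sum₂_mul (y : ℤ) (y0 : ℤ) K
    have h3 : (y : ℤ) - y0 = D * z := by rw [hy]; push_cast; ring
    rw [h3] at h2
    have h4 : (y : ℤ) ^ K = y0 ^ K + D * (z * ∑ i ∈ range K, (y : ℤ) ^ i * y0 ^ (K - 1 - i)) := by
      linear_combination -h2
    exact_mod_cast h4
  · have h2 : ∑ i ∈ range K, y ^ i * y0 ^ (K - 1 - i) ≤ K * M ^ (K - 1) := by
      have hy0 : y0 ≤ M := by omega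
      calc _ ≤ ∑ i ∈ range K, M ^ (K - 1) := by
            apply Finset.sum_le_sum
            intro i hi
            have hi' := Finset.mem_range.mp hi
            have : K - 1 = i + (K - 1 - i) := by omega
            conv_rhs => rw [this, pow_add]
            exact Nat.mul_le_mul (Nat.pow_le_pow_left h1 _) (Nat.pow_le_pow_left hy0 _)
        _ = _ := by simp
    calc _ ≤ z * (K * M ^ (K - 1)) := Nat.mul_le_mul_left _ h2
      _ = _ := by ring

/-- the polynomial without its top term -/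
noncomputable def Pcut (P : ℝ[X]) (K : ℕ) : ℝ[X] := P - monomial K (P.coeff K)

lemma Pcut_eval (P : ℝ[X]) (K : ℕ) (t : ℝ) : (Pcut P K).eval t = P.eval t - P.coeff K * t ^ K := by
  unfold Pcut
  rw [eval_sub, eval_monomial]

lemma Pcut_coeff (P : ℝ[X]) (K i : ℕ) (hi : i ≠ K) : (Pcut P K).coeff i = P.coeff i := by
  unfold Pcut
  rw [coeff_sub, coeff_monomial, if_neg (Ne.symm hi), sub_zero]

lemma Pcut_natDegree {K' : ℕ} (P : ℝ[X]) (hP : P.natDegree ≤ K' + 1) : (Pcut P (K' + 1)).natDegree ≤ K' := by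
  rw [natDegree_le_iff_coeff_eq_zero]
  intro N hN
  unfold Pcut
  rw [coeff_sub, coeff_monomial]
  by_cases h : K' + 1 = N
  · subst h; simp
  · rw [if_neg h, sub_zero]
    exact coeff_eq_zero_of_natDegree_lt (by omega)

/-- On a short progression of common difference `D` the top term of the polynomial phase is nearly constant. -/
lemma reduce_top (K' : ℕ) (M : ℕ) (x : ℝ) (P : ℝ[X]) (hx : 2 ≤ x) (D Z y0 C1 : ℕ) (hM : 1 ≤ M)
    (hDa : nint ((D : ℝ) * P.coeff (K' + 1)) * (M : ℝ) ^ (K' + 1) ≤ x ^ C1)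
    (hZ : (Z : ℝ) * x ^ (C1 + K' + 7) ≤ M) (hy : y0 + D * Z < M)
    (hsum : 3 * (Z : ℝ) ≤ 4 * x * ‖∑ z ∈ range Z, e (P.eval ((y0 + D * z : ℕ) : ℝ))‖) :
    (Z : ℝ) ≤ 2 * x * ‖∑ z ∈ range Z, e ((Pcut P (K' + 1)).eval ((y0 + D * z : ℕ) : ℝ))‖ := by
  set K := K' + 1 with hK
  set α := P.coeff K with hα
  have hx0 : 0 < x := by linarith
  have hM0 : (0 : ℝ) < M := by exact_mod_cast hM
  set b := round ((D : ℝ) * α) with hb
  set θ := (D : ℝ) * α - b with hθ
  have hθn : nint ((D : ℝ) * α) = |θ| := rfl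
  set c := e (α * (y0 : ℝ) ^ K) with hc
  have hcn : ‖c‖ = 1 := weyl_norm_e _
  have hterm : ∀ z ∈ range Z,
      ‖e (P.eval ((y0 + D * z : ℕ) : ℝ)) - c * e ((Pcut P K).eval ((y0 + D * z : ℕ) : ℝ))‖ ≤ 1 / (4 * x) := by
    intro z hz
    have hzZ : z < Z := Finset.mem_range.mp hz
    have hle : y0 + D * z ≤ M := by
      have : D * z ≤ D * Z := Nat.mul_le_mul_left _ hzZ.le
      omega
    obtain ⟨n, hn1, hn2⟩ := pow_expand y0 D z K M hle
    set y := y0 + D * z with hydef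
    have hPev : P.eval (y : ℝ) = (Pcut P K).eval (y : ℝ) + α * (y0 : ℝ) ^ K + (θ * n + ((b * n : ℤ) : ℝ)) := by
      rw [Pcut_eval]
      have h1 : ((y : ℕ) : ℝ) ^ K = (y0 : ℝ) ^ K + D * n := by exact_mod_cast hn1
      rw [h1, hθ]
      push_cast
      ring
    have he : e (P.eval (y : ℝ)) = c * e ((Pcut P K).eval (y : ℝ)) * e (θ * n) := by
      rw [hPev, e_add, e_add, e_add, e_int, mul_one, hc]
      ring
    rw [he]
    have h3 : c * e ((Pcut P K).eval (y : ℝ)) * e (θ * n) - c * e ((Pcut P K).eval (y : ℝ)) =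
        c * e ((Pcut P K).eval (y : ℝ)) * (e (θ * n) - 1) := by ring
    rw [h3, norm_mul, norm_mul, hcn, weyl_norm_e, one_mul, one_mul]
    refine (norm_e_sub_one_le _).trans ?_
    -- numeric bound
    have hnR : (n : ℝ) ≤ K * (M : ℝ) ^ (K - 1) * z := by exact_mod_cast hn2
    have hzR : (z : ℝ) ≤ Z := by exact_mod_cast hzZ.le
    have hK1 : K - 1 = K' := by omega
    rw [hK1] at hnR
    rw [abs_mul, Nat.abs_cast, ← hθn]
    have hw0 := nint_nonneg ((D : ℝ) * α)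
    set w := nint ((D : ℝ) * α) with hw
    have hpi : 2 * Real.pi ≤ 7 := by
      have := Real.pi_lt_d2
      linarith
    have hKR : (0 : ℝ) ≤ K := by positivity
    have hMp : (0 : ℝ) < (M : ℝ) ^ K' := by positivity
    -- w * n * M ≤ K * x^C1 * z
    have h5 : w * n * M ≤ K * x ^ C1 * Z := by
      have h6 : w * (M : ℝ) ^ K ≤ x ^ C1 := hDa
      have h7 : (M : ℝ) ^ K = (M : ℝ) ^ K' * M := by rw [hK, pow_succ]
      rw [h7] at h6
      calc w * n * M ≤ w * (K * (M : ℝ) ^ K' * Z) * M := by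
            apply mul_le_mul_of_nonneg_right _ hM0.le
            apply mul_le_mul_of_nonneg_left _ hw0
            refine hnR.trans ?_
            exact mul_le_mul_of_nonneg_left hzR (by positivity)
        _ = K * (w * ((M : ℝ) ^ K' * M)) * Z := by ring
        _ ≤ K * x ^ C1 * Z := by
            apply mul_le_mul_of_nonneg_right _ (by positivity)
            exact mul_le_mul_of_nonneg_left h6 hKR
    -- absorb constants
    have hxp : x ^ (C1 + K' + 7) = x ^ C1 * x ^ (K' + 1) * x * x ^ 5 := by ring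
    have hK2 : (K : ℝ) ≤ x ^ (K' + 1) := by
      have h3 : ((K : ℕ) : ℝ) ≤ 2 ^ K := by exact_mod_cast (Nat.lt_two_pow_self).le
      exact const_le_pow hx K K h3
    have h32 : (32 : ℝ) ≤ x ^ 5 := by
      have := pow_le_pow_left₀ (by norm_num : (0 : ℝ) ≤ 2) hx 5
      linarith
    have h8 : w * n ≤ 1 / (28 * x) := by
      rw [le_div_iff₀ (by positivity)]
      have h9 : w * n * M * (x ^ (K' + 1) * x * x ^ 5) ≤ M * (x ^ (K' + 1)) * 1 * 1 * 1 := by
        have hB : w * n * M * (x ^ (K' + 1) * x * x ^ 5) ≤ (K * x ^ C1 * Z) * (x ^ (K' + 1) * x * x ^ 5) :=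
          mul_le_mul_of_nonneg_right h5 (by positivity)
        have hB2 : (K * x ^ C1 * Z) * (x ^ (K' + 1) * x * x ^ 5) = K * (Z * x ^ (C1 + K' + 7)) := by
          rw [hxp]; ring
        rw [hB2] at hB
        calc _ ≤ K * (Z * x ^ (C1 + K' + 7)) := hB
          _ ≤ K * M := mul_le_mul_of_nonneg_left hZ hKR
          _ ≤ x ^ (K' + 1) * M := mul_le_mul_of_nonneg_right hK2 hM0.le
          _ = _ := by ring
      have hp1 : 0 < x ^ (K' + 1) := by positivity
      have h10 : w * n * (x * x ^ 5) ≤ 1 := by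
        have h11 : (M * x ^ (K' + 1)) * (w * n * (x * x ^ 5)) ≤ (M * x ^ (K' + 1)) * 1 := by
          calc _ = w * n * M * (x ^ (K' + 1) * x * x ^ 5) := by ring
            _ ≤ _ := h9
            _ = _ := by ring
        exact le_of_mul_le_mul_left h11 (by positivity)
      have h12 : 0 ≤ w * n := by positivity
      calc w * n * (28 * x) ≤ w * n * (x ^ 5 * x) := by
            apply mul_le_mul_of_nonneg_left _ h12
            apply mul_le_mul_of_nonneg_right _ hx0.le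
            linarith
        _ = w * n * (x * x ^ 5) := by ring
        _ ≤ 1 := h10
    have h13 : 2 * Real.pi * (w * n) ≤ 7 * (1 / (28 * x)) := by
      apply mul_le_mul hpi h8 (by positivity) (by norm_num)
    have h14 : 7 * (1 / (28 * x)) = 1 / (4 * x) := by
      field_simp; norm_num
    linarith
  have hall : ‖∑ z ∈ range Z, e (P.eval ((y0 + D * z : ℕ) : ℝ)) -
      c * ∑ z ∈ range Z, e ((Pcut P K).eval ((y0 + D * z : ℕ) : ℝ))‖ ≤ Z * (1 / (4 * x)) := by
    rw [Finset.mul_sum, ← Finset.sum_sub_distrib]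
    calc _ ≤ ∑ z ∈ range Z, ‖e (P.eval ((y0 + D * z : ℕ) : ℝ)) - c * e ((Pcut P K).eval ((y0 + D * z : ℕ) : ℝ))‖ :=
          norm_sum_le _ _
      _ ≤ ∑ z ∈ range Z, (1 / (4 * x)) := Finset.sum_le_sum hterm
      _ = _ := by simp
  set U := ∑ z ∈ range Z, e (P.eval ((y0 + D * z : ℕ) : ℝ)) with hU
  set W := ∑ z ∈ range Z, e ((Pcut P K).eval ((y0 + D * z : ℕ) : ℝ)) with hW
  have h15 : ‖U‖ ≤ ‖W‖ + Z * (1 / (4 * x)) := by
    have h16 : U = c * W + (U - c * W) := by ring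
    calc ‖U‖ = ‖c * W + (U - c * W)‖ := by rw [← h16]
      _ ≤ ‖c * W‖ + ‖U - c * W‖ := norm_add_le _ _
      _ ≤ _ := by
        rw [norm_mul, hcn, one_mul]
        linarith
  have h17 : (Z : ℝ) * (1 / (4 * x)) * (4 * x) = Z := by
    field_simp
  have h18 : 4 * x * ‖U‖ ≤ 4 * x * ‖W‖ + Z := by
    have := mul_le_mul_of_nonneg_left h15 (by positivity : (0 : ℝ) ≤ 4 * x)
    nlinarith
  nlinarith



lemma nint_sum_le {ι : Type*} (s : Finset ι) (f : ι → ℝ) : nint (∑ i ∈ s, f i) ≤ ∑ i ∈ s, nint (f i) := by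
  classical
  induction s using Finset.induction_on with
  | empty => simp [nint]
  | insert a s ha ih =>
    rw [Finset.sum_insert ha, Finset.sum_insert ha]
    exact (nint_add_le _ _).trans (by linarith)

/-- Translating back: small coefficients of `β` give small coefficients of `β(X - y0)`. -/
lemma coeff_back (K' : ℕ) (β : ℝ[X]) (hβ : β.natDegree ≤ K') (y0 M Q : ℕ) (hy : y0 ≤ M) (E : ℝ) (hE : 0 ≤ E)
    (h : ∀ j ∈ Icc 1 K', nint ((Q : ℝ) * β.coeff j) * (M : ℝ) ^ j ≤ E) (i : ℕ) (hi : i ∈ Icc 1 K') :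
    nint ((Q : ℝ) * (taylor (-(y0 : ℝ)) β).coeff i) * (M : ℝ) ^ i ≤ ((K' : ℝ) + 1) * (2 ^ K' * E) := by
  have hi' := Finset.mem_Icc.mp hi
  rw [taylor_coeff_eq β hβ, Finset.mul_sum]
  have hMi : (0 : ℝ) ≤ (M : ℝ) ^ i := by positivity
  have hb : ∀ j ∈ range (K' + 1),
      nint ((Q : ℝ) * (((j.choose i : ℕ) : ℝ) * β.coeff j * (-(y0 : ℝ)) ^ (j - i))) * (M : ℝ) ^ i ≤ 2 ^ K' * E := by
    intro j hj
    have hj' : j ≤ K' := by
      have := Finset.mem_range.mp hj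
      omega
    by_cases hji : j < i
    · rw [Nat.choose_eq_zero_of_lt hji]
      simp only [Nat.cast_zero, zero_mul, mul_zero]
      have : nint 0 = 0 := by simp [nint]
      rw [this, zero_mul]
      positivity
    · push Not at hji
      have hj1 : j ∈ Icc 1 K' := Finset.mem_Icc.mpr ⟨by omega, hj'⟩
      set n : ℤ := ((j.choose i : ℕ) : ℤ) * (-(y0 : ℤ)) ^ (j - i) with hn
      have hnR : (n : ℝ) = ((j.choose i : ℕ) : ℝ) * (-(y0 : ℝ)) ^ (j - i) := by
        rw [hn]; push_cast; ring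
      have h1 : (Q : ℝ) * (((j.choose i : ℕ) : ℝ) * β.coeff j * (-(y0 : ℝ)) ^ (j - i)) =
          (n : ℝ) * ((Q : ℝ) * β.coeff j) := by
        rw [hnR]; ring
      rw [h1]
      have h2 := nint_int_mul_le n ((Q : ℝ) * β.coeff j)
      have h3 : |(n : ℝ)| ≤ 2 ^ K' * (M : ℝ) ^ (j - i) := by
        rw [hnR, abs_mul, abs_pow, abs_neg, Nat.abs_cast, Nat.abs_cast]
        apply mul_le_mul _ _ (by positivity) (by positivity)
        · have : j.choose i ≤ 2 ^ K' := (Nat.choose_le_two_pow j i).trans (Nat.pow_le_pow_right (by norm_num) hj')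
          exact_mod_cast this
        · exact pow_le_pow_left₀ (by positivity) (by exact_mod_cast hy) _
      have h4 := nint_nonneg ((Q : ℝ) * β.coeff j)
      have h5 := h j hj1
      have h6 : (M : ℝ) ^ (j - i) * (M : ℝ) ^ i = (M : ℝ) ^ j := by
        rw [← pow_add, Nat.sub_add_cancel hji]
      calc nint ((n : ℝ) * ((Q : ℝ) * β.coeff j)) * (M : ℝ) ^ i
          ≤ (|(n : ℝ)| * nint ((Q : ℝ) * β.coeff j)) * (M : ℝ) ^ i :=
            mul_le_mul_of_nonneg_right h2 hMi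
        _ ≤ ((2 ^ K' * (M : ℝ) ^ (j - i)) * nint ((Q : ℝ) * β.coeff j)) * (M : ℝ) ^ i := by
            apply mul_le_mul_of_nonneg_right _ hMi
            exact mul_le_mul_of_nonneg_right h3 h4
        _ = 2 ^ K' * (nint ((Q : ℝ) * β.coeff j) * ((M : ℝ) ^ (j - i) * (M : ℝ) ^ i)) := by ring
        _ ≤ 2 ^ K' * E := by
            rw [h6]
            exact mul_le_mul_of_nonneg_left h5 (by positivity)
  calc _ ≤ (∑ j ∈ range (K' + 1), nint ((Q : ℝ) * (((j.choose i : ℕ) : ℝ) * β.coeff j * (-(y0 : ℝ)) ^ (j - i)))) * (M : ℝ) ^ i :=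
        mul_le_mul_of_nonneg_right (nint_sum_le _ _) hMi
    _ = ∑ j ∈ range (K' + 1), nint ((Q : ℝ) * (((j.choose i : ℕ) : ℝ) * β.coeff j * (-(y0 : ℝ)) ^ (j - i))) * (M : ℝ) ^ i := by
        rw [Finset.sum_mul]
    _ ≤ ∑ j ∈ range (K' + 1), (2 ^ K' * E) := Finset.sum_le_sum hb
    _ = _ := by simp

/-- Find a short progression on which the phase without the top term has a large sum, then use `WP` there. -/
lemma descent_get (K' C' C1 : ℕ) (hW : WP K' C') (M : ℕ) (x : ℝ) (P : ℝ[X]) (D : ℕ) (hM : 1 ≤ M)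
    (hx : 2 ≤ x) (hP : P.natDegree ≤ K' + 1)
    (hS : (M : ℝ) ≤ x * ‖∑ y ∈ range M, e (P.eval (y : ℝ))‖)
    (hD1 : 1 ≤ D) (hD : (D : ℝ) ≤ x ^ C1)
    (hDa : nint ((D : ℝ) * P.coeff (K' + 1)) * (M : ℝ) ^ (K' + 1) ≤ x ^ C1)
    (hbig : x ^ (C1 + K' + 7) ≤ (M : ℝ)) :
    ∃ (y0 Z q2 : ℕ), y0 ≤ M ∧ 1 ≤ Z ∧ (M : ℝ) ≤ 2 * x ^ (C1 + K' + 7) * Z ∧ 1 ≤ q2 ∧ (q2 : ℝ) ≤ (2 * x) ^ C' ∧
      ∀ i ∈ Icc 1 K', nint ((q2 : ℝ) * ((taylor (y0 : ℝ) (Pcut P (K' + 1))).coeff i * (D : ℝ) ^ i)) * (Z : ℝ) ^ i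
        ≤ (2 * x) ^ C' := by
  set C2 := C1 + K' + 7 with hC2
  have hx0 : 0 < x := by linarith
  have hM0 : (0 : ℝ) < M := by exact_mod_cast hM
  have hXp : 0 < x ^ C2 := by positivity
  set Z := ⌊(M : ℝ) / x ^ C2⌋₊ with hZ
  have hdiv1 : 1 ≤ (M : ℝ) / x ^ C2 := by
    rw [le_div_iff₀ hXp]; linarith
  have hZ1 : 1 ≤ Z := Nat.le_floor (by simpa using hdiv1)
  have hZle : (Z : ℝ) ≤ (M : ℝ) / x ^ C2 := Nat.floor_le (by positivity)
  have hZmul : (Z : ℝ) * x ^ C2 ≤ M := by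
    rwa [le_div_iff₀ hXp] at hZle
  have hZR1 : (1 : ℝ) ≤ Z := by exact_mod_cast hZ1
  have hZge : (M : ℝ) ≤ 2 * x ^ C2 * Z := by
    have h1 := Nat.lt_floor_add_one ((M : ℝ) / x ^ C2)
    rw [← hZ, div_lt_iff₀ hXp] at h1
    nlinarith
  have hp : x ^ C2 = x ^ C1 * x ^ (K' + 7) := by
    rw [hC2]; ring
  have hDZ : ((D * Z : ℕ) : ℝ) * (4 * x) ≤ M := by
    have h47 : 4 * x ≤ x ^ (K' + 7) := by
      have h2 : x ^ (K' + 7) = x ^ (K' + 4) * x ^ 2 * x := by ring
      rw [h2]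
      have h3 : 1 ≤ x ^ (K' + 4) := one_le_pow_x hx _
      have h4 : (4 : ℝ) ≤ x ^ 2 := by nlinarith
      have h5 : (1 : ℝ) * 4 ≤ x ^ (K' + 4) * x ^ 2 := mul_le_mul h3 h4 (by norm_num) (by positivity)
      have h6 := mul_le_mul_of_nonneg_right h5 hx0.le
      linarith
    push_cast
    calc (D : ℝ) * Z * (4 * x) ≤ x ^ C1 * Z * x ^ (K' + 7) := by
          apply mul_le_mul _ h47 (by positivity) (by positivity)
          exact mul_le_mul_of_nonneg_right hD (by positivity)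
      _ = Z * x ^ C2 := by rw [hp]; ring
      _ ≤ M := hZmul
  have hDZlt : D * Z < M := by
    have h1 : ((D * Z : ℕ) : ℝ) ≤ (M : ℝ) / (4 * x) := by
      rw [le_div_iff₀ (by positivity)]; exact hDZ
    have h2 : (M : ℝ) / (4 * x) < M := by
      rw [div_lt_iff₀ (by positivity)]
      nlinarith
    have : ((D * Z : ℕ) : ℝ) < M := by linarith
    exact_mod_cast this
  set F : ℕ → ℂ := fun y => e (P.eval (y : ℝ)) with hF
  obtain ⟨y0, hy0, hav⟩ := avg_exists F (fun y => (weyl_norm_e _).le) M D Z hDZlt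
  have hy0M : y0 ≤ M := by omega
  -- lower bound on the sum along the progression
  set U := ‖∑ z ∈ range Z, F (y0 + D * z)‖ with hU
  have hU3 : 3 * (Z : ℝ) ≤ 4 * x * U := by
    have hSx : (M : ℝ) / x ≤ ‖∑ y ∈ range M, F y‖ := by
      rw [div_le_iff₀ hx0]; rw [mul_comm]; exact hS
    have h1 : (M : ℝ) / x - (D * Z : ℕ) ≤ ‖∑ y ∈ range M, F y‖ - (D * Z : ℕ) := by linarith
    have h2 : (3 / 4) * ((M : ℝ) / x) ≤ (M : ℝ) / x - (D * Z : ℕ) := by
      have h3 : ((D * Z : ℕ) : ℝ) ≤ (1 / 4) * ((M : ℝ) / x) := by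
        have h4 : (1 / 4) * ((M : ℝ) / x) = (M : ℝ) / (4 * x) := by field_simp
        rw [h4, le_div_iff₀ (by positivity)]
        exact hDZ
      linarith
    have h5 : (Z : ℝ) * ((3 / 4) * ((M : ℝ) / x)) ≤ U * M := by
      refine le_trans ?_ hav
      apply mul_le_mul_of_nonneg_left _ (by positivity)
      linarith
    have h6 : (Z : ℝ) * ((3 / 4) * ((M : ℝ) / x)) * (4 * x) = 3 * Z * M := by
      field_simp
    have h7 : 3 * (Z : ℝ) * M ≤ (4 * x * U) * M := by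
      rw [← h6]
      calc _ ≤ U * M * (4 * x) := mul_le_mul_of_nonneg_right h5 (by positivity)
        _ = _ := by ring
    exact le_of_mul_le_mul_right h7 hM0
  have hred := reduce_top K' M x P hx D Z y0 C1 hM hDa hZmul hy0 hU3
  -- the polynomial `R`
  set P1 := Pcut P (K' + 1) with hP1
  have hP1deg : P1.natDegree ≤ K' := Pcut_natDegree P hP
  set β := taylor (y0 : ℝ) P1 with hβ
  have hβdeg : β.natDegree ≤ K' := by rw [hβ, natDegree_taylor]; exact hP1deg
  set R := β.comp (C (D : ℝ) * X) with hR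
  have hRdeg : R.natDegree ≤ K' := by
    refine natDegree_comp_le.trans ?_
    have h1 : (C (D : ℝ) * X : ℝ[X]).natDegree ≤ 1 := natDegree_C_mul_le _ _ |>.trans natDegree_X_le
    calc _ ≤ β.natDegree * 1 := Nat.mul_le_mul_left _ h1
      _ ≤ K' := by omega
  have hRev : ∀ z : ℕ, R.eval (z : ℝ) = P1.eval ((y0 + D * z : ℕ) : ℝ) := by
    intro z
    rw [hR, eval_comp, hβ, taylor_eval]
    simp only [eval_mul, eval_C, eval_X]
    push_cast
    ring_nf
  have hsumR : ∑ z ∈ range Z, e (R.eval (z : ℝ)) = ∑ z ∈ range Z, e (P1.eval ((y0 + D * z : ℕ) : ℝ)) :=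
    Finset.sum_congr rfl (fun z _ => by rw [hRev])
  obtain ⟨q2, hq1, hq2, hq3⟩ := hW Z (2 * x) R hZ1 (by linarith) hRdeg (by rw [hsumR]; exact hred)
  refine ⟨y0, Z, q2, hy0M, hZ1, hZge, hq1, hq2, ?_⟩
  intro i hi
  have := hq3 i hi
  rw [hR, comp_C_mul_X_coeff] at this
  exact this



lemma taylor_neg_taylor (y : ℝ) (R : ℝ[X]) : taylor (-y) (taylor y R) = R := by
  rw [taylor_taylor, neg_add_cancel, taylor_zero]

/-- Exponent bookkeeping in the descent. -/
lemma descent_bound (K' C' C1 C2 : ℕ) (M Z D q2 j : ℕ) (x t' t : ℝ) (hx : 2 ≤ x) (hD : (D : ℝ) ≤ x ^ C1)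
    (hZ : (M : ℝ) ≤ 2 * x ^ C2 * Z) (hj : j ≤ K')
    (h : nint ((q2 : ℝ) * t') * (Z : ℝ) ^ j ≤ (2 * x) ^ C')
    (hval : t = (D : ℝ) ^ (K' - j) * ((q2 : ℝ) * t')) :
    nint t * (M : ℝ) ^ j ≤ x ^ (C1 * K') * (x ^ ((C2 + 1) * K') * x ^ (2 * C')) := by
  have hx0 : 0 < x := by linarith
  have hx1 : 1 ≤ x := by linarith
  have h1 : nint t ≤ (D : ℝ) ^ (K' - j) * nint ((q2 : ℝ) * t') := by
    rw [hval]
    have := nint_nat_mul_le (D ^ (K' - j)) ((q2 : ℝ) * t')
    simpa using this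
  have hXC : 1 ≤ x ^ C1 := one_le_pow_x hx _
  have hD2 : (D : ℝ) ^ (K' - j) ≤ x ^ (C1 * K') := by
    calc (D : ℝ) ^ (K' - j) ≤ (x ^ C1) ^ (K' - j) := pow_le_pow_left₀ (by positivity) hD _
      _ ≤ (x ^ C1) ^ K' := pow_le_pow_right₀ hXC (by omega)
      _ = _ := by rw [pow_mul]
  have h2x : 2 * x ≤ x * x := by nlinarith
  have h3 : (2 * x) ^ C' ≤ x ^ (2 * C') := by
    calc (2 * x) ^ C' ≤ (x * x) ^ C' := pow_le_pow_left₀ (by positivity) h2x _
      _ = _ := by rw [two_mul, pow_add, mul_pow]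
  have h4 : (M : ℝ) ^ j ≤ x ^ ((C2 + 1) * K') * (Z : ℝ) ^ j := by
    have h5 : 2 * x ^ C2 ≤ x ^ (C2 + 1) := by
      rw [pow_succ]
      have : 0 < x ^ C2 := by positivity
      nlinarith
    have h6 : (M : ℝ) ≤ x ^ (C2 + 1) * Z :=
      hZ.trans (mul_le_mul_of_nonneg_right h5 (by positivity))
    calc (M : ℝ) ^ j ≤ (x ^ (C2 + 1) * Z) ^ j := pow_le_pow_left₀ (by positivity) h6 _
      _ = (x ^ (C2 + 1)) ^ j * (Z : ℝ) ^ j := by rw [mul_pow]
      _ ≤ (x ^ (C2 + 1)) ^ K' * (Z : ℝ) ^ j := by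
          apply mul_le_mul_of_nonneg_right _ (by positivity)
          exact pow_le_pow_right₀ (one_le_pow_x hx _) hj
      _ = _ := by rw [pow_mul]
  have hn := nint_nonneg ((q2 : ℝ) * t')
  have hnt := nint_nonneg t
  calc nint t * (M : ℝ) ^ j ≤ ((D : ℝ) ^ (K' - j) * nint ((q2 : ℝ) * t')) * (x ^ ((C2 + 1) * K') * (Z : ℝ) ^ j) :=
        mul_le_mul h1 h4 (by positivity) (by positivity)
    _ = (D : ℝ) ^ (K' - j) * (x ^ ((C2 + 1) * K') * (nint ((q2 : ℝ) * t') * (Z : ℝ) ^ j)) := by ring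
    _ ≤ x ^ (C1 * K') * (x ^ ((C2 + 1) * K') * x ^ (2 * C')) := by
        apply mul_le_mul hD2 _ (by positivity) (by positivity)
        apply mul_le_mul_of_nonneg_left (h.trans h3) (by positivity)

/-- Given the top coefficient, the induction step. -/
lemma descent (K' C' C1 : ℕ) (hK : 1 ≤ K') (hW : WP K' C') (M : ℕ) (x : ℝ) (P : ℝ[X]) (D : ℕ) (hM : 1 ≤ M)
    (hx : 2 ≤ x) (hP : P.natDegree ≤ K' + 1)
    (hS : (M : ℝ) ≤ x * ‖∑ y ∈ range M, e (P.eval (y : ℝ))‖)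
    (hD1 : 1 ≤ D) (hD : (D : ℝ) ≤ x ^ C1)
    (hDa : nint ((D : ℝ) * P.coeff (K' + 1)) * (M : ℝ) ^ (K' + 1) ≤ x ^ C1)
    (hbig : x ^ (C1 + K' + 7) ≤ (M : ℝ)) :
    ∃ Q : ℕ, 1 ≤ Q ∧ (Q : ℝ) ≤ x ^ (2 * C' + C1 * K') ∧
      ∀ i ∈ Icc 1 (K' + 1), nint ((Q : ℝ) * P.coeff i) * (M : ℝ) ^ i ≤
        x ^ (C1 * K' + ((C1 + K' + 7 + 1) * K' + (2 * C' + (2 * K' + 1)))) := by
  obtain ⟨y0, Z, q2, hy0, hZ1, hZge, hq1, hq2, hq3⟩ := descent_get K' C' C1 hW M x P D hM hx hP hS hD1 hD hDa hbig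
  set C2 := C1 + K' + 7 with hC2
  have hx0 : 0 < x := by linarith
  have hx1 : 1 ≤ x := by linarith
  have hM0 : (0 : ℝ) < M := by exact_mod_cast hM
  set P1 := Pcut P (K' + 1) with hP1
  have hP1deg : P1.natDegree ≤ K' := Pcut_natDegree P hP
  set β := taylor (y0 : ℝ) P1 with hβ
  have hβdeg : β.natDegree ≤ K' := by rw [hβ, natDegree_taylor]; exact hP1deg
  set E := x ^ (C1 * K') * (x ^ ((C2 + 1) * K') * x ^ (2 * C')) with hE
  have hE0 : 0 ≤ E := by positivity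
  have hE1 : 1 ≤ E := by
    rw [hE]
    have h1 := one_le_pow_x hx (C1 * K')
    have h2 := one_le_pow_x hx ((C2 + 1) * K')
    have h3 := one_le_pow_x hx (2 * C')
    have h4 : 1 ≤ x ^ ((C2 + 1) * K') * x ^ (2 * C') := by nlinarith
    nlinarith
  set Q := q2 * D ^ K' with hQ
  have hj : ∀ j ∈ Icc 1 K', nint ((Q : ℝ) * β.coeff j) * (M : ℝ) ^ j ≤ E := by
    intro j hj
    have hj' := Finset.mem_Icc.mp hj
    apply descent_bound K' C' C1 C2 M Z D q2 j x (β.coeff j * (D : ℝ) ^ j) _ hx hD hZge hj'.2 (hq3 j hj)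
    rw [hQ]
    push_cast
    have : (D : ℝ) ^ K' = (D : ℝ) ^ (K' - j) * (D : ℝ) ^ j := by
      rw [← pow_add, Nat.sub_add_cancel hj'.2]
    rw [this]
    ring
  have hback := coeff_back K' β hβdeg y0 M Q hy0 E hE0 hj
  rw [hβ, taylor_neg_taylor] at hback
  have hxE : ((K' : ℝ) + 1) * (2 ^ K' * E) ≤ x ^ (2 * K' + 1) * E := by
    have h1 : (K' : ℝ) + 1 ≤ x ^ (K' + 1) := by
      have h3 : ((K' + 1 : ℕ) : ℝ) ≤ 2 ^ (K' + 1) := by
        exact_mod_cast (Nat.lt_two_pow_self).le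
      have := const_le_pow hx (K' + 1) (K' + 1) h3
      push_cast at this
      exact this
    have h2 : (2 : ℝ) ^ K' ≤ x ^ K' := pow_le_pow_left₀ (by norm_num) hx _
    have h3 : x ^ (2 * K' + 1) = x ^ (K' + 1) * x ^ K' := by ring
    rw [h3, mul_assoc]
    apply mul_le_mul h1 _ (by positivity) (by positivity)
    exact mul_le_mul_of_nonneg_right h2 hE0
  have hfinal : x ^ (2 * K' + 1) * E = x ^ (C1 * K' + ((C2 + 1) * K' + (2 * C' + (2 * K' + 1)))) := by
    rw [hE]; ring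
  have hQ1 : 1 ≤ Q := Nat.mul_pos hq1 (pow_pos hD1 _)
  have hq2x : (q2 : ℝ) ≤ x ^ (2 * C') := by
    have h2x : 2 * x ≤ x * x := by nlinarith
    calc (q2 : ℝ) ≤ (2 * x) ^ C' := hq2
      _ ≤ (x * x) ^ C' := pow_le_pow_left₀ (by positivity) h2x _
      _ = _ := by rw [two_mul, pow_add, mul_pow]
  have hDK : (D : ℝ) ^ K' ≤ x ^ (C1 * K') := by
    calc (D : ℝ) ^ K' ≤ (x ^ C1) ^ K' := pow_le_pow_left₀ (by positivity) hD _
      _ = _ := by rw [pow_mul]
  refine ⟨Q, hQ1, ?_, ?_⟩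
  · rw [hQ]; push_cast
    calc (q2 : ℝ) * (D : ℝ) ^ K' ≤ x ^ (2 * C') * x ^ (C1 * K') :=
          mul_le_mul hq2x hDK (by positivity) (by positivity)
      _ = _ := by rw [pow_add]
  intro i hi
  have hi' := Finset.mem_Icc.mp hi
  rw [← hfinal]
  by_cases hiK : i = K' + 1
  · subst hiK
    -- top coefficient
    set α := P.coeff (K' + 1) with hα
    have h1 : (Q : ℝ) * α = ((q2 * D ^ (K' - 1) : ℕ) : ℝ) * ((D : ℝ) * α) := by
      rw [hQ]; push_cast
      have : (D : ℝ) ^ K' = (D : ℝ) ^ (K' - 1) * D := by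
        rw [← pow_succ, Nat.sub_add_cancel hK]
      rw [this]; ring
    rw [h1]
    have h2 := nint_nat_mul_le (q2 * D ^ (K' - 1)) ((D : ℝ) * α)
    have hw := nint_nonneg ((D : ℝ) * α)
    have hMp : (0 : ℝ) ≤ (M : ℝ) ^ (K' + 1) := by positivity
    have h4 : (D : ℝ) ^ (K' - 1) * x ^ C1 ≤ x ^ (C1 * K') := by
      have h5 : (D : ℝ) ^ (K' - 1) ≤ (x ^ C1) ^ (K' - 1) := pow_le_pow_left₀ (by positivity) hD _
      calc _ ≤ (x ^ C1) ^ (K' - 1) * x ^ C1 := mul_le_mul_of_nonneg_right h5 (by positivity)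
        _ = (x ^ C1) ^ K' := by rw [← pow_succ, Nat.sub_add_cancel hK]
        _ = _ := by rw [pow_mul]
    calc _ ≤ (((q2 * D ^ (K' - 1) : ℕ) : ℝ) * nint ((D : ℝ) * α)) * (M : ℝ) ^ (K' + 1) :=
          mul_le_mul_of_nonneg_right h2 hMp
      _ = ((q2 * D ^ (K' - 1) : ℕ) : ℝ) * (nint ((D : ℝ) * α) * (M : ℝ) ^ (K' + 1)) := by ring
      _ ≤ ((q2 * D ^ (K' - 1) : ℕ) : ℝ) * x ^ C1 := mul_le_mul_of_nonneg_left hDa (by positivity)
      _ = (q2 : ℝ) * ((D : ℝ) ^ (K' - 1) * x ^ C1) := by push_cast; ring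
      _ ≤ x ^ (2 * C') * x ^ (C1 * K') := mul_le_mul hq2x h4 (by positivity) (by positivity)
      _ ≤ x ^ (2 * K' + 1) * E := by
          rw [hE]
          have h6 := one_le_pow_x hx (2 * K' + 1)
          have h7 := one_le_pow_x hx ((C2 + 1) * K')
          have h8 : 0 < x ^ (2 * C') := by positivity
          have h9 : 0 < x ^ (C1 * K') := by positivity
          have h10 : x ^ (2 * C') * x ^ (C1 * K') ≤ x ^ (2 * C') * x ^ (C1 * K') * (x ^ (2 * K' + 1) * x ^ ((C2 + 1) * K')) := by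
            apply le_mul_of_one_le_right (by positivity)
            nlinarith
          calc _ ≤ _ := h10
            _ = _ := by ring
  · have hiK' : i ≤ K' := by omega
    have hmem : i ∈ Icc 1 K' := Finset.mem_Icc.mpr ⟨hi'.1, hiK'⟩
    have h1 := hback i hmem
    rw [hP1, Pcut_coeff P (K' + 1) i hiK] at h1
    exact h1.trans hxE

theorem wp_exists (k : ℕ) : ∃ C, WP k C := by
  induction k with
  | zero =>
    refine ⟨0, ?_⟩
    intro M x P _ _ _ _
    refine ⟨1, le_rfl, by simp, ?_⟩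
    intro i hi
    rw [Finset.mem_Icc] at hi
    omega
  | succ K' ih =>
    rcases Nat.eq_zero_or_pos K' with h0 | hK
    · subst h0
      exact ⟨1, wp_one⟩
    · obtain ⟨C', hW⟩ := ih
      obtain ⟨C1, hTop⟩ := top_step K' C' hK hW
      set C2 := C1 + K' + 7 with hC2
      set Cf := C2 * (K' + 1) + (2 * C' + C1 * K' + (C1 * K' + ((C2 + 1) * K' + (2 * C' + (2 * K' + 1))))) with hCf
      refine ⟨Cf, ?_⟩
      intro M x P hM hx hP hS
      have hM0 : (0 : ℝ) < M := by exact_mod_cast hM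
      have hM1 : (1 : ℝ) ≤ M := by exact_mod_cast hM
      by_cases hbig : x ^ C2 ≤ (M : ℝ)
      · obtain ⟨D, hD1, hD, hDa⟩ := hTop M x P hM hx hP hS
        obtain ⟨Q, hQ1, hQ, hQi⟩ := descent K' C' C1 hK hW M x P D hM hx hP hS hD1 hD hDa hbig
        rw [← hC2] at hQi
        refine ⟨Q, hQ1, hQ.trans (pow_mono_x hx (by omega)), ?_⟩
        intro i hi
        exact (hQi i hi).trans (pow_mono_x hx (by omega))
      · push Not at hbig
        refine ⟨1, le_rfl, by simpa using one_le_pow_x hx Cf, ?_⟩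
        intro i hi
        have hi' := Finset.mem_Icc.mp hi
        simp only [Nat.cast_one, one_mul]
        have h1 := nint_le_half (P.coeff i)
        have h2 : (M : ℝ) ^ i ≤ x ^ (C2 * (K' + 1)) := by
          calc (M : ℝ) ^ i ≤ (M : ℝ) ^ (K' + 1) := pow_le_pow_right₀ hM1 hi'.2
            _ ≤ (x ^ C2) ^ (K' + 1) := pow_le_pow_left₀ hM0.le hbig.le _
            _ = _ := by rw [pow_mul]
        have h3 : x ^ (C2 * (K' + 1)) ≤ x ^ Cf := pow_mono_x hx (by omega)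
        have h4 : (0 : ℝ) ≤ (M : ℝ) ^ i := by positivity
        have h5 := nint_nonneg (P.coeff i)
        nlinarith

/-- `|∑_{y<M} e(P(y))| ≥ ηM` implies a small `q` with `‖q α_i‖ ≤ η^{-C} M^{-i}` for all coefficients `α_i`, `1 ≤ i ≤ k`. -/
theorem weyl (k : ℕ) : ∃ C : ℕ, 1 ≤ C ∧ ∀ (M : ℕ) (η : ℝ) (P : Polynomial ℝ), 1 ≤ M → 0 < η → η ≤ 1 / 2 →
    P.natDegree ≤ k → η * M ≤ ‖∑ y ∈ range M, e (P.eval (y : ℝ))‖ →
    ∃ q : ℕ, 1 ≤ q ∧ (q : ℝ) ≤ η⁻¹ ^ C ∧
      ∀ i ∈ Icc 1 k, nint ((q : ℝ) * P.coeff i) ≤ η⁻¹ ^ C / (M : ℝ) ^ i := by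
  obtain ⟨C, hC⟩ := wp_exists k
  refine ⟨C + 1, by omega, ?_⟩
  intro M η P hM hη hη2 hP hS
  have hx : 2 ≤ η⁻¹ := by
    rw [le_inv_comm₀ (by norm_num) hη]
    simpa using hη2
  have hS' : (M : ℝ) ≤ η⁻¹ * ‖∑ y ∈ range M, e (P.eval (y : ℝ))‖ := by
    rw [inv_mul_eq_div, le_div_iff₀ hη]
    linarith
  obtain ⟨q, hq1, hq2, hq3⟩ := hC M η⁻¹ P hM hx hP hS'
  have hmono : η⁻¹ ^ C ≤ η⁻¹ ^ (C + 1) := pow_mono_x hx (by omega)
  refine ⟨q, hq1, hq2.trans hmono, ?_⟩
  intro i hi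
  have hM0 : (0 : ℝ) < M := by exact_mod_cast hM
  rw [le_div_iff₀ (by positivity)]
  exact (hq3 i hi).trans hmono

end Vale.Agent.Lib.P042
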